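import Vale.Agent.P042.FS.Defs

namespace Vale.Agent.P042.GS

open Finset Vale.Agent.P042.FS

/-- normalised complete exponential sum -/
noncomputable def cs (k : ℕ) (c : ℕ → ℤ) (q : ℕ) (a : ℤ) : ℂ :=
  (∑ x ∈ range q, ee ((a : ℝ) * (pv k c x : ℝ) / q)) / q

/-- local bound at `p ^ j` -/
noncomputable def gp (k C G p j : ℕ) : ℝ :=
  if p ≤ k ∨ p ≤ G then min 1 (2 * ((G : ℝ) / (p : ℝ) ^ j) ^ (1 / (C : ℝ)))
  else if j = 1 then min 1 ((k : ℝ) / Real.sqrt p)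
  else min ((k : ℝ) / p) (2 * ((G : ℝ) / (p : ℝ) ^ j) ^ (1 / (C : ℝ)))

/-- bound for complete sums -/
noncomputable def gq (k C G q : ℕ) : ℝ := ∏ p ∈ q.primeFactors, gp k C G p (q.factorization p)

/-- weight of a denominator `q` relative to a modulus `M` -/
noncomputable def vq (κ₀ : ℝ) (lam : ℕ → ℝ) (M q : ℕ) : ℝ :=
  ∏ p ∈ q.primeFactors.filter (fun p => M.factorization p < q.factorization p),
    (κ₀ * lam p ^ (q.factorization p - M.factorization p - 1))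

/-- damping base -/
noncomputable def l0 (C : ℕ) : ℝ := (2 : ℝ) ^ (-(1 / (2 * C : ℝ)))

/-- damping factor at `p` -/
noncomputable def lamC (C p : ℕ) : ℝ := if 2 ≤ p then (p : ℝ) ^ (-(1 / (2 * C : ℝ))) else 0

/-- weight of one prime -/
noncomputable def kap (C L : ℕ) : ℝ := 1 / 10 ^ 5 * ((1 - l0 C) / (48 * L))

/-- `A` is dense on no progression of modulus at most `P` in windows of length `H` -/
def NIp (P H : ℕ) (a : ℝ) (A : Finset ℤ) : Prop :=
  ∀ M : ℕ, 1 ≤ M → M ≤ P → ∀ u z : ℤ,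
    ((A.filter (fun x => u ≤ x ∧ x < u + H ∧ x ≡ z [ZMOD M])).card : ℝ) ≤ a * H / M

section prod

variable {ι : Type} [Fintype ι] [DecidableEq ι] {N : ι → ℕ} [∀ i, NeZero (N i)]

/-- denominator of a frequency -/
noncomputable def dn (ξ : ∀ i, ZMod (N i)) : ℕ := ∏ i, addOrderOf (ξ i)

/-- weight of a frequency -/
noncomputable def wt (pr : ι → ℕ) (lam : ι → ℝ) (ρ : ℝ) (ξ : ∀ i, ZMod (N i)) : ℝ :=
  ∏ i ∈ spt ξ, (ρ * lam i ^ ((addOrderOf (ξ i)).factorization (pr i) - 1))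

end prod

/-- bound for the moduli -/
noncomputable def PM (C' C G L : ℕ) : ℕ := ⌈Real.exp (C' * L)⌉₊ * Qi C G (2 * L + 4)

/-- bound for the sizes -/
noncomputable def PB (C' C G L : ℕ) : ℕ := PM C' C G L * (2 * Qi C G (2 * L + 4)) ^ (8 * L + 20)

end Vale.Agent.P042.GS
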