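import Vale.Agent.P042.FS.Circle
import Vale.Agent.P042.GS.Defs

namespace Vale.Agent.P042.GS

open Finset Vale.Agent.P042.FS

namespace C2

theorem ee_add (x y : ℝ) : ee (x + y) = ee x * ee y := by
  unfold ee
  rw [← Complex.exp_add]
  congr 1
  push_cast
  ring

theorem ee_zero : ee 0 = 1 := by simp [ee]

theorem ee_int (k : ℤ) : ee k = 1 := by
  unfold ee
  rw [Complex.exp_eq_one_iff]
  exact ⟨k, by push_cast; ring⟩

theorem ee_pow (x : ℝ) (n : ℕ) : ee x ^ n = ee (n * x) := by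
  unfold ee
  rw [← Complex.exp_nat_mul]
  congr 1
  push_cast
  ring

theorem conj_ee (x : ℝ) : (starRingEnd ℂ) (ee x) = ee (-x) := by
  unfold ee
  rw [← Complex.exp_conj]
  congr 1
  have h2 : (starRingEnd ℂ) 2 = 2 := map_ofNat _ 2
  simp [h2]

theorem ee_eq_one {x : ℝ} (h : ee x = 1) : ∃ k : ℤ, x = k := by
  unfold ee at h
  rw [Complex.exp_eq_one_iff] at h
  obtain ⟨k, hk⟩ := h
  refine ⟨k, ?_⟩
  have h2 : (2 * Real.pi * Complex.I : ℂ) ≠ 0 := Complex.two_pi_I_ne_zero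
  have h3 : (2 * Real.pi * Complex.I : ℂ) * x = (2 * Real.pi * Complex.I : ℂ) * k := by
    rw [hk]
    ring
  have h4 := mul_left_cancel₀ h2 h3
  exact_mod_cast h4

theorem orth (P : ℕ) (hP : 1 ≤ P) (k : ℤ) (hk : |k| < P) :
    ∑ r ∈ range P, ee (k * (r / P : ℝ)) = if k = 0 then (P : ℂ) else 0 := by
  have hP0 : (P : ℝ) ≠ 0 := by
    have : (0 : ℝ) < P := by exact_mod_cast hP
    exact this.ne'
  split_ifs with h
  · subst h
    simp [ee_zero]
  · set z := ee (k / P) with hz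
    have h1 : ∀ r : ℕ, ee (k * (r / P : ℝ)) = z ^ r := by
      intro r
      rw [hz, ee_pow]
      congr 1
      ring
    have h2 : z ^ P = 1 := by
      rw [hz, ee_pow]
      have : (P : ℝ) * (k / P) = k := by field_simp
      rw [this, ee_int]
    have h3 : z ≠ 1 := by
      intro h4
      obtain ⟨b, hb⟩ := ee_eq_one h4
      have h5 : (k : ℝ) = b * P := by
        rw [← hb]
        field_simp
      have h6 : k = b * P := by exact_mod_cast h5
      have h7 : b ≠ 0 := by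
        rintro rfl
        exact h (by simpa using h6)
      rw [h6, abs_mul, Nat.abs_cast] at hk
      have h8 : (1 : ℤ) ≤ |b| := Int.one_le_abs h7
      have h9 : (0 : ℤ) ≤ P := by positivity
      nlinarith
    rw [Finset.sum_congr rfl fun r _ => h1 r, geom_sum_eq h3, h2]
    simp

theorem corr (f : ℤ → ℝ) (N P : ℕ) (hP : 1 ≤ P) (h : ℤ)
    (hh : ∀ x ∈ Ico (0 : ℤ) N, ∀ y ∈ Ico (0 : ℤ) N, |h + y - x| < P) :
    ∑ r ∈ range P, ((‖∑ x ∈ Ico (0 : ℤ) N, (f x : ℂ) * ee (-(x * (r / P : ℝ)))‖ ^ 2 : ℝ) : ℂ) *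
      ee ((r / P : ℝ) * h) =
    P * ((∑ x ∈ Ico (0 : ℤ) N, ∑ y ∈ Ico (0 : ℤ) N, if h + y - x = 0 then f x * f y else 0 : ℝ) : ℂ) := by
  have h1 : ∀ r : ℕ, ((‖∑ x ∈ Ico (0 : ℤ) N, (f x : ℂ) * ee (-(x * (r / P : ℝ)))‖ ^ 2 : ℝ) : ℂ) *
      ee ((r / P : ℝ) * h) = ∑ x ∈ Ico (0 : ℤ) N, ∑ y ∈ Ico (0 : ℤ) N,
        (f x : ℂ) * (f y : ℂ) * ee ((h + y - x : ℤ) * (r / P : ℝ)) := by
    intro r
    have e1 : ((‖∑ x ∈ Ico (0 : ℤ) N, (f x : ℂ) * ee (-(x * (r / P : ℝ)))‖ ^ 2 : ℝ) : ℂ) =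
        (∑ x ∈ Ico (0 : ℤ) N, (f x : ℂ) * ee (-(x * (r / P : ℝ)))) *
        (starRingEnd ℂ) (∑ x ∈ Ico (0 : ℤ) N, (f x : ℂ) * ee (-(x * (r / P : ℝ)))) := by
      rw [Complex.mul_conj, Complex.normSq_eq_norm_sq]
    rw [e1, map_sum, Finset.sum_mul_sum, Finset.sum_mul]
    refine Finset.sum_congr rfl fun x _ => ?_
    rw [Finset.sum_mul]
    refine Finset.sum_congr rfl fun y _ => ?_
    rw [map_mul, conj_ee, Complex.conj_ofReal]
    have e2 : ee ((h + y - x : ℤ) * (r / P : ℝ)) =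
        ee (-(x * (r / P : ℝ))) * ee (- -(y * (r / P : ℝ))) * ee ((r / P : ℝ) * h) := by
      rw [← ee_add, ← ee_add]
      congr 1
      push_cast
      ring
    rw [e2]
    ring
  rw [Finset.sum_congr rfl fun r _ => h1 r, Finset.sum_comm]
  push_cast
  rw [Finset.mul_sum]
  refine Finset.sum_congr rfl fun x hx => ?_
  rw [Finset.sum_comm, Finset.mul_sum]
  refine Finset.sum_congr rfl fun y hy => ?_
  rw [← Finset.mul_sum]
  have e3 := orth P hP (h + y - x) (hh x hx y hy)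
  push_cast at e3
  rw [e3]
  have e4 : ((h + y - x : ℤ) = 0) ↔ (h + y - x = 0) := Iff.rfl
  split_ifs <;> simp <;> ring

theorem cor_eq (f : ℤ → ℝ) (N : ℕ) (h : ℤ) (hf : ∀ x, f x ≠ 0 → 0 ≤ x ∧ x < N) :
    (∑ x ∈ Ico (0 : ℤ) N, ∑ y ∈ Ico (0 : ℤ) N, if h + y - x = 0 then f x * f y else 0) =
      ∑ y ∈ Ico (0 : ℤ) N, f y * f (y + h) := by
  rw [Finset.sum_comm]
  refine Finset.sum_congr rfl fun y _ => ?_
  have h1 : ∀ x : ℤ, (if h + y - x = 0 then f x * f y else 0) =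
      if x = y + h then f y * f (y + h) else 0 := by
    intro x
    by_cases hx : x = y + h
    · subst hx
      rw [if_pos (by ring), if_pos rfl, mul_comm]
    · rw [if_neg (fun h2 => hx (by linarith)), if_neg hx]
  rw [Finset.sum_congr rfl fun x _ => h1 x, Finset.sum_ite_eq']
  split_ifs with h2
  · rfl
  · have h3 : f (y + h) = 0 := by
      by_contra h4
      exact h2 (Finset.mem_Ico.2 (hf _ h4))
    rw [h3, mul_zero]

theorem cor_le (A : Finset ℤ) (N : ℕ) (α : ℝ) (hN : 1 ≤ N)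
    (hA : ∀ x ∈ A, 0 ≤ x ∧ x < N) (hα : (A.card : ℝ) = α * N) (hα0 : 0 < α)
    (h : ℤ) (hh : 0 < h ∧ 4 * h ≤ N) (hav : ∀ x ∈ A, x + h ∉ A)
    (hedge1 : ((A.filter (fun x => x < h)).card : ℝ) ≤ 2 * α * h)
    (hedge2 : ((A.filter (fun x => (N : ℤ) - h ≤ x)).card : ℝ) ≤ 2 * α * h) :
    ∑ y ∈ Ico (0 : ℤ) N, balf A α N y * balf A α N (y + h) ≤ -(α ^ 2 * N / 4) := by
  have hsub : A ⊆ Ico (0 : ℤ) N := fun x hx => Finset.mem_Ico.2 (hA x hx)
  have e0 : ∀ y ∈ Ico (0 : ℤ) N, balf A α N y * balf A α N (y + h) =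
      - α * (if y ∈ A ∧ y + h < N then (1 : ℝ) else 0) -
      α * (if y + h ∈ A then (1 : ℝ) else 0) + α ^ 2 * (if y + h < N then (1 : ℝ) else 0) := by
    intro y hy
    rw [Finset.mem_Ico] at hy
    unfold balf
    have h1 : (0 ≤ y + h ∧ y + h < N) ↔ y + h < N := ⟨fun h => h.2, fun h' => ⟨by omega, h'⟩⟩
    simp only [h1, hy, and_self, if_true]
    by_cases a1 : y ∈ A
    · have a2 := hav y a1
      by_cases a3 : y + h < N <;> simp [a1, a2, a3] <;> ring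
    · by_cases a2 : y + h ∈ A
      · have a3 : y + h < N := (hA _ a2).2
        simp [a1, a2, a3]
        ring
      · by_cases a3 : y + h < N <;> simp [a1, a2, a3] <;> ring
  rw [Finset.sum_congr rfl e0, Finset.sum_add_distrib, Finset.sum_sub_distrib, ← Finset.mul_sum,
    ← Finset.mul_sum, ← Finset.mul_sum]
  have s1 : (A.card : ℝ) - 2 * α * h ≤
      ∑ y ∈ Ico (0 : ℤ) N, (if y ∈ A ∧ y + h < N then (1 : ℝ) else 0) := by
    rw [Finset.sum_boole]
    have e1 : (Ico (0 : ℤ) N).filter (fun y => y ∈ A ∧ y + h < N) =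
        A.filter (fun x => ¬ ((N : ℤ) - h ≤ x)) := by
      ext y
      simp only [Finset.mem_filter]
      constructor
      · rintro ⟨_, h2, h3⟩
        exact ⟨h2, by omega⟩
      · rintro ⟨h2, h3⟩
        exact ⟨hsub h2, h2, by omega⟩
    rw [e1]
    have e2 := Finset.card_filter_add_card_filter_not (s := A) (fun x => (N : ℤ) - h ≤ x)
    have e3 : ((A.filter (fun x => (N : ℤ) - h ≤ x)).card : ℝ) +
        ((A.filter (fun x => ¬ ((N : ℤ) - h ≤ x))).card : ℝ) = A.card := by exact_mod_cast e2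
    linarith
  have s2 : (A.card : ℝ) - 2 * α * h ≤
      ∑ y ∈ Ico (0 : ℤ) N, (if y + h ∈ A then (1 : ℝ) else 0) := by
    rw [Finset.sum_boole]
    have e1 : (A.filter (fun x => ¬ (x < h))).card ≤
        ((Ico (0 : ℤ) N).filter (fun y => y + h ∈ A)).card := by
      refine Finset.card_le_card_of_injOn (fun x => x - h) ?_ ?_
      · intro x hx
        have hx' := Finset.mem_filter.1 (Finset.mem_coe.1 hx)
        have h2 := hA x hx'.1
        simp only [Finset.coe_filter, Finset.mem_Ico, Set.mem_ofPred_eq, sub_add_cancel]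
        exact ⟨⟨by omega, by omega⟩, hx'.1⟩
      · intro x _ y _ hxy
        simp only at hxy
        omega
    have e2 := Finset.card_filter_add_card_filter_not (s := A) (fun x => x < h)
    have e3 : ((A.filter (fun x => x < h)).card : ℝ) +
        ((A.filter (fun x => ¬ (x < h))).card : ℝ) = A.card := by exact_mod_cast e2
    have e4 : ((A.filter (fun x => ¬ (x < h))).card : ℝ) ≤
        (((Ico (0 : ℤ) N).filter (fun y => y + h ∈ A)).card : ℝ) := by exact_mod_cast e1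
    linarith
  have s3 : ∑ y ∈ Ico (0 : ℤ) N, (if y + h < N then (1 : ℝ) else 0) = N - h := by
    rw [Finset.sum_boole]
    have e1 : (Ico (0 : ℤ) N).filter (fun y => y + h < N) = Ico (0 : ℤ) (N - h) := by
      ext y
      simp only [Finset.mem_filter, Finset.mem_Ico]
      omega
    rw [e1, Int.card_Ico]
    have e2 : (((N : ℤ) - h - 0).toNat : ℤ) = N - h := by
      rw [Int.toNat_of_nonneg (by omega)]
      ring
    have e3 : ((((N : ℤ) - h - 0).toNat : ℤ) : ℝ) = ((N - h : ℤ) : ℝ) := by rw [e2]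
    push_cast at e3
    exact_mod_cast e3
  rw [s3]
  rw [hα] at s1 s2
  have h4 : (4 : ℝ) * h ≤ N := by exact_mod_cast hh.2
  have h5 : (0 : ℝ) < h := by exact_mod_cast hh.1
  have m1 := mul_le_mul_of_nonneg_left s1 hα0.le
  have m2 := mul_le_mul_of_nonneg_left s2 hα0.le
  have m3 := mul_le_mul_of_nonneg_left h4 (by positivity : (0 : ℝ) ≤ α ^ 2)
  nlinarith

theorem sq_sum_le (A : Finset ℤ) (N : ℕ) (α : ℝ) (hN : 1 ≤ N)
    (hA : ∀ x ∈ A, 0 ≤ x ∧ x < N) (hα : (A.card : ℝ) = α * N) (hα0 : 0 < α) :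
    ∑ y ∈ Ico (0 : ℤ) N, balf A α N y * balf A α N y ≤ α * N := by
  have hsub : A ⊆ Ico (0 : ℤ) N := fun x hx => Finset.mem_Ico.2 (hA x hx)
  have e0 : ∀ y ∈ Ico (0 : ℤ) N, balf A α N y * balf A α N y =
      (1 - 2 * α) * (if y ∈ A then (1 : ℝ) else 0) + α ^ 2 := by
    intro y hy
    rw [Finset.mem_Ico] at hy
    unfold balf
    simp only [hy, and_self, if_true]
    by_cases a1 : y ∈ A <;> simp [a1] <;> ring
  rw [Finset.sum_congr rfl e0, Finset.sum_add_distrib, ← Finset.mul_sum, Finset.sum_boole,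
    Finset.filter_mem_eq_inter, Finset.inter_eq_right.2 hsub, hα, Finset.sum_const, Int.card_Ico,
    nsmul_eq_mul]
  simp only [sub_zero, Int.toNat_natCast]
  have hc : (0 : ℝ) ≤ α ^ 2 * N := by positivity
  nlinarith

end C2

/-- a set without differences `h n`, `n ∈ T`, has large weighted window energy -/
theorem circle_energy2 (A : Finset ℤ) (N : ℕ) (α : ℝ) (hN : 1 ≤ N)
    (hA : ∀ x ∈ A, 0 ≤ x ∧ x < N) (hα : (A.card : ℝ) = α * N) (hα0 : 0 < α)
    (T : Finset ℕ) (h : ℕ → ℤ) (hT : T.Nonempty) (hh : ∀ n ∈ T, 0 < h n ∧ 4 * h n ≤ N)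
    (hav : ∀ n ∈ T, ∀ x ∈ A, x + h n ∉ A)
    (hedge1 : ∀ n ∈ T, ((A.filter (fun x => x < h n)).card : ℝ) ≤ 2 * α * h n)
    (hedge2 : ∀ n ∈ T, ((A.filter (fun x => (N : ℤ) - h n ≤ x)).card : ℝ) ≤ 2 * α * h n)
    (Q H : ℕ) (hH : 1 ≤ H) (hHN : H ≤ N) (w : ℚ → ℝ) (hw : ∀ θ ∈ farey Q, 0 ≤ w θ)
    (hcov : ∀ θ : ℝ, α / 16 * T.card ≤ ‖∑ n ∈ T, ee (θ * (h n : ℝ))‖ →
      ∃ θ₀ ∈ farey Q, ∃ b : ℤ, |θ - (θ₀ : ℝ) - b| ≤ 1 / (8 * (H : ℝ)) ∧
        ‖∑ n ∈ T, ee (θ * (h n : ℝ))‖ ≤ w θ₀ * T.card) :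
    3 / 16 * α ^ 2 * N ≤ ∑ θ ∈ farey Q, w θ * (4 / (H : ℝ) ^ 2 *
      ∑ y ∈ Ico (-(H : ℤ)) N,
        ‖∑ x ∈ Ico y (y + H), (balf A α N x : ℂ) * ee (-(x * (θ : ℝ)))‖ ^ 2) := by
  classical
  set f := balf A α N with hfdef
  set P : ℕ := 2 * N with hP
  have hP1 : 1 ≤ P := by omega
  have hP0 : (0 : ℝ) < P := by exact_mod_cast hP1
  have hf : ∀ x, f x ≠ 0 → 0 ≤ x ∧ x < N := by
    intro x hx
    by_contra h2
    apply hx
    have h3 : x ∉ A := fun h4 => h2 (hA x h4)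
    simp [hfdef, balf, h2, h3]
  set a : ℕ → ℝ := fun r => ‖∑ x ∈ Ico (0 : ℤ) N, (f x : ℂ) * ee (-(x * (r / P : ℝ)))‖ ^ 2 with ha
  have ha0 : ∀ r, 0 ≤ a r := fun r => by positivity
  set s : ℕ → ℂ := fun r => ∑ n ∈ T, ee ((r / P : ℝ) * (h n : ℝ)) with hs
  have hTc : (0 : ℝ) < T.card := by exact_mod_cast hT.card_pos
  have c1 : ∑ r ∈ range P, (a r : ℂ) * s r =
      P * ((∑ n ∈ T, ∑ y ∈ Ico (0 : ℤ) N, f y * f (y + h n) : ℝ) : ℂ) := by
    simp only [hs, Finset.mul_sum]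
    rw [Finset.sum_comm]
    push_cast
    rw [Finset.mul_sum]
    refine Finset.sum_congr rfl fun n hn => ?_
    have h1 := C2.corr f N P hP1 (h n) (fun x hx y hy => by
      rw [Finset.mem_Ico] at hx hy
      have := hh n hn
      rw [abs_lt]
      constructor <;> omega)
    rw [C2.cor_eq f N (h n) hf] at h1
    have h2 : ∑ r ∈ range P, (a r : ℂ) * ee ((r / P : ℝ) * (h n : ℝ)) =
        P * ((∑ y ∈ Ico (0 : ℤ) N, f y * f (y + h n) : ℝ) : ℂ) := h1
    rw [h2]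
    push_cast
    rfl
  have c2 : (P : ℝ) * (T.card * (α ^ 2 * N / 4)) ≤ ∑ r ∈ range P, a r * ‖s r‖ := by
    have h1 : ∑ n ∈ T, ∑ y ∈ Ico (0 : ℤ) N, f y * f (y + h n) ≤ ∑ n ∈ T, -(α ^ 2 * N / 4) :=
      Finset.sum_le_sum fun n hn => C2.cor_le A N α hN hA hα hα0 (h n) (hh n hn) (hav n hn)
        (hedge1 n hn) (hedge2 n hn)
    rw [Finset.sum_const, nsmul_eq_mul] at h1
    have h2 : ‖∑ r ∈ range P, (a r : ℂ) * s r‖ ≤ ∑ r ∈ range P, a r * ‖s r‖ := by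
      refine (norm_sum_le _ _).trans (le_of_eq ?_)
      refine Finset.sum_congr rfl fun r _ => ?_
      rw [norm_mul, Complex.norm_real, Real.norm_eq_abs, abs_of_nonneg (ha0 r)]
    rw [c1, norm_mul, Complex.norm_natCast, Complex.norm_real, Real.norm_eq_abs] at h2
    refine le_trans (mul_le_mul_of_nonneg_left ?_ hP0.le) h2
    rw [← neg_neg (∑ n ∈ T, ∑ y ∈ Ico (0 : ℤ) N, f y * f (y + h n)), abs_neg]
    refine le_trans ?_ (le_abs_self _)
    linarith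
  have c3 : ∑ r ∈ range P, a r ≤ P * (α * N) := by
    have h1 := C2.corr f N P hP1 0 (fun x hx y hy => by
      rw [Finset.mem_Ico] at hx hy
      rw [abs_lt]
      constructor <;> omega)
    rw [C2.cor_eq f N 0 hf] at h1
    have h2 : (∑ r ∈ range P, (a r : ℂ)) = P * ((∑ y ∈ Ico (0 : ℤ) N, f y * f (y + 0) : ℝ) : ℂ) := by
      rw [← h1]
      refine Finset.sum_congr rfl fun r _ => ?_
      rw [Int.cast_zero, mul_zero, C2.ee_zero, mul_one]
    have h3 : ∑ r ∈ range P, a r = P * ∑ y ∈ Ico (0 : ℤ) N, f y * f (y + 0) := by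
      exact_mod_cast h2
    rw [h3]
    simp only [add_zero]
    exact mul_le_mul_of_nonneg_left (C2.sq_sum_le A N α hN hA hα hα0) hP0.le
  have c4 : ∀ r ∈ range P, a r * ‖s r‖ ≤ a r * (α / 16 * T.card) +
      ∑ θ ∈ farey Q, (if ∃ b : ℤ, |(r / P : ℝ) - (θ : ℝ) - b| ≤ 1 / (8 * (H : ℝ)) then
        a r * (w θ * T.card) else 0) := by
    intro r _
    have hnn : ∀ θ ∈ farey Q, 0 ≤ (if ∃ b : ℤ, |(r / P : ℝ) - (θ : ℝ) - b| ≤ 1 / (8 * (H : ℝ)) then
        a r * (w θ * T.card) else 0) := by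
      intro θ hθ
      split_ifs
      · exact mul_nonneg (ha0 r) (mul_nonneg (hw θ hθ) hTc.le)
      · exact le_rfl
    by_cases hsm : α / 16 * T.card ≤ ‖s r‖
    · obtain ⟨θ₀, hθ₀, b, hb, hle⟩ := hcov (r / P) hsm
      have h1 := Finset.single_le_sum hnn hθ₀
      rw [if_pos ⟨b, hb⟩] at h1
      have h2 : a r * ‖s r‖ ≤ a r * (w θ₀ * T.card) := mul_le_mul_of_nonneg_left hle (ha0 r)
      have h3 : 0 ≤ a r * (α / 16 * T.card) := mul_nonneg (ha0 r) (by positivity)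
      linarith
    · have h1 : a r * ‖s r‖ ≤ a r * (α / 16 * T.card) :=
        mul_le_mul_of_nonneg_left (not_le.1 hsm).le (ha0 r)
      have h2 := Finset.sum_nonneg hnn
      linarith
  have c5 := c2.trans (Finset.sum_le_sum c4)
  rw [Finset.sum_add_distrib, ← Finset.sum_mul, Finset.sum_comm] at c5
  have c6 : ∑ θ ∈ farey Q, ∑ r ∈ range P,
      (if ∃ b : ℤ, |(r / P : ℝ) - (θ : ℝ) - b| ≤ 1 / (8 * (H : ℝ)) then
        a r * (w θ * T.card) else 0) ≤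
      P * (T.card * ∑ θ ∈ farey Q, w θ * (4 / (H : ℝ) ^ 2 *
        ∑ y ∈ Ico (-(H : ℤ)) N,
          ‖∑ x ∈ Ico y (y + H), (f x : ℂ) * ee (-(x * (θ : ℝ)))‖ ^ 2)) := by
    rw [Finset.mul_sum, Finset.mul_sum]
    refine Finset.sum_le_sum fun θ hθ => ?_
    have h1 := window_duality f N H P hH (by omega) hf (θ : ℝ)
    rw [div_le_iff₀ hP0] at h1
    rw [← Finset.sum_filter, ← Finset.sum_mul]
    have h2 := mul_le_mul_of_nonneg_right h1 (mul_nonneg (hw θ hθ) hTc.le)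
    refine le_trans (le_of_eq ?_) (h2.trans (le_of_eq ?_))
    · simp only [ha]
    · ring
  have c7 : (∑ r ∈ range P, a r) * (α / 16 * T.card) ≤ P * (α * N) * (α / 16 * T.card) :=
    mul_le_mul_of_nonneg_right c3 (by positivity)
  have c8 := c5.trans (add_le_add c7 c6)
  have hPT : (0 : ℝ) < P * T.card := by positivity
  refine le_of_mul_le_mul_left ?_ hPT
  nlinarith

end Vale.Agent.P042.GS
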