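import Vale.Agent.P042.GS.Defs

namespace Vale.Agent.P042.GS

open Finset Vale.Agent.P042.FS

/-- the integer polynomial with coefficients `c` -/
noncomputable def cpPoly (k : ℕ) (c : ℕ → ℤ) : Polynomial ℤ :=
  ∑ i ∈ range (k + 1), Polynomial.C (c i) * Polynomial.X ^ i

theorem cp_eval (k : ℕ) (c : ℕ → ℤ) (n : ℤ) : (cpPoly k c).eval n = pv k c n := by
  unfold cpPoly pv
  rw [Polynomial.eval_finsetSum]
  simp

theorem cp_coeff (k : ℕ) (c : ℕ → ℤ) (i : ℕ) (hi : i ≤ k) : (cpPoly k c).coeff i = c i := by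
  unfold cpPoly
  rw [Polynomial.finsetSum_coeff, sum_eq_single i]
  · simp
  · intro j _ hj
    rw [Polynomial.coeff_C_mul, Polynomial.coeff_X_pow, if_neg (fun h => hj h.symm), mul_zero]
  · intro h
    exact absurd (mem_range.2 (by omega)) h

theorem cp_deg (k : ℕ) (c : ℕ → ℤ) : (cpPoly k c).natDegree ≤ k := by
  unfold cpPoly
  apply Polynomial.natDegree_sum_le_of_forall_le
  intro i hi
  rw [mem_range] at hi
  exact (Polynomial.natDegree_C_mul_X_pow_le _ _).trans (by omega)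

theorem cp_ee_add (x y : ℝ) : ee (x + y) = ee x * ee y := by
  unfold ee
  rw [← Complex.exp_add]
  congr 1
  push_cast
  ring

theorem cp_ee_int (n : ℤ) : ee (n : ℝ) = 1 := by
  unfold ee
  rw [show (2 * Real.pi * Complex.I * ((n : ℝ) : ℂ) : ℂ) = (n : ℂ) * (2 * Real.pi * Complex.I) by
    push_cast; ring]
  exact Complex.exp_int_mul_two_pi_mul_I n

theorem cp_ee_norm (x : ℝ) : ‖ee x‖ = 1 := by
  unfold ee
  rw [show (2 * Real.pi * Complex.I * (x : ℂ) : ℂ) = ((2 * Real.pi * x : ℝ) : ℂ) * Complex.I by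
    push_cast; ring]
  exact Complex.norm_exp_ofReal_mul_I _

theorem cp_ee_ne_one {b : ℤ} {p : ℕ} (hp : 0 < p) (hb : ¬ (p : ℤ) ∣ b) :
    ee ((b : ℝ) / p) ≠ 1 := by
  intro h
  unfold ee at h
  rw [Complex.exp_eq_one_iff] at h
  obtain ⟨n, hn⟩ := h
  have h1 : (2 * Real.pi * Complex.I : ℂ) ≠ 0 := Complex.two_pi_I_ne_zero
  have h2 : (((b : ℝ) / p : ℝ) : ℂ) = n := by
    apply mul_left_cancel₀ h1
    rw [hn]
    ring
  have h3 : ((b : ℝ) / p : ℝ) = (n : ℝ) := by exact_mod_cast h2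
  have hp' : (p : ℝ) ≠ 0 := by exact_mod_cast hp.ne'
  rw [div_eq_iff hp'] at h3
  have h4 : b = n * p := by exact_mod_cast h3
  exact hb (Dvd.intro_left n h4.symm)

theorem cp_ee_nat (x : ℝ) (t : ℕ) : ee (x * t) = ee x ^ t := by
  induction t with
  | zero => simp [ee]
  | succ t ih =>
    rw [pow_succ, ← ih, ← cp_ee_add]
    congr 1
    push_cast
    ring

theorem cp_geom {b : ℤ} {p : ℕ} (hp : 0 < p) (hb : ¬ (p : ℤ) ∣ b) :
    ∑ t ∈ range p, ee ((b : ℝ) / p * t) = 0 := by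
  have h1 := cp_ee_ne_one hp hb
  simp only [cp_ee_nat]
  rw [geom_sum_eq h1, ← cp_ee_nat]
  have hp' : (p : ℝ) ≠ 0 := by exact_mod_cast hp.ne'
  rw [div_mul_cancel₀ _ hp', cp_ee_int, sub_self, zero_div]

theorem cp_ee_congr {q : ℕ} (hq : 0 < q) {m n : ℤ} (h : (q : ℤ) ∣ m - n) :
    ee ((m : ℝ) / q) = ee ((n : ℝ) / q) := by
  obtain ⟨w, hw⟩ := h
  have hq' : (q : ℝ) ≠ 0 := by exact_mod_cast hq.ne'
  have h1 : (m : ℝ) / q = (n : ℝ) / q + (w : ℝ) := by
    have : (m : ℝ) = n + q * w := by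
      have : m = n + q * w := by linarith
      exact_mod_cast this
    rw [this]
    field_simp
  rw [h1, cp_ee_add, cp_ee_int, mul_one]

/-- number of residues where the derivative vanishes -/
theorem cp_roots (k : ℕ) (c : ℕ → ℤ) (p : ℕ) (hp : p.Prime) (hpk : k < p)
    (hc : ∃ i, 1 ≤ i ∧ i ≤ k ∧ ¬ (p : ℤ) ∣ c i) :
    ((range p).filter (fun y : ℕ =>
      (p : ℤ) ∣ ((cpPoly k c).derivative).eval (y : ℤ))).card ≤ k := by
  classical
  have : Fact p.Prime := ⟨hp⟩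
  set D := ((cpPoly k c).derivative).map (Int.castRingHom (ZMod p)) with hD
  have hD0 : D ≠ 0 := by
    obtain ⟨i, hi1, hi2, hi3⟩ := hc
    intro h
    have h1 : D.coeff (i - 1) = 0 := by rw [h]; simp
    rw [hD, Polynomial.coeff_map, Polynomial.coeff_derivative,
      show i - 1 + 1 = i by omega, cp_coeff k c i hi2] at h1
    have h2 : ((i - 1 : ℕ) : ℤ) + 1 = i := by omega
    rw [h2] at h1
    have h3 : ((c i * (i : ℤ) : ℤ) : ZMod p) = 0 := by simpa using h1
    rw [ZMod.intCast_zmod_eq_zero_iff_dvd] at h3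
    rcases (Nat.prime_iff_prime_int.1 hp).dvd_or_dvd h3 with h4 | h4
    · exact hi3 h4
    · have h5 : p ∣ i := by exact_mod_cast h4
      have := Nat.le_of_dvd (by omega) h5
      omega
  have hdeg : D.natDegree ≤ k := by
    refine (Polynomial.natDegree_map_le).trans ?_
    refine (Polynomial.natDegree_derivative_le _).trans ?_
    have := cp_deg k c
    omega
  refine le_trans ?_ ((Polynomial.card_roots' D).trans hdeg)
  have h1 : ((range p).filter (fun y : ℕ =>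
      (p : ℤ) ∣ ((cpPoly k c).derivative).eval (y : ℤ))).image (fun y : ℕ => (y : ZMod p)) ⊆
      D.roots.toFinset := by
    intro z hz
    rw [mem_image] at hz
    obtain ⟨y, hy, rfl⟩ := hz
    rw [mem_filter] at hy
    rw [Multiset.mem_toFinset, Polynomial.mem_roots hD0, Polynomial.IsRoot.def, hD]
    have h2 := (ZMod.intCast_zmod_eq_zero_iff_dvd _ p).2 hy.2
    have h3 := Polynomial.eval_map_apply (Int.castRingHom (ZMod p)) (y : ℤ)
      (p := (cpPoly k c).derivative)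
    rw [eq_intCast, Int.cast_natCast] at h3
    rw [h3, eq_intCast]
    exact h2
  have h2 := card_le_card h1
  rw [card_image_of_injOn] at h2
  · exact h2.trans (Multiset.toFinset_card_le _)
  · intro x hx y hy hxy
    rw [coe_filter, Set.mem_ofPred_eq, mem_range] at hx hy
    have h4 : (x : ZMod p) = (y : ZMod p) := hxy
    rw [ZMod.natCast_eq_natCast_iff'] at h4
    rwa [Nat.mod_eq_of_lt hx.1, Nat.mod_eq_of_lt hy.1] at h4

theorem cp_count (k : ℕ) (c : ℕ → ℤ) (p i : ℕ) (hp : p.Prime) (hpk : k < p)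
    (hc : ∃ i, 1 ≤ i ∧ i ≤ k ∧ ¬ (p : ℤ) ∣ c i) :
    ((range (p ^ (i + 1))).filter (fun y : ℕ =>
      (p : ℤ) ∣ ((cpPoly k c).derivative).eval (y : ℤ))).card ≤ k * p ^ i := by
  classical
  set R := (range p).filter (fun y : ℕ =>
      (p : ℤ) ∣ ((cpPoly k c).derivative).eval (y : ℤ)) with hR
  have h1 : ((range (p ^ (i + 1))).filter (fun y : ℕ =>
      (p : ℤ) ∣ ((cpPoly k c).derivative).eval (y : ℤ))).card ≤ (R ×ˢ range (p ^ i)).card := by
    apply card_le_card_of_injOn (fun y => (y % p, y / p))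
    · intro y hy
      rw [coe_filter, Set.mem_ofPred_eq, mem_range] at hy
      rw [coe_product, Set.mem_prod]
      refine ⟨?_, ?_⟩
      · rw [hR, coe_filter, Set.mem_ofPred_eq, mem_range]
        refine ⟨Nat.mod_lt _ hp.pos, ?_⟩
        have h2 : (p : ℤ) ∣ ((cpPoly k c).derivative).eval (y : ℤ) -
            ((cpPoly k c).derivative).eval ((y % p : ℕ) : ℤ) := by
          refine dvd_trans ?_ (Polynomial.sub_dvd_eval_sub (y : ℤ) ((y % p : ℕ) : ℤ) _)
          refine ⟨(y / p : ℕ), ?_⟩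
          have := Nat.mod_add_div y p
          zify at this ⊢
          linarith
        have h3 := dvd_sub hy.2 h2
        rwa [sub_sub_cancel] at h3
      · rw [coe_range, Set.mem_Iio]
        exact Nat.div_lt_of_lt_mul (by rw [← pow_succ']; exact hy.1)
    · intro x _ y _ hxy
      rw [Prod.mk.injEq] at hxy
      rw [← Nat.mod_add_div x p, ← Nat.mod_add_div y p, hxy.1, hxy.2]
  refine h1.trans ?_
  rw [card_product, card_range]
  exact Nat.mul_le_mul_right _ (cp_roots k c p hp hpk hc)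

theorem cp_sum_range (P p : ℕ) (hP : 0 < P) (f : ℕ → ℂ) :
    ∑ x ∈ range (P * p), f x = ∑ y ∈ range P, ∑ t ∈ range p, f (y + P * t) := by
  rw [← sum_product']
  symm
  apply sum_nbij' (fun z : ℕ × ℕ => z.1 + P * z.2) (fun x => (x % P, x / P))
  · rintro ⟨y, t⟩ h
    rw [mem_product, mem_range, mem_range] at h
    rw [mem_range]
    have h1 : t + 1 ≤ p := h.2
    have h2 : P * (t + 1) ≤ P * p := Nat.mul_le_mul_left _ h1
    have h3 : y < P := h.1
    simp only
    nlinarith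
  · intro x hx
    rw [mem_range] at hx
    rw [mem_product, mem_range, mem_range]
    exact ⟨Nat.mod_lt _ hP, Nat.div_lt_of_lt_mul hx⟩
  · rintro ⟨y, t⟩ h
    rw [mem_product, mem_range, mem_range] at h
    have h3 : y < P := h.1
    simp only [Prod.mk.injEq]
    refine ⟨?_, ?_⟩
    · rw [Nat.add_mul_mod_self_left, Nat.mod_eq_of_lt h3]
    · rw [Nat.add_mul_div_left _ _ hP, Nat.div_eq_of_lt h3, zero_add]
  · intro x _
    exact Nat.mod_add_div x P
  · rintro ⟨y, t⟩ _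
    rfl

/-- prime powers with exponent at least two -/
theorem cs_pow (k : ℕ) (c : ℕ → ℤ) (p j : ℕ) (hp : p.Prime) (hpk : k < p) (hj : 2 ≤ j)
    (hc : ∃ i, 1 ≤ i ∧ i ≤ k ∧ ¬ (p : ℤ) ∣ c i) (a : ℤ) (ha : ¬ (p : ℤ) ∣ a) :
    ‖cs k c (p ^ j) a‖ ≤ (k : ℝ) / p := by
  classical
  obtain ⟨i, rfl⟩ : ∃ i, j = i + 2 := ⟨j - 2, by omega⟩
  have hpp : (0 : ℝ) < p := by exact_mod_cast hp.pos
  set P := p ^ (i + 1) with hP
  have hP0 : 0 < P := pow_pos hp.pos _
  have hPp : p ^ (i + 2) = P * p := by rw [hP, ← pow_succ]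
  set D := (cpPoly k c).derivative with hD
  have hq : 0 < P * p := Nat.mul_pos hP0 hp.pos
  have hterm : ∀ y t : ℕ, ee ((a : ℝ) * (pv k c ((y + P * t : ℕ) : ℤ) : ℝ) / ((P * p : ℕ) : ℝ)) =
      ee ((a : ℝ) * (pv k c (y : ℤ) : ℝ) / ((P * p : ℕ) : ℝ)) *
        ee (((a * D.eval (y : ℤ) : ℤ) : ℝ) / p * t) := by
    intro y t
    obtain ⟨K, hK⟩ := Polynomial.binomExpansion (cpPoly k c) (y : ℤ) ((P : ℤ) * t)
    rw [cp_eval, cp_eval, ← hD] at hK
    have h1 : ((y + P * t : ℕ) : ℤ) = (y : ℤ) + P * t := by push_cast; ring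
    have h2 : (a : ℝ) * (pv k c ((y + P * t : ℕ) : ℤ) : ℝ) =
        ((a * pv k c ((y + P * t : ℕ) : ℤ) : ℤ) : ℝ) := by push_cast; ring
    have h3 : ee (((a * pv k c ((y + P * t : ℕ) : ℤ) : ℤ) : ℝ) / ((P * p : ℕ) : ℝ)) =
        ee (((a * pv k c (y : ℤ) + a * D.eval (y : ℤ) * (P * t) : ℤ) : ℝ) /
          ((P * p : ℕ) : ℝ)) := by
      apply cp_ee_congr hq
      rw [h1, hK]
      have h4 : (P : ℤ) = p * (p : ℤ) ^ i := by
        rw [hP]; push_cast; ring
      refine ⟨a * K * (p : ℤ) ^ i * t ^ 2, ?_⟩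
      push_cast
      have h5 : a * (pv k c y + D.eval (y : ℤ) * (P * t) + K * (P * t) ^ 2) -
          (a * pv k c y + a * D.eval (y : ℤ) * (P * t)) = a * K * P * P * t ^ 2 := by ring
      rw [h5]
      nth_rewrite 2 [h4]
      ring
    rw [h2, h3]
    have h6 : ((a * pv k c (y : ℤ) + a * D.eval (y : ℤ) * (P * t) : ℤ) : ℝ) / ((P * p : ℕ) : ℝ) =
        (a : ℝ) * (pv k c (y : ℤ) : ℝ) / ((P * p : ℕ) : ℝ) +
          ((a * D.eval (y : ℤ) : ℤ) : ℝ) / p * t := by
      have hP' : (P : ℝ) ≠ 0 := by exact_mod_cast hP0.ne'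
      push_cast
      field_simp
    rw [h6, cp_ee_add]
  -- inner sums
  have hin : ∀ y : ℕ, ‖∑ t ∈ range p,
      ee ((a : ℝ) * (pv k c ((y + P * t : ℕ) : ℤ) : ℝ) / ((P * p : ℕ) : ℝ))‖ ≤
      if (p : ℤ) ∣ D.eval (y : ℤ) then (p : ℝ) else 0 := by
    intro y
    simp only [hterm]
    rw [← mul_sum, norm_mul, cp_ee_norm, one_mul]
    split_ifs with h
    · refine (norm_sum_le _ _).trans ?_
      simp [cp_ee_norm]
    · have h1 : ¬ (p : ℤ) ∣ a * D.eval (y : ℤ) := by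
        intro h2
        rcases (Nat.prime_iff_prime_int.1 hp).dvd_or_dvd h2 with h3 | h3
        · exact ha h3
        · exact h h3
      rw [cp_geom hp.pos h1, norm_zero]
  have hcount := cp_count k c p i hp hpk hc
  rw [← hP, ← hD] at hcount
  have hsum : ‖∑ x ∈ range (P * p), ee ((a : ℝ) * (pv k c (x : ℤ) : ℝ) / ((P * p : ℕ) : ℝ))‖ ≤
      k * (p : ℝ) ^ i * p := by
    rw [cp_sum_range P p hP0]
    refine (norm_sum_le _ _).trans ((sum_le_sum fun y _ => hin y).trans ?_)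
    rw [← sum_filter, sum_const, nsmul_eq_mul]
    refine mul_le_mul_of_nonneg_right ?_ hpp.le
    exact_mod_cast hcount
  unfold cs
  rw [hPp, norm_div, Complex.norm_natCast, div_le_div_iff₀ (by exact_mod_cast hq) hpp]
  refine (mul_le_mul_of_nonneg_right hsum hpp.le).trans (le_of_eq ?_)
  rw [hP]
  push_cast
  ring

end Vale.Agent.P042.GS
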