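import Vale.Agent.P042.GS.MonicSum

namespace Vale.Agent.P042.GS

open Finset Polynomial

variable {p : ℕ} [Fact p.Prime]

open Classical in
/-- number of powers of an irreducible `P` dividing `g` -/
theorem mang_count (g P : (ZMod p)[X]) (r : ℕ) (hg : g.Monic) (hr : g.natDegree = r)
    (hP : P.Monic) (hirr : Irreducible P) :
    ∑ j ∈ Icc 1 r, (if P ^ j ∣ g then 1 else 0) =
      Multiset.count P (UniqueFactorizationMonoid.normalizedFactors g) := by
  set c := Multiset.count P (UniqueFactorizationMonoid.normalizedFactors g) with hc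
  have hmul : emultiplicity P g = (c : ℕ∞) := by
    rw [UniqueFactorizationMonoid.emultiplicity_eq_count_normalizedFactors hirr hg.ne_zero,
      hP.normalize_eq_self]
  have hdvd : ∀ j : ℕ, P ^ j ∣ g ↔ j ≤ c := by
    intro j
    rw [pow_dvd_iff_le_emultiplicity, hmul]
    exact_mod_cast Iff.rfl
  have hdeg : 1 ≤ P.natDegree := hirr.natDegree_pos
  have hcr : c ≤ r := by
    have h1 : P ^ c ∣ g := (hdvd c).2 le_rfl
    have h2 := natDegree_le_of_dvd h1 hg.ne_zero
    rw [natDegree_pow, hr] at h2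
    calc c = c * 1 := (mul_one c).symm
      _ ≤ c * P.natDegree := Nat.mul_le_mul_left _ hdeg
      _ ≤ r := h2
  simp only [hdvd]
  rw [← Finset.sum_filter]
  have h3 : (Icc 1 r).filter (fun j => j ≤ c) = Icc 1 c := by
    ext j
    simp only [mem_filter, mem_Icc]
    omega
  rw [h3]
  simp

open Classical in
theorem mang_deg (g : (ZMod p)[X]) (r : ℕ) (hg : g.Monic) (hr : g.natDegree = r) :
    ∑ d ∈ Icc 1 r, ∑ j ∈ Icc 1 r, ∑ P ∈ (Mset p d).filter (fun P => Irreducible P),
      (if P ^ j ∣ g then d else 0) = r := by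
  set s := UniqueFactorizationMonoid.normalizedFactors g with hs
  have hprod : s.prod = g := by
    have h1 := leadingCoeff_mul_prod_normalizedFactors g
    rw [hg.leadingCoeff, map_one, one_mul] at h1
    exact h1
  have hirr : ∀ P ∈ s, Irreducible P := fun P hP =>
    UniqueFactorizationMonoid.irreducible_of_normalized_factor P hP
  have hmon : ∀ P ∈ s, P.Monic := by
    intro P hP
    have h1 := UniqueFactorizationMonoid.normalize_normalized_factor P hP
    rw [← h1]
    exact monic_normalize (hirr P hP).ne_zero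
  have hdeg : r = ∑ P ∈ s.toFinset, s.count P * P.natDegree := by
    rw [← hr]
    conv_lhs => rw [← hprod]
    rw [natDegree_multiset_prod_of_monic s hmon, Finset.sum_multiset_map_count]
    simp
  have hle : ∀ P ∈ s, P.natDegree ≤ r := by
    intro P hP
    rw [← hr]
    exact natDegree_le_of_dvd (UniqueFactorizationMonoid.dvd_of_mem_normalizedFactors hP)
      hg.ne_zero
  have h1 : ∀ d ∈ Icc 1 r, ∑ j ∈ Icc 1 r, ∑ P ∈ (Mset p d).filter (fun P => Irreducible P),
      (if P ^ j ∣ g then d else 0) =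
      ∑ P ∈ s.toFinset.filter (fun P => P.natDegree = d), s.count P * P.natDegree := by
    intro d _
    rw [Finset.sum_comm]
    have h2 : ∀ P ∈ (Mset p d).filter (fun P => Irreducible P),
        ∑ j ∈ Icc 1 r, (if P ^ j ∣ g then d else 0) = s.count P * P.natDegree := by
      intro P hP
      rw [mem_filter, mem_Mset] at hP
      rw [← mang_count g P r hg hr hP.1.1 hP.2, Finset.sum_mul]
      apply Finset.sum_congr rfl
      intro j _
      rw [hP.1.2]
      split_ifs <;> simp
    rw [Finset.sum_congr rfl h2]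
    symm
    apply Finset.sum_subset
    · intro P hP
      rw [mem_filter, Multiset.mem_toFinset] at hP
      rw [mem_filter, mem_Mset]
      exact ⟨⟨hmon P hP.1, hP.2⟩, hirr P hP.1⟩
    · intro P hP1 hP2
      rw [mem_filter, mem_Mset] at hP1
      have : P ∉ s := by
        intro hPs
        apply hP2
        rw [mem_filter, Multiset.mem_toFinset]
        exact ⟨hPs, hP1.1.2⟩
      rw [Multiset.count_eq_zero_of_notMem this, zero_mul]
  rw [Finset.sum_congr rfl h1]
  rw [Finset.sum_fiberwise_of_maps_to (s := s.toFinset) (t := Icc 1 r)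
    (g := fun P => P.natDegree) (f := fun P => s.count P * P.natDegree)]
  · exact hdeg.symm
  · intro P hP
    rw [Multiset.mem_toFinset] at hP
    rw [mem_Icc]
    exact ⟨(hirr P hP).natDegree_pos, hle P hP⟩

theorem mang_pow (lam : (ZMod p)[X] → ℂ) (h1 : lam 1 = 1)
    (hmul : ∀ g h : (ZMod p)[X], g.Monic → h.Monic → lam (g * h) = lam g * lam h)
    (P : (ZMod p)[X]) (hP : P.Monic) (j : ℕ) : lam (P ^ j) = lam P ^ j := by
  induction j with
  | zero => simpa using h1
  | succ j ih => rw [pow_succ, hmul _ _ (hP.pow j) hP, ih, pow_succ]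

open Classical in
theorem mang_bij (lam : (ZMod p)[X] → ℂ) (h1 : lam 1 = 1)
    (hmul : ∀ g h : (ZMod p)[X], g.Monic → h.Monic → lam (g * h) = lam g * lam h)
    (P : (ZMod p)[X]) (hP : P.Monic) (d j r : ℕ) (hd : P.natDegree = d) (h : d * j ≤ r) :
    lam P ^ j * ∑ g ∈ Mset p (r - d * j), lam g =
      ∑ g ∈ Mset p r, (if P ^ j ∣ g then lam g else 0) := by
  rw [← Finset.sum_filter, Finset.mul_sum]
  apply Finset.sum_bij (fun g _ => P ^ j * g)
  · intro g hg
    rw [mem_Mset] at hg
    rw [mem_filter, mem_Mset]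
    refine ⟨⟨(hP.pow j).mul hg.1, ?_⟩, Dvd.intro _ rfl⟩
    rw [(hP.pow j).natDegree_mul hg.1, hP.natDegree_pow, hd, hg.2, mul_comm j d]
    omega
  · intro g _ g' _ hgg
    exact mul_left_cancel₀ (hP.pow j).ne_zero hgg
  · intro g hg
    rw [mem_filter, mem_Mset] at hg
    obtain ⟨⟨hgm, hgd⟩, q, hq⟩ := hg
    have hqm : q.Monic := by
      rw [hq] at hgm
      exact (hP.pow j).of_mul_monic_left hgm
    refine ⟨q, ?_, hq.symm⟩
    rw [mem_Mset]
    refine ⟨hqm, ?_⟩
    rw [hq, (hP.pow j).natDegree_mul hqm, hP.natDegree_pow, hd, mul_comm j d] at hgd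
    omega
  · intro g hg
    rw [mem_Mset] at hg
    rw [hmul _ _ (hP.pow j) hg.1, mang_pow lam h1 hmul P hP j]

/-- reorganisation of a divisor sum -/
theorem mang_div (G : ℕ → ℕ → ℂ) (r : ℕ) :
    ∑ n ∈ Icc 1 r, ∑ d ∈ n.divisors, G d (n / d) =
      ∑ d ∈ Icc 1 r, ∑ j ∈ Icc 1 r, (if d * j ≤ r then G d j else 0) := by
  rw [← Finset.sum_product' (Icc 1 r) (Icc 1 r) (fun d j => if d * j ≤ r then G d j else 0),
    ← Finset.sum_filter]
  rw [← Finset.sum_fiberwise_of_maps_to
    (s := (Icc 1 r ×ˢ Icc 1 r).filter (fun x : ℕ × ℕ => x.1 * x.2 ≤ r)) (t := Icc 1 r)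
    (g := fun x => x.1 * x.2) (f := fun x => G x.1 x.2)]
  · apply Finset.sum_congr rfl
    intro n hn
    rw [mem_Icc] at hn
    rw [← Nat.sum_divisorsAntidiagonal (f := fun a b => G a b)]
    apply Finset.sum_congr _ (fun _ _ => rfl)
    ext ⟨a, b⟩
    simp only [Nat.mem_divisorsAntidiagonal, mem_filter, mem_product, mem_Icc]
    constructor
    · rintro ⟨h1, h2⟩
      have ha : 1 ≤ a := Nat.pos_of_ne_zero (by rintro rfl; simp at h1; omega)
      have hb : 1 ≤ b := Nat.pos_of_ne_zero (by rintro rfl; simp at h1; omega)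
      have h3 : a ≤ a * b := Nat.le_mul_of_pos_right a hb
      have h4 : b ≤ a * b := Nat.le_mul_of_pos_left b ha
      omega
    · rintro ⟨_, h2⟩
      omega
  · rintro ⟨a, b⟩ hx
    simp only [mem_filter, mem_product, mem_Icc] at hx ⊢
    have : 1 * 1 ≤ a * b := Nat.mul_le_mul hx.1.1.1 hx.1.2.1
    omega

/-- von Mangoldt identity for completely multiplicative functions on monic polynomials -/
theorem mangoldt_rec (lam : (ZMod p)[X] → ℂ) (h1 : lam 1 = 1)
    (hmul : ∀ g h : (ZMod p)[X], g.Monic → h.Monic → lam (g * h) = lam g * lam h) (r : ℕ) :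
    (r : ℂ) * ∑ g ∈ Mset p r, lam g =
      ∑ n ∈ Icc 1 r, sMang lam n * ∑ g ∈ Mset p (r - n), lam g := by
  classical
  have hL : (r : ℂ) * ∑ g ∈ Mset p r, lam g = ∑ d ∈ Icc 1 r, ∑ j ∈ Icc 1 r,
      ∑ P ∈ (Mset p d).filter (fun P => Irreducible P), ∑ g ∈ Mset p r,
        (if P ^ j ∣ g then (d : ℂ) * lam g else 0) := by
    have e1 : (r : ℂ) * ∑ g ∈ Mset p r, lam g = ∑ g ∈ Mset p r,
        ((∑ d ∈ Icc 1 r, ∑ j ∈ Icc 1 r, ∑ P ∈ (Mset p d).filter (fun P => Irreducible P),
          (if P ^ j ∣ g then d else 0) : ℕ) : ℂ) * lam g := by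
      rw [Finset.mul_sum]
      apply Finset.sum_congr rfl
      intro g hg
      rw [mem_Mset] at hg
      rw [mang_deg g r hg.1 hg.2]
    rw [e1]
    have e2 : ∀ g ∈ Mset p r, ((∑ d ∈ Icc 1 r, ∑ j ∈ Icc 1 r,
        ∑ P ∈ (Mset p d).filter (fun P => Irreducible P),
          (if P ^ j ∣ g then d else 0) : ℕ) : ℂ) * lam g = ∑ d ∈ Icc 1 r, ∑ j ∈ Icc 1 r,
        ∑ P ∈ (Mset p d).filter (fun P => Irreducible P),
          (if P ^ j ∣ g then (d : ℂ) * lam g else 0) := by
      intro g _
      push_cast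
      rw [Finset.sum_mul]
      apply Finset.sum_congr rfl
      intro d _
      rw [Finset.sum_mul]
      apply Finset.sum_congr rfl
      intro j _
      rw [Finset.sum_mul]
      apply Finset.sum_congr rfl
      intro P _
      split_ifs <;> simp
    rw [Finset.sum_congr rfl e2, Finset.sum_comm]
    apply Finset.sum_congr rfl
    intro d _
    rw [Finset.sum_comm]
    apply Finset.sum_congr rfl
    intro j _
    rw [Finset.sum_comm]
  have hR : ∑ n ∈ Icc 1 r, sMang lam n * ∑ g ∈ Mset p (r - n), lam g =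
      ∑ n ∈ Icc 1 r, ∑ d ∈ n.divisors,
        (fun d j => ∑ P ∈ (Mset p d).filter (fun P => Irreducible P),
          (d : ℂ) * (lam P ^ j * ∑ g ∈ Mset p (r - d * j), lam g)) d (n / d) := by
    apply Finset.sum_congr rfl
    intro n _
    unfold sMang
    rw [Finset.sum_mul]
    apply Finset.sum_congr rfl
    intro d hd
    have hdn : d * (n / d) = n := Nat.mul_div_cancel' (Nat.dvd_of_mem_divisors hd)
    simp only
    rw [hdn, Finset.sum_mul]
    apply Finset.sum_congr
    · ext P; simp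
    intro P _
    ring
  rw [hL, hR]
  refine Eq.trans ?_ (mang_div (fun d j => ∑ P ∈ (Mset p d).filter (fun P => Irreducible P),
          (d : ℂ) * (lam P ^ j * ∑ g ∈ Mset p (r - d * j), lam g)) r).symm
  apply Finset.sum_congr rfl
  intro d _
  apply Finset.sum_congr rfl
  intro j hj
  rw [mem_Icc] at hj
  by_cases hdj : d * j ≤ r
  · rw [if_pos hdj]
    apply Finset.sum_congr rfl
    intro P hP
    rw [mem_filter, mem_Mset] at hP
    rw [mang_bij lam h1 hmul P hP.1.1 d j r hP.1.2 hdj, Finset.mul_sum]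
    apply Finset.sum_congr rfl
    intro g _
    split_ifs <;> simp
  · rw [if_neg hdj]
    apply Finset.sum_eq_zero
    intro P hP
    rw [mem_filter, mem_Mset] at hP
    apply Finset.sum_eq_zero
    intro g hg
    rw [mem_Mset] at hg
    rw [if_neg]
    intro hdvd
    have h2 := natDegree_le_of_dvd hdvd hg.1.ne_zero
    rw [natDegree_pow, hP.1.2, hg.2, mul_comm] at h2
    exact hdj h2

end Vale.Agent.P042.GS
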