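import Vale.Agent.P042.GS.MonicSum

namespace Vale.Agent.P042.GS

open Finset Polynomial

variable {p : ℕ} [Fact p.Prime]

open IntermediateField in
private theorem pts_gen_trace (f : (ZMod p)[X]) {F : Type} [Field F] [Finite F]
    [Algebra (ZMod p) F] (x : F) :
    algebraMap (ZMod p) (AlgebraicClosure (ZMod p))
      (Algebra.trace (ZMod p) (ZMod p)⟮x⟯ (aeval (AdjoinSimple.gen (ZMod p) x) f))
      = rootSum f (minpoly (ZMod p) x) := by
  classical
  have hx : IsIntegral (ZMod p) x := IsIntegral.of_finite _ _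
  have : Finite (ZMod p)⟮x⟯ := Subtype.finite
  set E := AlgebraicClosure (ZMod p)
  set pb := adjoin.powerBasis hx with hpb
  have hgen : pb.gen = AdjoinSimple.gen (ZMod p) x := adjoin.powerBasis_gen hx
  have hmin : minpoly (ZMod p) pb.gen = minpoly (ZMod p) x := by
    rw [hgen]; exact minpoly_gen (ZMod p) x
  have : FiniteDimensional (ZMod p) (ZMod p)⟮x⟯ := pb.finite
  rw [trace_eq_sum_embeddings E]
  have h1 : ∀ σ : (ZMod p)⟮x⟯ →ₐ[ZMod p] E, σ (aeval (AdjoinSimple.gen (ZMod p) x) f)
      = aeval (σ pb.gen) f := by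
    intro σ
    rw [hgen, aeval_algHom_apply]
  simp_rw [h1]
  rw [Fintype.sum_equiv pb.liftEquiv' (fun σ => aeval (σ pb.gen) f)
    (fun y => aeval (y : E) f) (fun σ => rfl)]
  rw [hmin]
  have hnd : ((minpoly (ZMod p) x).aroots E).Nodup := by
    apply nodup_roots
    apply Separable.map
    exact PerfectField.separable_of_irreducible (minpoly.irreducible hx)
  rw [Finset.sum_mem_multiset _ _ (fun y : E => aeval y f) (fun _ => rfl)]
  rw [Finset.sum_eq_multiset_sum, Multiset.toFinset_val, Multiset.dedup_eq_self.mpr hnd]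
  rfl

open IntermediateField in
private theorem pts_trace (f : (ZMod p)[X]) {F : Type} [Field F] [Finite F]
    [Algebra (ZMod p) F] (x : F) :
    ∃ t : ZMod p, algebraMap (ZMod p) (AlgebraicClosure (ZMod p)) t
        = rootSum f (minpoly (ZMod p) x) ∧
      Algebra.trace (ZMod p) F (aeval x f) = (Module.finrank (ZMod p)⟮x⟯ F) • t ∧
      (minpoly (ZMod p) x).natDegree * Module.finrank (ZMod p)⟮x⟯ F = Module.finrank (ZMod p) F := by
  have hx : IsIntegral (ZMod p) x := IsIntegral.of_finite _ _
  have : Finite (ZMod p)⟮x⟯ := Subtype.finite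
  refine ⟨_, pts_gen_trace f x, ?_, ?_⟩
  · have h1 : aeval x f = algebraMap (ZMod p)⟮x⟯ F (aeval (AdjoinSimple.gen (ZMod p) x) f) := by
      conv_lhs => rw [← AdjoinSimple.algebraMap_gen (ZMod p) x]
      rw [aeval_algebraMap_apply]
    rw [h1, ← Algebra.trace_trace (S := (ZMod p)⟮x⟯), Algebra.trace_algebraMap,
      LinearMap.map_smul_of_tower]
  · rw [← adjoin.finrank hx]
    exact Module.finrank_mul_finrank _ _ _

/-- character value at the trace -/
private theorem pts_char (f : (ZMod p)[X]) {F : Type} [Field F] [Fintype F]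
    [Algebra (ZMod p) F] (n : ℕ) (hF : Fintype.card F = p ^ n) (x : F) :
    (minpoly (ZMod p) x).natDegree ∣ n ∧
    (ZMod.stdAddChar (Algebra.trace (ZMod p) F (aeval x f)) : ℂ)
      = lamf f (minpoly (ZMod p) x) ^ (n / (minpoly (ZMod p) x).natDegree) := by
  obtain ⟨t, ht, htr, hfin⟩ := pts_trace f x
  have hn : Module.finrank (ZMod p) F = n := by
    have h := Module.card_eq_pow_finrank (K := ZMod p) (V := F)
    rw [hF, ZMod.card] at h
    exact (Nat.pow_right_injective (Fact.out : p.Prime).two_le h).symm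
  rw [hn] at hfin
  have hpos : 0 < (minpoly (ZMod p) x).natDegree :=
    minpoly.natDegree_pos (IsIntegral.of_finite _ _)
  refine ⟨⟨_, hfin.symm⟩, ?_⟩
  rw [htr, lamf_eq f _ t ht, ← hfin, Nat.mul_div_cancel_left _ hpos, AddChar.map_nsmul_eq_pow]

/-- number of points with a given minimal polynomial -/
private theorem pts_count {F : Type} [Field F] [Fintype F] [DecidableEq F]
    [Algebra (ZMod p) F] (n : ℕ) (hn : 1 ≤ n) (hF : Fintype.card F = p ^ n) (P : (ZMod p)[X])
    (hP : P.Monic) (hirr : Irreducible P) (hd : P.natDegree ∣ n) :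
    (univ.filter (fun x : F => minpoly (ZMod p) x = P)).card = P.natDegree := by
  have hdvd : P ∣ X ^ (Nat.card (ZMod p)) ^ n - X :=
    hirr.natDegree_dvd_iff_dvd_X_pow_card_pow_sub_X.mp hd
  have hdvd' : P.map (algebraMap (ZMod p) F) ∣ X ^ (Fintype.card F) - X := by
    have h := Polynomial.map_dvd (algebraMap (ZMod p) F) hdvd
    rw [Nat.card_zmod, ← hF] at h
    simpa using h
  have hne : (X ^ (Fintype.card F) - X : F[X]) ≠ 0 :=
    FiniteField.X_pow_card_sub_X_ne_zero F Fintype.one_lt_card
  have hsp : (X ^ (Fintype.card F) - X : F[X]).Splits := by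
    rw [splits_iff_card_roots, FiniteField.roots_X_pow_card_sub_X,
      FiniteField.X_pow_card_sub_X_natDegree_eq F Fintype.one_lt_card]
    rfl
  have hsp' : (P.map (algebraMap (ZMod p) F)).Splits := hsp.of_dvd hne hdvd'
  have hle : (P.map (algebraMap (ZMod p) F)).roots ≤ (univ : Finset F).val := by
    rw [← FiniteField.roots_X_pow_card_sub_X F]
    exact Polynomial.roots.le_of_dvd hne hdvd'
  have hnd : (P.map (algebraMap (ZMod p) F)).roots.Nodup :=
    Multiset.nodup_of_le hle (univ : Finset F).nodup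
  have hset : univ.filter (fun x : F => minpoly (ZMod p) x = P)
      = (P.map (algebraMap (ZMod p) F)).roots.toFinset := by
    ext x
    simp only [mem_filter, mem_univ, true_and, Multiset.mem_toFinset]
    rw [mem_roots (hP.map _).ne_zero, IsRoot.def, eval_map_algebraMap]
    constructor
    · intro h
      rw [← h]
      exact minpoly.aeval _ _
    · intro h
      exact (minpoly.eq_of_irreducible_of_monic hirr h hP).symm
  rw [hset, Multiset.toFinset_card_of_nodup hnd, splits_iff_card_roots.mp hsp', natDegree_map]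

/-- exponential sums over extension fields as sums over irreducible polynomials -/
theorem point_sum (f : (ZMod p)[X]) (n : ℕ) (hn : 1 ≤ n) (F : Type) [Field F] [Fintype F]
    [Algebra (ZMod p) F] (hF : Fintype.card F = p ^ n) :
    ∑ x : F, (ZMod.stdAddChar (Algebra.trace (ZMod p) F (aeval x f)) : ℂ) =
      sMang (lamf f) n := by
  classical
  unfold sMang
  have h1 : ∀ x ∈ (univ : Finset F), (minpoly (ZMod p) x).natDegree ∈ n.divisors := by
    intro x _
    rw [Nat.mem_divisors]
    exact ⟨(pts_char f n hF x).1, by omega⟩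
  rw [← Finset.sum_fiberwise_of_maps_to h1]
  apply Finset.sum_congr rfl
  intro d hd
  have hdn : d ∣ n := (Nat.mem_divisors.mp hd).1
  have h2 : ∀ x ∈ (univ : Finset F).filter (fun x => (minpoly (ZMod p) x).natDegree = d),
      minpoly (ZMod p) x ∈ (Mset p d).filter (fun P => Irreducible P) := by
    intro x hx
    rw [mem_filter] at hx ⊢
    have hi : IsIntegral (ZMod p) x := IsIntegral.of_finite _ _
    exact ⟨(mem_Mset d _).mpr ⟨minpoly.monic hi, hx.2⟩, minpoly.irreducible hi⟩
  rw [← Finset.sum_fiberwise_of_maps_to h2]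
  refine Finset.sum_congr ?_ ?_
  · congr!
  intro P hP
  rw [mem_filter, mem_Mset] at hP
  obtain ⟨⟨hmon, hdeg⟩, hirr⟩ := hP
  have h3 : ((univ : Finset F).filter (fun x => (minpoly (ZMod p) x).natDegree = d)).filter
      (fun x => minpoly (ZMod p) x = P) = univ.filter (fun x : F => minpoly (ZMod p) x = P) := by
    ext x
    simp only [mem_filter, mem_univ, true_and]
    constructor
    · exact fun h => h.2
    · intro h; exact ⟨by rw [h, hdeg], h⟩
  rw [h3]
  have h4 : ∀ x ∈ univ.filter (fun x : F => minpoly (ZMod p) x = P),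
      (ZMod.stdAddChar (Algebra.trace (ZMod p) F (aeval x f)) : ℂ) = lamf f P ^ (n / d) := by
    intro x hx
    rw [mem_filter] at hx
    rw [(pts_char f n hF x).2, hx.2, hdeg]
  rw [Finset.sum_congr rfl h4, Finset.sum_const, nsmul_eq_mul,
    pts_count n hn hF P hmon hirr (by rw [hdeg]; exact hdn), hdeg]

end Vale.Agent.P042.GS
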