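import Mathlib

namespace Vale.Agent.P042.GS

open Finset

/-- partial geometric sum -/
private lemma pl_geom_one (z : ℂ) (hz : z ≠ 1) (hz1 : ‖z‖ ≤ 1) (A : ℕ) :
    ‖∑ a ∈ range A, z ^ (a + 1)‖ ≤ 2 / ‖z - 1‖ := by
  have hne : z - 1 ≠ 0 := sub_ne_zero.mpr hz
  have hpos : 0 < ‖z - 1‖ := norm_pos_iff.mpr hne
  have h1 : ∑ a ∈ range A, z ^ (a + 1) = z * ((z ^ A - 1) / (z - 1)) := by
    rw [← geom_sum_eq hz, mul_sum]
    exact sum_congr rfl (fun a _ => by ring)
  rw [h1, norm_mul, norm_div]
  have h2 : ‖z ^ A - 1‖ ≤ 2 := by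
    calc ‖z ^ A - 1‖ ≤ ‖z ^ A‖ + ‖(1 : ℂ)‖ := norm_sub_le _ _
      _ ≤ 1 + 1 := by
          rw [norm_pow, norm_one]
          exact add_le_add (pow_le_one₀ (norm_nonneg _) hz1) le_rfl
      _ = 2 := by norm_num
  calc ‖z‖ * (‖z ^ A - 1‖ / ‖z - 1‖) ≤ 1 * (2 / ‖z - 1‖) := by
        apply mul_le_mul hz1 (div_le_div_of_nonneg_right h2 hpos.le) (by positivity) (by norm_num)
    _ = 2 / ‖z - 1‖ := one_mul _

private lemma pl_re (z : ℂ) (hz1 : ‖z‖ ≤ 1) (A : ℕ) :
    -(2 / ‖z - 1‖) ≤ (∑ a ∈ range A, z ^ (a + 1)).re := by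
  by_cases hz : z = 1
  · subst hz
    simp
  · have h1 := pl_geom_one z hz hz1 A
    have h2 := Complex.abs_re_le_norm (∑ a ∈ range A, z ^ (a + 1))
    have h3 := (abs_le.mp (h2.trans h1)).1
    exact h3

private lemma pl_multiset (V : Multiset ℂ) (hV : ∀ z ∈ V, ‖z‖ ≤ 1) (A : ℕ) :
    -(V.map (fun z => 2 / ‖z - 1‖)).sum ≤ ((V.map (fun z => ∑ a ∈ range A, z ^ (a + 1))).sum).re := by
  induction V using Multiset.induction_on with
  | empty => simp
  | cons z V ih =>
    have h1 := ih (fun y hy => hV y (Multiset.mem_cons_of_mem hy))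
    have h2 := pl_re z (hV z (Multiset.mem_cons_self z V)) A
    rw [Multiset.map_cons, Multiset.sum_cons, Multiset.map_cons, Multiset.sum_cons, Complex.add_re]
    linarith

private lemma pl_swap (V : Multiset ℂ) (A : ℕ) :
    (V.map (fun z => ∑ a ∈ range A, z ^ (a + 1))).sum =
      ∑ a ∈ range A, (V.map (fun z => z ^ (a + 1))).sum := by
  induction V using Multiset.induction_on with
  | empty => simp
  | cons z V ih =>
    simp only [Multiset.map_cons, Multiset.sum_cons]
    rw [ih, sum_add_distrib]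

private lemma pl_geom_real (q : ℝ) (h0 : 0 ≤ q) (h1 : q < 1) (A : ℕ) :
    ∑ a ∈ range A, q ^ (a + 1) ≤ 1 / (1 - q) := by
  have h2 : 0 < 1 - q := by linarith
  rw [le_div_iff₀ h2]
  have h3 : (∑ a ∈ range A, q ^ a) * (1 - q) = 1 - q ^ A := geom_sum_mul_neg q A
  have h4 : ∑ a ∈ range A, q ^ (a + 1) = q * ∑ a ∈ range A, q ^ a := by
    rw [mul_sum]; exact sum_congr rfl (fun a _ => by ring)
  rw [h4, mul_assoc, h3]
  have h5 : 0 ≤ q ^ A := pow_nonneg h0 A
  nlinarith

/-- power sums control the size of the numbers -/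
private lemma pl_bound (U : Multiset ℂ) (R C : ℝ) (hR : 0 < R)
    (h : ∀ a : ℕ, 1 ≤ a → ‖(U.map (fun u => u ^ a)).sum‖ ≤ C * R ^ a) : ∀ u ∈ U, ‖u‖ ≤ R := by
  by_contra hcon
  push Not at hcon
  obtain ⟨u0, hu0, hlt0⟩ := hcon
  obtain ⟨u1, hu1, hmax⟩ := U.toFinset.exists_max_image (fun u => ‖u‖)
    ⟨u0, Multiset.mem_toFinset.mpr hu0⟩
  rw [Multiset.mem_toFinset] at hu1
  have hmax' : ∀ u ∈ U, ‖u‖ ≤ ‖u1‖ := fun u hu => hmax u (Multiset.mem_toFinset.mpr hu)
  set M : ℝ := ‖u1‖ with hM
  have hMR : R < M := lt_of_lt_of_le hlt0 (hmax' u0 hu0)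
  have hM0 : 0 < M := hR.trans hMR
  set t : ℂ := (starRingEnd ℂ) u1 / (M : ℂ) ^ 2 with ht
  have hMc : (M : ℂ) ≠ 0 := by exact_mod_cast hM0.ne'
  have htn : ‖t‖ = 1 / M := by
    rw [ht, norm_div, RCLike.norm_conj, norm_pow, Complex.norm_real, Real.norm_of_nonneg hM0.le,
      ← hM]
    field_simp
  have ht1 : t * u1 = 1 := by
    rw [ht, div_mul_eq_mul_div, mul_comm ((starRingEnd ℂ) u1) u1, Complex.mul_conj,
      Complex.normSq_eq_norm_sq, ← hM]
    push_cast
    exact div_self (pow_ne_zero 2 hMc)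
  obtain ⟨U', rfl⟩ := Multiset.exists_cons_of_mem hu1
  set V : Multiset ℂ := U'.map (fun u => t * u) with hV
  have hV1 : ∀ z ∈ V, ‖z‖ ≤ 1 := by
    intro z hz
    rw [hV, Multiset.mem_map] at hz
    obtain ⟨u, hu, rfl⟩ := hz
    rw [norm_mul, htn]
    have := hmax' u (Multiset.mem_cons_of_mem hu)
    rw [div_mul_eq_mul_div, one_mul, div_le_one hM0]
    exact this
  set K : ℝ := (V.map (fun z => 2 / ‖z - 1‖)).sum with hK
  set B : ℝ := |C| * (1 / (1 - R / M)) with hB
  have hq0 : 0 ≤ R / M := by positivity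
  have hq1 : R / M < 1 := (div_lt_one hM0).mpr hMR
  -- upper bound of the total sum
  have hup : ∀ A : ℕ, ‖∑ a ∈ range A, (((u1 ::ₘ U').map (fun u => t * u)).map
      (fun z => z ^ (a + 1))).sum‖ ≤ B := by
    intro A
    calc _ ≤ ∑ a ∈ range A, ‖(((u1 ::ₘ U').map (fun u => t * u)).map
          (fun z => z ^ (a + 1))).sum‖ := norm_sum_le _ _
      _ ≤ ∑ a ∈ range A, |C| * (R / M) ^ (a + 1) := by
          refine sum_le_sum (fun a _ => ?_)
          have h1 : (((u1 ::ₘ U').map (fun u => t * u)).map (fun z => z ^ (a + 1))).sum =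
              t ^ (a + 1) * ((u1 ::ₘ U').map (fun u => u ^ (a + 1))).sum := by
            rw [Multiset.map_map, ← Multiset.sum_map_mul_left]
            congr 1
            refine Multiset.map_congr rfl (fun u _ => ?_)
            simp only [Function.comp]
            rw [mul_pow]
          rw [h1, norm_mul, norm_pow, htn]
          have h2 := h (a + 1) (by omega)
          have h3 : C * R ^ (a + 1) ≤ |C| * R ^ (a + 1) :=
            mul_le_mul_of_nonneg_right (le_abs_self C) (by positivity)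
          calc (1 / M) ^ (a + 1) * ‖((u1 ::ₘ U').map (fun u => u ^ (a + 1))).sum‖
              ≤ (1 / M) ^ (a + 1) * (|C| * R ^ (a + 1)) :=
                mul_le_mul_of_nonneg_left (h2.trans h3) (by positivity)
            _ = |C| * (R / M) ^ (a + 1) := by rw [div_pow, div_pow, one_pow]; ring
      _ = |C| * ∑ a ∈ range A, (R / M) ^ (a + 1) := by rw [mul_sum]
      _ ≤ B := mul_le_mul_of_nonneg_left (pl_geom_real _ hq0 hq1 A) (abs_nonneg C)
  -- lower bound
  have hlow : ∀ A : ℕ, (A : ℝ) - K ≤ (∑ a ∈ range A, (((u1 ::ₘ U').map (fun u => t * u)).map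
      (fun z => z ^ (a + 1))).sum).re := by
    intro A
    rw [← pl_swap, Multiset.map_cons, Multiset.map_cons, Multiset.sum_cons, Complex.add_re, ht1]
    have h1 := pl_multiset V hV1 A
    have h2 : (∑ a ∈ range A, (1 : ℂ) ^ (a + 1)).re = A := by simp
    rw [h2]
    rw [← hK] at h1
    linarith
  obtain ⟨A, hA⟩ := exists_nat_gt (K + B)
  have h1 := hlow A
  have h2 := (Complex.re_le_norm _).trans (hup A)
  linarith

/-- recurrence satisfied by the coefficients of a product of linear factors -/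
private lemma pl_series (W : Multiset ℂ) :
    (((Polynomial.X * Polynomial.derivative
      ((W.map (fun w => (1 : Polynomial ℂ) - Polynomial.C w * Polynomial.X)).prod) :
        Polynomial ℂ)) : PowerSeries ℂ) =
      (((W.map (fun w => (1 : Polynomial ℂ) - Polynomial.C w * Polynomial.X)).prod :
        Polynomial ℂ) : PowerSeries ℂ) *
        PowerSeries.mk (fun n => if n = 0 then 0 else -(W.map (fun w => w ^ n)).sum) := by
  induction W using Multiset.induction_on with
  | empty =>
    have : PowerSeries.mk (fun n : ℕ => if n = 0 then (0 : ℂ) else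
        -((0 : Multiset ℂ).map (fun w => w ^ n)).sum) = 0 := by
      ext n; simp
    rw [this]
    simp
  | cons w W ih =>
    set L := (W.map (fun w => (1 : Polynomial ℂ) - Polynomial.C w * Polynomial.X)).prod with hL
    set S : PowerSeries ℂ := PowerSeries.mk (fun n => if n = 0 then 0 else
      -(W.map (fun w => w ^ n)).sum) with hS
    set Sw : PowerSeries ℂ := PowerSeries.mk (fun n => if n = 0 then 0 else -(w ^ n)) with hSw
    have h1 : PowerSeries.mk (fun n => if n = 0 then (0 : ℂ) else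
        -((w ::ₘ W).map (fun w => w ^ n)).sum) = Sw + S := by
      ext n
      simp only [hSw, hS, map_add, PowerSeries.coeff_mk, Multiset.map_cons, Multiset.sum_cons]
      split_ifs with h
      · simp
      · ring
    have h2 : (((1 : Polynomial ℂ) - Polynomial.C w * Polynomial.X : Polynomial ℂ) :
        PowerSeries ℂ) * Sw = ((-(Polynomial.C w * Polynomial.X) : Polynomial ℂ) :
          PowerSeries ℂ) := by
      rw [Polynomial.coe_sub, Polynomial.coe_one, sub_mul, one_mul, Polynomial.coe_neg,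
        Polynomial.coe_mul, Polynomial.coe_C, Polynomial.coe_X]
      ext n
      rw [map_sub, map_neg, mul_assoc, PowerSeries.coeff_C_mul, PowerSeries.coeff_C_mul]
      rcases n with _ | n
      · simp [hSw]
      · rw [PowerSeries.coeff_succ_X_mul, hSw, PowerSeries.coeff_mk, PowerSeries.coeff_mk,
          PowerSeries.coeff_X]
        rcases n with _ | n
        · simp
        · simp
          ring
    rw [Multiset.map_cons, Multiset.prod_cons, ← hL, h1, Polynomial.derivative_mul]
    have h3 : Polynomial.derivative ((1 : Polynomial ℂ) - Polynomial.C w * Polynomial.X) =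
        -(Polynomial.C w) := by
      rw [Polynomial.derivative_sub, Polynomial.derivative_one, Polynomial.derivative_C_mul,
        Polynomial.derivative_X]
      simp
    rw [h3]
    have h4 : Polynomial.X * (-(Polynomial.C w) * L +
        ((1 : Polynomial ℂ) - Polynomial.C w * Polynomial.X) * Polynomial.derivative L) =
        (-(Polynomial.C w * Polynomial.X)) * L +
        ((1 : Polynomial ℂ) - Polynomial.C w * Polynomial.X) *
          (Polynomial.X * Polynomial.derivative L) := by ring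
    rw [h4, Polynomial.coe_add, Polynomial.coe_mul, ← h2, Polynomial.coe_mul
      ((1 : Polynomial ℂ) - Polynomial.C w * Polynomial.X), ih, Polynomial.coe_mul]
    ring

private lemma pl_coeff (W : Multiset ℂ) (r : ℕ) (hr : 1 ≤ r) :
    (r : ℂ) * ((W.map (fun w => (1 : Polynomial ℂ) - Polynomial.C w * Polynomial.X)).prod).coeff r =
      ∑ n ∈ Icc 1 r, (-(W.map (fun w => w ^ n)).sum) *
        ((W.map (fun w => (1 : Polynomial ℂ) - Polynomial.C w * Polynomial.X)).prod).coeff
          (r - n) := by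
  set L := (W.map (fun w => (1 : Polynomial ℂ) - Polynomial.C w * Polynomial.X)).prod with hL
  have h := congrArg (PowerSeries.coeff r) (pl_series W)
  rw [← hL, Polynomial.coeff_coe, PowerSeries.coeff_mul] at h
  obtain ⟨r, rfl⟩ : ∃ r', r = r' + 1 := ⟨r - 1, by omega⟩
  rw [Polynomial.coeff_X_mul, Polynomial.coeff_derivative] at h
  rw [Finset.Nat.sum_antidiagonal_eq_sum_range_succ_mk, ← Finset.sum_range_reflect] at h
  rw [Finset.sum_range_succ'] at h
  have h0 : ∀ n ∈ range (r + 1), (PowerSeries.coeff (r + 1 + 1 - 1 - (n + 1)) (L : PowerSeries ℂ)) *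
      PowerSeries.coeff (r + 1 - (r + 1 + 1 - 1 - (n + 1)))
        (PowerSeries.mk (fun n => if n = 0 then (0 : ℂ) else -(W.map (fun w => w ^ n)).sum)) =
      (-(W.map (fun w => w ^ (n + 1))).sum) * L.coeff (r + 1 - (n + 1)) := by
    intro n hn
    rw [mem_range] at hn
    have e1 : r + 1 + 1 - 1 - (n + 1) = r + 1 - (n + 1) := by omega
    have e2 : r + 1 - (r + 1 - (n + 1)) = n + 1 := by omega
    rw [e1, e2, PowerSeries.coeff_mk, Polynomial.coeff_coe, if_neg (by omega)]
    ring
  have hlast : (PowerSeries.coeff (r + 1 + 1 - 1 - 0) (L : PowerSeries ℂ)) *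
      PowerSeries.coeff (r + 1 - (r + 1 + 1 - 1 - 0))
        (PowerSeries.mk (fun n => if n = 0 then (0 : ℂ) else -(W.map (fun w => w ^ n)).sum)) = 0 := by
    have e2 : r + 1 - (r + 1 + 1 - 1 - 0) = 0 := by omega
    rw [e2, PowerSeries.coeff_mk, if_pos rfl, mul_zero]
  have hre : ∑ n ∈ Icc 1 (r + 1), (-(W.map (fun w => w ^ n)).sum) * L.coeff (r + 1 - n) =
      ∑ n ∈ range (r + 1), (-(W.map (fun w => w ^ (n + 1))).sum) * L.coeff (r + 1 - (n + 1)) := by
    have hset : Icc 1 (r + 1) = Ico (0 + 1) (r + 1 + 1) := by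
      ext n; simp only [mem_Icc, mem_Ico]; omega
    rw [hset, ← Finset.sum_Ico_add', Finset.range_eq_Ico]
  rw [hre]
  rw [sum_congr rfl h0] at h
  rw [hlast, add_zero] at h
  rw [← h]
  push_cast
  ring

/-- square root cancellation from the recurrence and bounds at even places -/
theorem power_lim (p : ℕ) (hp : 2 ≤ p) (k : ℕ) (hk : 1 ≤ k) (c s : ℕ → ℂ) (hc0 : c 0 = 1)
    (hc : ∀ r : ℕ, k ≤ r → c r = 0)
    (hrec : ∀ r : ℕ, 1 ≤ r → (r : ℂ) * c r = ∑ n ∈ Icc 1 r, s n * c (r - n)) (C : ℝ)
    (hs : ∀ a : ℕ, 1 ≤ a → ‖s (2 * a)‖ ≤ C * (p : ℝ) ^ a) :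
    ‖s 1‖ ≤ ((k : ℝ) - 1) * Real.sqrt p := by
  classical
  set P : Polynomial ℂ := ∑ r ∈ range k, Polynomial.C (c r) * Polynomial.X ^ r with hP
  have hcoeff : ∀ r, P.coeff r = c r := by
    intro r
    rw [hP, Polynomial.finsetSum_coeff]
    simp only [Polynomial.coeff_C_mul, Polynomial.coeff_X_pow, mul_ite, mul_one, mul_zero]
    rw [Finset.sum_ite_eq]
    split_ifs with h
    · rfl
    · rw [mem_range, not_lt] at h
      exact (hc r h).symm
  have hP0 : P ≠ 0 := by
    intro h
    have := hcoeff 0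
    rw [h, hc0] at this
    simp at this
  have hdeg : P.natDegree ≤ k - 1 := by
    rw [Polynomial.natDegree_le_iff_coeff_eq_zero]
    intro r hr
    rw [hcoeff r]
    exact hc r (by omega)
  have heval : P.eval 0 = 1 := by
    rw [← Polynomial.coeff_zero_eq_eval_zero, hcoeff, hc0]
  have hroot0 : ∀ a ∈ P.roots, a ≠ 0 := by
    intro a ha h0
    rw [Polynomial.mem_roots hP0, Polynomial.IsRoot, h0, heval] at ha
    exact one_ne_zero ha
  set W : Multiset ℂ := P.roots.map (fun a => a⁻¹) with hW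
  have hfac : P = (W.map (fun w => (1 : Polynomial ℂ) - Polynomial.C w * Polynomial.X)).prod := by
    have h1 : P = Polynomial.C P.leadingCoeff *
        (P.roots.map (fun a => Polynomial.X - Polynomial.C a)).prod :=
      (IsAlgClosed.splits P).eq_prod_roots
    have h2 : P.roots.map (fun a => Polynomial.X - Polynomial.C a) =
        P.roots.map (fun a => Polynomial.C (-a) *
          ((1 : Polynomial ℂ) - Polynomial.C a⁻¹ * Polynomial.X)) := by
      refine Multiset.map_congr rfl (fun a ha => ?_)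
      have ha0 := hroot0 a ha
      rw [mul_sub, mul_one, ← mul_assoc, ← Polynomial.C_mul, neg_mul, mul_inv_cancel₀ ha0,
        Polynomial.C_neg, Polynomial.C_neg, Polynomial.C_1]
      ring
    rw [h2, Multiset.prod_map_mul] at h1
    have h3 : (P.roots.map (fun a => (1 : Polynomial ℂ) - Polynomial.C a⁻¹ * Polynomial.X)).prod =
        (W.map (fun w => (1 : Polynomial ℂ) - Polynomial.C w * Polynomial.X)).prod := by
      rw [hW, Multiset.map_map]
      rfl
    rw [h3, ← mul_assoc] at h1
    have h4 : (P.roots.map (fun a => Polynomial.C (-a))).prod =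
        Polynomial.C ((P.roots.map (fun a => -a)).prod) := by
      rw [map_multiset_prod, Multiset.map_map]
      rfl
    rw [h4, ← Polynomial.C_mul] at h1
    set κ : ℂ := P.leadingCoeff * (P.roots.map (fun a => -a)).prod with hκ
    set Q := (W.map (fun w => (1 : Polynomial ℂ) - Polynomial.C w * Polynomial.X)).prod with hQ
    have h5 : Q.eval 0 = 1 := by
      rw [hQ, Polynomial.eval_multiset_prod, Multiset.map_map]
      apply Multiset.prod_eq_one
      intro x hx
      rw [Multiset.mem_map] at hx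
      obtain ⟨w, _, rfl⟩ := hx
      simp
    have h6 : κ = 1 := by
      have h7 := congrArg (Polynomial.eval 0) h1
      rw [heval, Polynomial.eval_mul, Polynomial.eval_C, h5, mul_one] at h7
      exact h7.symm
    rw [h6, Polynomial.C_1, one_mul] at h1
    exact h1
  have hcardW : Multiset.card W ≤ k - 1 := by
    rw [hW, Multiset.card_map]
    exact (Polynomial.card_roots' P).trans hdeg
  have hrecW : ∀ r : ℕ, 1 ≤ r → (r : ℂ) * c r =
      ∑ n ∈ Icc 1 r, (-(W.map (fun w => w ^ n)).sum) * c (r - n) := by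
    intro r hr
    have h1 := pl_coeff W r hr
    rw [← hfac] at h1
    simp only [hcoeff] at h1
    exact h1
  have hsW : ∀ r : ℕ, 1 ≤ r → s r = -(W.map (fun w => w ^ r)).sum := by
    intro r
    induction r using Nat.strong_induction_on with
    | _ r ih =>
      intro hr
      have h1 := hrec r hr
      have h2 := hrecW r hr
      rw [h1] at h2
      have hset : Icc 1 r = insert r (Icc 1 (r - 1)) := by
        ext n; simp only [mem_Icc, mem_insert]; omega
      have hnot : r ∉ Icc 1 (r - 1) := by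
        rw [mem_Icc]; omega
      rw [hset, sum_insert hnot, sum_insert hnot, Nat.sub_self, hc0, mul_one, mul_one] at h2
      have h3 : ∑ n ∈ Icc 1 (r - 1), s n * c (r - n) =
          ∑ n ∈ Icc 1 (r - 1), (-(W.map (fun w => w ^ n)).sum) * c (r - n) := by
        refine sum_congr rfl (fun n hn => ?_)
        rw [mem_Icc] at hn
        rw [ih n (by omega) hn.1]
      rw [h3] at h2
      exact add_right_cancel h2
  have hpR : (0 : ℝ) < (p : ℝ) := by exact_mod_cast (by omega : 0 < p)
  have hbound : ∀ u ∈ W.map (fun w => w ^ 2), ‖u‖ ≤ (p : ℝ) := by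
    refine pl_bound _ (p : ℝ) C hpR (fun a ha => ?_)
    have h1 := hs a ha
    rw [hsW (2 * a) (by omega), norm_neg] at h1
    rw [Multiset.map_map]
    have h2 : W.map ((fun u : ℂ => u ^ a) ∘ fun w => w ^ 2) = W.map (fun w => w ^ (2 * a)) := by
      refine Multiset.map_congr rfl (fun w _ => ?_)
      simp only [Function.comp]
      rw [pow_mul]
    rw [h2]
    exact h1
  have hw : ∀ w ∈ W, ‖w‖ ≤ Real.sqrt p := by
    intro w hwW
    have h1 := hbound (w ^ 2) (Multiset.mem_map_of_mem _ hwW)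
    rw [norm_pow] at h1
    exact Real.le_sqrt_of_sq_le h1
  rw [hsW 1 le_rfl, norm_neg]
  have h1 : ‖(W.map (fun w => w ^ 1)).sum‖ ≤ ((W.map (fun w => w ^ 1)).map (fun x => ‖x‖)).sum :=
    norm_multiset_sum_le _
  have h2 : ((W.map (fun w => w ^ 1)).map (fun x => ‖x‖)).sum ≤
      Multiset.card ((W.map (fun w => w ^ 1)).map (fun x => ‖x‖)) • Real.sqrt p := by
    apply Multiset.sum_le_card_nsmul
    intro x hx
    rw [Multiset.map_map, Multiset.mem_map] at hx
    obtain ⟨w, hwW, rfl⟩ := hx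
    simp only [Function.comp, pow_one]
    exact hw w hwW
  rw [Multiset.card_map, Multiset.card_map, nsmul_eq_mul] at h2
  refine h1.trans (h2.trans ?_)
  apply mul_le_mul_of_nonneg_right _ (Real.sqrt_nonneg _)
  have h3 : (Multiset.card W : ℝ) ≤ ((k - 1 : ℕ) : ℝ) := by exact_mod_cast hcardW
  rw [Nat.cast_sub hk] at h3
  simpa using h3

end Vale.Agent.P042.GS
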