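import Vale.Agent.P042.GS.TraceSum
import Vale.Agent.P042.GS.Mangoldt
import Vale.Agent.P042.GS.PointSum
import Vale.Agent.P042.GS.PowerLim

namespace Vale.Agent.P042.GS

open Finset Polynomial

/-- Weil's bound for complete exponential sums with polynomial phase -/
theorem weil_bound (p : ℕ) [Fact p.Prime] (f : (ZMod p)[X]) (k : ℕ) (hk : 1 ≤ k)
    (hf : f.natDegree = k) (hpk : ¬ p ∣ k) :
    ‖∑ x : ZMod p, (ZMod.stdAddChar (f.eval x) : ℂ)‖ ≤ ((k : ℝ) - 1) * Real.sqrt p := by
  obtain ⟨C, hC, hb⟩ := trace_sum_bound p f k hk hf hpk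
  have hs1 : sMang (lamf f) 1 = ∑ x : ZMod p, (ZMod.stdAddChar (f.eval x) : ℂ) := by
    rw [← point_sum f 1 le_rfl (ZMod p) (by rw [ZMod.card, pow_one])]
    apply Finset.sum_congr rfl
    intro x _
    rw [Algebra.trace_self_apply, Polynomial.coe_aeval_eq_eval]
  rw [← hs1]
  have h0 : Mset p 0 = {1} := by
    ext g
    rw [mem_Mset, Finset.mem_singleton]
    constructor
    · rintro ⟨h1, h2⟩
      exact h1.natDegree_eq_zero.mp h2
    · rintro rfl
      exact ⟨monic_one, natDegree_one⟩
  refine power_lim p (Fact.out : p.Prime).two_le k hk (fun r => ∑ g ∈ Mset p r, lamf f g)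
    (sMang (lamf f)) ?_ ?_ ?_ C ?_
  · simp only [h0, Finset.sum_singleton, lamf_one]
  · intro r hr
    exact sum_Mset_zero f k hk hf hpk r hr
  · intro r _
    exact mangoldt_rec (lamf f) (lamf_one f) (fun g h hg hh => lamf_mul f g h hg hh) r
  · intro a ha
    haveI : Fintype (GaloisField p (2 * a)) := Fintype.ofFinite _
    have hcard : Fintype.card (GaloisField p (2 * a)) = p ^ (2 * a) := by
      rw [← Nat.card_eq_fintype_card, GaloisField.card p (2 * a) (by omega)]
    rw [← point_sum f (2 * a) (by omega) (GaloisField p (2 * a)) hcard]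
    exact hb (GaloisField p (2 * a)) a ha hcard

end Vale.Agent.P042.GS
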