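import Vale.Agent.P042.GS.Defs
import Vale.Agent.P042.GS.Weil

namespace Vale.Agent.P042.GS

open Finset Vale.Agent.P042.FS

theorem cpr_sum_range {p : ℕ} [NeZero p] (F : ZMod p → ℂ) :
    ∑ x ∈ range p, F (x : ZMod p) = ∑ x : ZMod p, F x := by
  refine Finset.sum_nbij' (fun x => (x : ZMod p)) (fun x => x.val) ?_ ?_ ?_ ?_ ?_
  · intro x _
    exact mem_univ _
  · intro x _
    exact mem_range.mpr (ZMod.val_lt x)
  · intro x hx
    exact ZMod.val_cast_of_lt (mem_range.mp hx)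
  · intro x _
    exact ZMod.natCast_zmod_val x
  · intro x _
    rfl

theorem cpr_ee {p : ℕ} [NeZero p] (n : ℤ) : ee ((n : ℝ) / p) = (ZMod.stdAddChar ((n : ℤ) : ZMod p) : ℂ) := by
  rw [ZMod.stdAddChar_coe]
  unfold ee
  congr 1
  push_cast
  ring

/-- the polynomial `a H` modulo `p` -/
noncomputable def cprPoly (k : ℕ) (c : ℕ → ℤ) (p : ℕ) (a : ℤ) : Polynomial (ZMod p) :=
  ∑ j ∈ range (k + 1), Polynomial.monomial j (((a * c j : ℤ)) : ZMod p)

theorem cprPoly_eval (k : ℕ) (c : ℕ → ℤ) (p : ℕ) (a : ℤ) (x : ℕ) :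
    (cprPoly k c p a).eval (x : ZMod p) = ((a * pv k c x : ℤ) : ZMod p) := by
  unfold cprPoly pv
  rw [Polynomial.eval_finsetSum, mul_sum]
  push_cast
  refine sum_congr rfl fun j _ => ?_
  rw [Polynomial.eval_monomial]
  ring

theorem cprPoly_coeff (k : ℕ) (c : ℕ → ℤ) (p : ℕ) (a : ℤ) (i : ℕ) (hi : i ≤ k) :
    (cprPoly k c p a).coeff i = ((a * c i : ℤ) : ZMod p) := by
  unfold cprPoly
  rw [Polynomial.finsetSum_coeff, Finset.sum_eq_single i]
  · rw [Polynomial.coeff_monomial, if_pos rfl]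
  · intro j _ hj
    rw [Polynomial.coeff_monomial, if_neg hj]
  · intro h
    exact absurd (mem_range.mpr (by omega)) h

/-- prime moduli, from Weil's bound -/
theorem cs_prime (k : ℕ) (c : ℕ → ℤ) (p : ℕ) (hp : p.Prime) (hpk : k < p)
    (hc : ∃ i, 1 ≤ i ∧ i ≤ k ∧ ¬ (p : ℤ) ∣ c i) (a : ℤ) (ha : ¬ (p : ℤ) ∣ a) :
    ‖cs k c p a‖ ≤ (k : ℝ) / Real.sqrt p := by
  have : Fact p.Prime := ⟨hp⟩
  obtain ⟨i, hi1, hik, hci⟩ := hc
  set f := cprPoly k c p a with hf
  have hcoef : f.coeff i ≠ 0 := by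
    rw [hf, cprPoly_coeff k c p a i hik]
    intro h
    rw [ZMod.intCast_zmod_eq_zero_iff_dvd] at h
    rcases (Nat.prime_iff_prime_int.mp hp).dvd_or_dvd h with h1 | h1
    · exact ha h1
    · exact hci h1
  have hd1 : 1 ≤ f.natDegree := hi1.trans (Polynomial.le_natDegree_of_ne_zero hcoef)
  have hdk : f.natDegree ≤ k := by
    rw [hf]
    unfold cprPoly
    refine Polynomial.natDegree_sum_le_of_forall_le _ _ fun j hj => ?_
    refine (Polynomial.natDegree_monomial_le _).trans ?_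
    have := mem_range.mp hj
    omega
  have hnd : ¬ p ∣ f.natDegree := fun h => by
    have := Nat.le_of_dvd (by omega) h
    omega
  have hw := weil_bound p f f.natDegree hd1 rfl hnd
  have hsum : ∑ x ∈ range p, ee ((a : ℝ) * (pv k c x : ℝ) / p) = ∑ x : ZMod p, (ZMod.stdAddChar (f.eval x) : ℂ) := by
    rw [← cpr_sum_range (fun x => (ZMod.stdAddChar (f.eval x) : ℂ))]
    refine sum_congr rfl fun x _ => ?_
    rw [hf, cprPoly_eval, ← cpr_ee]
    push_cast
    ring_nf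
  have hp0 : (0 : ℝ) < p := by exact_mod_cast hp.pos
  unfold cs
  rw [hsum, norm_div, Complex.norm_natCast]
  have hsq : 0 < Real.sqrt p := Real.sqrt_pos.mpr hp0
  rw [div_le_div_iff₀ hp0 hsq]
  have h1 : ((f.natDegree : ℝ) - 1) * Real.sqrt p ≤ k * Real.sqrt p := by
    refine mul_le_mul_of_nonneg_right ?_ hsq.le
    have : (f.natDegree : ℝ) ≤ k := by exact_mod_cast hdk
    linarith
  calc ‖∑ x : ZMod p, (ZMod.stdAddChar (f.eval x) : ℂ)‖ * Real.sqrt p
      ≤ (k * Real.sqrt p) * Real.sqrt p := mul_le_mul_of_nonneg_right (hw.trans h1) hsq.le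
    _ = k * p := by rw [mul_assoc, Real.mul_self_sqrt hp0.le]

end Vale.Agent.P042.GS
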