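import Vale.Agent.P042.GS.Defs

namespace Vale.Agent.P042.GS

open Finset Vale.Agent.P042.FS

theorem cw_ee_add (x y : ℝ) : ee (x + y) = ee x * ee y := by
  unfold ee
  rw [← Complex.exp_add]
  congr 1
  push_cast
  ring

theorem cw_ee_int (n : ℤ) : ee (n : ℝ) = 1 := by
  unfold ee
  rw [Complex.exp_eq_one_iff]
  exact ⟨n, by push_cast; ring⟩

theorem cw_norm_ee (x : ℝ) : ‖ee x‖ = 1 := by
  unfold ee
  rw [Complex.norm_exp]
  simp

/-- values of a polynomial modulo `q` -/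
theorem cw_pv_mod (k : ℕ) (c : ℕ → ℤ) (n q : ℤ) : ∃ t : ℤ, pv k c (n + q) = pv k c n + q * t := by
  have : (q : ℤ) ∣ pv k c (n + q) - pv k c n := by
    unfold pv
    rw [← Finset.sum_sub_distrib]
    refine Finset.dvd_sum fun j _ => ?_
    rw [← mul_sub]
    refine Dvd.dvd.mul_left ?_ _
    have := sub_dvd_pow_sub_pow (n + q) n j
    rwa [add_sub_cancel_left] at this
  obtain ⟨t, ht⟩ := this
  exact ⟨t, by linarith⟩

theorem cw_periodic (k : ℕ) (c : ℕ → ℤ) (q : ℕ) (hq : 1 ≤ q) (a : ℤ) (n : ℕ) :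
    ee ((a : ℝ) / q * (pv k c ((n + q : ℕ) : ℤ) : ℝ)) = ee ((a : ℝ) / q * (pv k c (n : ℤ) : ℝ)) := by
  obtain ⟨t, ht⟩ := cw_pv_mod k c (n : ℤ) (q : ℤ)
  have hq0 : (q : ℝ) ≠ 0 := by positivity
  have e1 : (a : ℝ) / q * (pv k c ((n + q : ℕ) : ℤ) : ℝ) =
      (a : ℝ) / q * (pv k c (n : ℤ) : ℝ) + ((a * t : ℤ) : ℝ) := by
    push_cast
    rw [ht]
    push_cast
    field_simp
  rw [e1, cw_ee_add, cw_ee_int, mul_one]

/-- sum of a periodic function over several periods -/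
theorem cw_sum_periodic (f : ℕ → ℂ) (q : ℕ) (hf : ∀ n, f (n + q) = f n) (m M : ℕ) :
    ∑ n ∈ range (m + q * M), f n = ∑ n ∈ range m, f n + M * ∑ n ∈ range q, f n := by
  have h1 : ∀ m, ∑ i ∈ range q, f (m + i) = ∑ n ∈ range q, f n := by
    intro m
    induction m with
    | zero => simp
    | succ m ih =>
      rw [← ih]
      have e1 := Finset.sum_range_succ (fun i => f (m + i)) q
      have e2 := Finset.sum_range_succ' (fun i => f (m + i)) q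
      have e3 : ∑ i ∈ range q, f (m + 1 + i) = ∑ i ∈ range q, f (m + (i + 1)) :=
        Finset.sum_congr rfl fun i _ => by rw [add_assoc, add_comm 1 i]
      rw [e3]
      have e4 := hf m
      simp only [add_zero] at e2
      linear_combination e1 - e2 + e4
  induction M with
  | zero => simp
  | succ M ih =>
    have e1 : m + q * (M + 1) = (m + q * M) + q := by ring
    rw [e1, Finset.sum_range_add, ih, h1]
    push_cast
    ring

/-- the sum over `(Y, 2Y]` for `q ∣ Y` -/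
theorem cw_sum_block (k : ℕ) (c : ℕ → ℤ) (q : ℕ) (hq : 1 ≤ q) (a : ℤ) (M Y : ℕ)
    (hY : Y = q * M) :
    ∑ n ∈ Ioc Y (2 * Y), ee ((a : ℝ) / q * (pv k c n : ℝ)) = (Y : ℂ) * cs k c q a := by
  have hq0 : (q : ℂ) ≠ 0 := by
    have : (q : ℝ) ≠ 0 := by positivity
    exact_mod_cast this
  obtain ⟨f, hf⟩ : ∃ f : ℕ → ℂ, f = fun n : ℕ => ee ((a : ℝ) / q * (pv k c (n : ℤ) : ℝ)) := ⟨_, rfl⟩
  have hper : ∀ n, f (n + q) = f n := by
    intro n
    rw [hf]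
    exact cw_periodic k c q hq a n
  have h1 : ∑ n ∈ Ioc Y (2 * Y), f n =
      ∑ n ∈ range (Y + 1 + q * M), f n - ∑ n ∈ range (Y + 1), f n := by
    have e1 : Ioc Y (2 * Y) = Ico (Y + 1) (Y + 1 + q * M) := by
      ext n
      simp only [Finset.mem_Ioc, Finset.mem_Ico]
      omega
    rw [e1, Finset.sum_Ico_eq_sub _ (by omega)]
  have h2 : ∑ n ∈ range q, f n = q * cs k c q a := by
    unfold cs
    rw [mul_div_cancel₀ _ hq0, hf]
    refine Finset.sum_congr rfl fun n _ => ?_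
    have e1 : (a : ℝ) / q * (pv k c (n : ℤ) : ℝ) = (a : ℝ) * (pv k c n : ℝ) / q := by ring
    beta_reduce
    rw [e1]
  have h3 : ∑ n ∈ Ioc Y (2 * Y), ee ((a : ℝ) / q * (pv k c n : ℝ)) =
      ∑ n ∈ Ioc Y (2 * Y), f n := by rw [hf]
  rw [h3, h1, cw_sum_periodic f q hper, h2, hY]
  push_cast
  ring

theorem cw_norm_cs_le (k : ℕ) (c : ℕ → ℤ) (q : ℕ) (hq : 1 ≤ q) (a : ℤ) : ‖cs k c q a‖ ≤ 1 := by
  unfold cs
  rw [norm_div, div_le_one (by rw [Complex.norm_natCast]; positivity)]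
  refine (norm_sum_le _ _).trans ?_
  rw [Finset.sum_congr rfl fun x _ => cw_norm_ee _]
  simp

/-- power saving from the Weyl inverse property -/
theorem cs_weyl (k C : ℕ) (hk : 1 ≤ k) (hC : 1 ≤ C) (hW : WeylC k C) (c : ℕ → ℤ) (G : ℕ)
    (hG : 1 ≤ G) (hck : 0 < c k)
    (hcont : ∀ B : ℕ, (∀ j, 1 ≤ j → j ≤ k → (B : ℤ) ∣ c j) → B ≤ G) (q : ℕ) (hq : 1 ≤ q)
    (a : ℤ) (ha : IsCoprime a (q : ℤ)) :
    ‖cs k c q a‖ ≤ 2 * ((G : ℝ) / q) ^ (1 / (C : ℝ)) := by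
  obtain ⟨s, hs⟩ : ∃ s, s = ‖cs k c q a‖ := ⟨_, rfl⟩
  rw [← hs]
  have hq0 : (0 : ℝ) < q := by exact_mod_cast hq
  have hG0 : (1 : ℝ) ≤ G := by exact_mod_cast hG
  have hs0 : 0 ≤ s := by
    rw [hs]
    exact norm_nonneg _
  rcases hs0.eq_or_lt with h0 | hspos
  · rw [← h0]
    positivity
  have hs1 : s ≤ 1 := by
    rw [hs]
    exact cw_norm_cs_le k c q hq a
  obtain ⟨δ, hδ⟩ : ∃ δ, δ = min s (1 / 2) := ⟨_, rfl⟩
  have hδ0 : 0 < δ := by
    rw [hδ]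
    exact lt_min hspos (by norm_num)
  have hδ2 : δ ≤ 1 / 2 := by
    rw [hδ]
    exact min_le_right _ _
  have hδs : δ ≤ s := by
    rw [hδ]
    exact min_le_left _ _
  have hs2 : s ≤ 2 * δ := by
    rw [hδ]
    rcases le_total s (1 / 2) with h | h
    · rw [min_eq_left h]
      linarith
    · rw [min_eq_right h]
      linarith
  obtain ⟨D, hD⟩ : ∃ D, D = (1 / δ) ^ C := ⟨_, rfl⟩
  have hD0 : 0 < D := by
    rw [hD]
    positivity
  -- choose a large `M`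
  obtain ⟨M, hM⟩ : ∃ M : ℕ, (∀ j, j ≤ k → (c j) ^ 2 ≤ (M : ℤ)) ∧ D ≤ M ∧ q * G * D ^ 2 < M := by
    obtain ⟨M₁, hM₁⟩ := exists_nat_gt (D + q * G * D ^ 2)
    refine ⟨M₁ + ∑ j ∈ range (k + 1), ((c j) ^ 2).toNat, fun j hj => ?_, ?_, ?_⟩
    · have h1 : ((c j) ^ 2).toNat ≤ ∑ j ∈ range (k + 1), ((c j) ^ 2).toNat :=
        Finset.single_le_sum (f := fun j => ((c j) ^ 2).toNat) (fun _ _ => Nat.zero_le _)
          (Finset.mem_range.mpr (by omega))
      have h2 : (c j) ^ 2 ≤ (((c j) ^ 2).toNat : ℤ) := Int.self_le_toNat _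
      have h3 : (((c j) ^ 2).toNat : ℤ) ≤ ((∑ j ∈ range (k + 1), ((c j) ^ 2).toNat : ℕ) : ℤ) := by
        exact_mod_cast h1
      push_cast at h3 ⊢
      have h4 : (0 : ℤ) ≤ M₁ := by positivity
      linarith
    · have h1 : (0 : ℝ) ≤ q * G * D ^ 2 := by positivity
      have h2 : (0 : ℝ) ≤ ((∑ j ∈ range (k + 1), ((c j) ^ 2).toNat : ℕ) : ℝ) := by positivity
      push_cast at h2 ⊢
      linarith
    · have h2 : (0 : ℝ) ≤ ((∑ j ∈ range (k + 1), ((c j) ^ 2).toNat : ℕ) : ℝ) := by positivity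
      push_cast at h2 ⊢
      linarith
  obtain ⟨hM1, hM2, hM3⟩ := hM
  obtain ⟨Y, hY⟩ : ∃ Y : ℕ, Y = q * M := ⟨_, rfl⟩
  have hMY : M ≤ Y := by
    rw [hY]
    exact Nat.le_mul_of_pos_left M hq
  have hMYr : (M : ℝ) ≤ Y := by exact_mod_cast hMY
  have hMYz : (M : ℤ) ≤ Y := by exact_mod_cast hMY
  have hM0 : (0 : ℝ) < M := hD0.trans_le hM2
  have hY0 : (0 : ℝ) < Y := hM0.trans_le hMYr
  have hY1 : 1 ≤ Y := by exact_mod_cast hY0
  have hsum : ∑ n ∈ Ioc Y (2 * Y), ee ((a : ℝ) / q * (pv k c n : ℝ)) = (Y : ℂ) * cs k c q a := by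
    exact cw_sum_block k c q hq a M Y hY
  obtain ⟨q₁, a₁, hq1, hq2, hq3⟩ := hW c G Y δ ((a : ℝ) / q) hY1 hck hcont
    (fun j _ hj => (hM1 j hj).trans hMYz) hδ0 hδ2 (by rw [← hD]; exact hM2.trans hMYr) (by
      rw [hsum, norm_mul, Complex.norm_natCast, ← hs, mul_comm]
      exact mul_le_mul_of_nonneg_left hδs hY0.le)
  rw [← hD] at hq2 hq3
  have hq10 : (0 : ℝ) < q₁ := by exact_mod_cast hq1
  -- the two fractions agree
  have hck1 : (1 : ℝ) ≤ (c k : ℝ) := by exact_mod_cast hck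
  have hYk : (Y : ℝ) ≤ (c k : ℝ) * (Y : ℝ) ^ k := by
    have h1 : (Y : ℝ) ≤ (Y : ℝ) ^ k := le_self_pow₀ (by exact_mod_cast hY1) (by omega)
    nlinarith [pow_pos hY0 k]
  have hlt : |(a : ℝ) / q - a₁ / q₁| < 1 / (q * q₁) := by
    refine hq3.trans_lt ?_
    rw [div_lt_div_iff₀ (hY0.trans_le hYk) (by positivity), one_mul]
    calc D * (q * q₁) ≤ D * (q * (G * D)) := by gcongr
      _ = q * G * D ^ 2 := by ring
      _ < M := hM3
      _ ≤ Y := hMYr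
      _ ≤ _ := hYk
  have heq : a * q₁ = a₁ * q := by
    have h1 : (a : ℝ) / q - a₁ / q₁ = ((a * q₁ - a₁ * q : ℤ) : ℝ) / (q * q₁) := by
      push_cast
      field_simp
    rw [h1, abs_div, abs_of_pos (by positivity : (0:ℝ) < q * q₁),
      div_lt_div_iff_of_pos_right (by positivity)] at hlt
    have h2 : |(a * q₁ - a₁ * q : ℤ)| < 1 := by exact_mod_cast hlt
    have h3 := Int.abs_lt_one_iff.mp h2
    linarith
  have hdvd : (q : ℤ) ∣ (q₁ : ℤ) := by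
    have h1 : (q : ℤ) ∣ a * q₁ := ⟨a₁, by rw [heq]; ring⟩
    exact ha.symm.dvd_of_dvd_mul_left h1
  have hle : q ≤ q₁ := Nat.le_of_dvd (by omega) (by exact_mod_cast hdvd)
  have hqD : (q : ℝ) ≤ G * D := by
    have : (q : ℝ) ≤ q₁ := by exact_mod_cast hle
    exact this.trans hq2
  -- conclusion
  have hδC : δ ^ C ≤ (G : ℝ) / q := by
    rw [le_div_iff₀ hq0]
    have : δ ^ C * D = 1 := by
      rw [hD, ← mul_pow, mul_one_div_cancel hδ0.ne', one_pow]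
    calc δ ^ C * q ≤ δ ^ C * (G * D) := by gcongr
      _ = G * (δ ^ C * D) := by ring
      _ = G := by rw [this, mul_one]
  have hfin : δ ≤ ((G : ℝ) / q) ^ (1 / (C : ℝ)) := by
    have h1 := Real.rpow_le_rpow (by positivity) hδC (by positivity : (0:ℝ) ≤ 1 / (C : ℝ))
    rwa [← Real.rpow_natCast, ← Real.rpow_mul hδ0.le, mul_one_div_cancel (by positivity),
      Real.rpow_one] at h1
  linarith

end Vale.Agent.P042.GS
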