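import Vale.Agent.P042.GS.CsMul
import Vale.Agent.P042.GS.CsWeyl
import Vale.Agent.P042.GS.CsPow
import Vale.Agent.P042.GS.CsPrime

namespace Vale.Agent.P042.GS

open Finset Vale.Agent.P042.FS

theorem norm_ee (x : ℝ) : ‖ee x‖ = 1 := by
  unfold ee
  rw [show (2 * Real.pi * Complex.I * x : ℂ) = ((2 * Real.pi * x : ℝ) : ℂ) * Complex.I by
    push_cast; ring]
  exact Complex.norm_exp_ofReal_mul_I _

/-- trivial bound -/
theorem cs_le_one (k : ℕ) (c : ℕ → ℤ) (q : ℕ) (a : ℤ) : ‖cs k c q a‖ ≤ 1 := by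
  unfold cs
  rw [norm_div]
  rcases Nat.eq_zero_or_pos q with rfl | hq
  · simp
  · have hq0 : (0 : ℝ) < q := by exact_mod_cast hq
    have h1 : ‖(q : ℂ)‖ = q := by simp
    rw [h1, div_le_one hq0]
    calc ‖∑ x ∈ range q, ee ((a : ℝ) * (pv k c x : ℝ) / q)‖
        ≤ ∑ x ∈ range q, ‖ee ((a : ℝ) * (pv k c x : ℝ) / q)‖ := norm_sum_le _ _
      _ = q := by
          simp only [norm_ee, Finset.sum_const, Finset.card_range, nsmul_eq_mul, mul_one]

theorem gp_nonneg (k C G p j : ℕ) : 0 ≤ gp k C G p j := by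
  unfold gp
  have h1 : (0 : ℝ) ≤ 2 * ((G : ℝ) / (p : ℝ) ^ j) ^ (1 / (C : ℝ)) := by positivity
  split_ifs
  · exact le_min (by norm_num) h1
  · exact le_min (by norm_num) (by positivity)
  · exact le_min (by positivity) h1

/-- bound for complete sums -/
theorem cs_bound (k C : ℕ) (hk : 1 ≤ k) (hC : 1 ≤ C) (hW : WeylC k C) (c : ℕ → ℤ) (G : ℕ)
    (hG : 1 ≤ G) (hck : 0 < c k)
    (hcont : ∀ B : ℕ, (∀ j, 1 ≤ j → j ≤ k → (B : ℤ) ∣ c j) → B ≤ G) (q : ℕ) (hq : 1 ≤ q)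
    (a : ℤ) (ha : IsCoprime a (q : ℤ)) : ‖cs k c q a‖ ≤ gq k C G q := by
  unfold gq
  refine cs_local k c (gp k C G) (gp_nonneg k C G) ?_ q hq a ha
  intro p j hp hj a ha
  have hcop : IsCoprime a ((p ^ j : ℕ) : ℤ) := by
    push_cast
    apply IsCoprime.pow_right
    have hpi : Prime (p : ℤ) := Nat.prime_iff_prime_int.mp hp
    exact ((Prime.coprime_iff_not_dvd hpi).mpr ha).symm
  have hw := cs_weyl k C hk hC hW c G hG hck hcont (p ^ j) (Nat.one_le_pow _ _ hp.pos) a hcop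
  have hw' : ‖cs k c (p ^ j) a‖ ≤ 2 * ((G : ℝ) / (p : ℝ) ^ j) ^ (1 / (C : ℝ)) := by
    push_cast at hw
    exact hw
  unfold gp
  split_ifs with h1 h2
  · exact le_min (cs_le_one _ _ _ _) hw'
  · push Not at h1
    subst h2
    rw [pow_one]
    refine le_min (cs_le_one _ _ _ _) ?_
    refine cs_prime k c p hp h1.1 ?_ a ha
    by_contra hcon
    push Not at hcon
    have := hcont p hcon
    omega
  · push Not at h1
    refine le_min ?_ hw'
    refine cs_pow k c p j hp h1.1 (by omega) ?_ a ha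
    by_contra hcon
    push Not at hcon
    have := hcont p hcon
    omega

end Vale.Agent.P042.GS
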