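import Vale.Agent.P042.GS.Defs
import Vale.Agent.P042.GS.CsPow

namespace Vale.Agent.P042.GS

open Finset Vale.Agent.P042.FS

theorem cm_pv_congr (k : ℕ) (c : ℕ → ℤ) (q x y : ℕ) (h : x ≡ y [MOD q]) :
    (q : ℤ) ∣ pv k c (x : ℤ) - pv k c (y : ℤ) := by
  have h1 : (q : ℤ) ∣ (x : ℤ) - (y : ℤ) := (Nat.modEq_iff_dvd.1 h.symm)
  rw [← cp_eval, ← cp_eval]
  exact h1.trans (Polynomial.sub_dvd_eval_sub _ _ _)

theorem cm_ee_congr (k : ℕ) (c : ℕ → ℤ) (q x y : ℕ) (hq : 0 < q) (a : ℤ) (h : x ≡ y [MOD q]) :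
    ee ((a : ℝ) * (pv k c (x : ℤ) : ℝ) / q) = ee ((a : ℝ) * (pv k c (y : ℤ) : ℝ) / q) := by
  have h1 := cm_pv_congr k c q x y h
  have h2 : (q : ℤ) ∣ a * pv k c (x : ℤ) - a * pv k c (y : ℤ) := by
    rw [← mul_sub]
    exact h1.mul_left a
  have h3 := cp_ee_congr hq h2
  push_cast at h3
  exact h3

theorem cm_sum (q₁ q₂ : ℕ) (hq₁ : 1 ≤ q₁) (hq₂ : 1 ≤ q₂) (hcop : Nat.Coprime q₁ q₂)
    (f g : ℕ → ℂ) (hf : ∀ x, f x = f (x % q₁)) (hg : ∀ x, g x = g (x % q₂)) :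
    ∑ x ∈ range (q₁ * q₂), f x * g x = (∑ x ∈ range q₁, f x) * ∑ x ∈ range q₂, g x := by
  rw [sum_mul_sum, ← sum_product']
  apply sum_nbij' (fun x => (x % q₁, x % q₂))
    (fun z : ℕ × ℕ => ((Nat.chineseRemainder hcop z.1 z.2 : ℕ)))
  · intro x _
    rw [mem_product, mem_range, mem_range]
    exact ⟨Nat.mod_lt _ hq₁, Nat.mod_lt _ hq₂⟩
  · rintro ⟨y, z⟩ _
    rw [mem_range]
    exact Nat.chineseRemainder_lt_mul hcop y z (by omega) (by omega)
  · intro x hx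
    rw [mem_range] at hx
    have h1 : x ≡ (Nat.chineseRemainder hcop (x % q₁) (x % q₂) : ℕ) [MOD q₁ * q₂] :=
      Nat.chineseRemainder_modEq_unique hcop (Nat.mod_modEq x q₁).symm (Nat.mod_modEq x q₂).symm
    have h2 := Nat.chineseRemainder_lt_mul hcop (x % q₁) (x % q₂) (by omega) (by omega)
    exact (Nat.ModEq.eq_of_lt_of_lt h1 hx h2).symm
  · rintro ⟨y, z⟩ h
    rw [mem_product, mem_range, mem_range] at h
    have h1 := (Nat.chineseRemainder hcop y z).2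
    simp only [Prod.mk.injEq]
    refine ⟨?_, ?_⟩
    · have := h1.1
      unfold Nat.ModEq at this
      rw [this, Nat.mod_eq_of_lt h.1]
    · have := h1.2
      unfold Nat.ModEq at this
      rw [this, Nat.mod_eq_of_lt h.2]
  · intro x _
    simp only
    rw [← hf, ← hg]

/-- multiplicativity of complete sums -/
theorem cs_mul (k : ℕ) (c : ℕ → ℤ) (q₁ q₂ : ℕ) (hq₁ : 1 ≤ q₁) (hq₂ : 1 ≤ q₂)
    (hcop : Nat.Coprime q₁ q₂) (a : ℤ) (ha : IsCoprime a ((q₁ * q₂ : ℕ) : ℤ)) :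
    ∃ a₁ a₂ : ℤ, IsCoprime a₁ (q₁ : ℤ) ∧ IsCoprime a₂ (q₂ : ℤ) ∧
      cs k c (q₁ * q₂) a = cs k c q₁ a₁ * cs k c q₂ a₂ := by
  obtain ⟨u, v, huv⟩ := Nat.isCoprime_iff_coprime.2 hcop
  have hq₁' : (q₁ : ℝ) ≠ 0 := by positivity
  have hq₂' : (q₂ : ℝ) ≠ 0 := by positivity
  push_cast at ha
  refine ⟨a * v, a * u, ?_, ?_, ?_⟩
  · refine IsCoprime.mul_left ha.of_mul_right_left ⟨q₂, u, ?_⟩
    linarith
  · refine IsCoprime.mul_left ha.of_mul_right_right ⟨q₁, v, ?_⟩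
    linarith
  · unfold cs
    have h1 : ∀ x : ℕ, ee ((a : ℝ) * (pv k c (x : ℤ) : ℝ) / ((q₁ * q₂ : ℕ) : ℝ)) =
        ee (((a * v : ℤ) : ℝ) * (pv k c (x : ℤ) : ℝ) / q₁) *
          ee (((a * u : ℤ) : ℝ) * (pv k c (x : ℤ) : ℝ) / q₂) := by
      intro x
      rw [← cp_ee_add]
      congr 1
      have h2 : (u : ℝ) * q₁ + v * q₂ = 1 := by exact_mod_cast huv
      push_cast
      field_simp
      linear_combination (a * (pv k c (x : ℤ) : ℝ)) * (-h2)
    simp only [h1]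
    rw [cm_sum q₁ q₂ hq₁ hq₂ hcop
      (fun x => ee (((a * v : ℤ) : ℝ) * (pv k c (x : ℤ) : ℝ) / q₁))
      (fun x => ee (((a * u : ℤ) : ℝ) * (pv k c (x : ℤ) : ℝ) / q₂))
      (fun x => cm_ee_congr k c q₁ x (x % q₁) hq₁ _ (Nat.mod_modEq x q₁).symm)
      (fun x => cm_ee_congr k c q₂ x (x % q₂) hq₂ _ (Nat.mod_modEq x q₂).symm)]
    push_cast
    rw [div_mul_div_comm]

/-- local bounds give global bounds -/
theorem cs_local (k : ℕ) (c : ℕ → ℤ) (g : ℕ → ℕ → ℝ) (hg0 : ∀ p j, 0 ≤ g p j)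
    (h : ∀ p j : ℕ, p.Prime → 1 ≤ j → ∀ a : ℤ, ¬ (p : ℤ) ∣ a → ‖cs k c (p ^ j) a‖ ≤ g p j)
    (q : ℕ) (hq : 1 ≤ q) (a : ℤ) (ha : IsCoprime a (q : ℤ)) :
    ‖cs k c q a‖ ≤ ∏ p ∈ q.primeFactors, g p (q.factorization p) := by
  induction q using Nat.recOnPosPrimePosCoprime generalizing a with
  | zero => omega
  | one =>
    unfold cs
    simp [cp_ee_norm]
  | prime_pow p n hp hn =>
    rw [Nat.primeFactors_prime_pow hn.ne' hp, prod_singleton, hp.factorization_pow,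
      Finsupp.single_eq_same]
    refine h p n hp hn a ?_
    intro hpa
    have h1 : (p : ℤ) ∣ ((p ^ n : ℕ) : ℤ) := by
      push_cast
      exact dvd_pow_self _ hn.ne'
    have h2 := ha.isUnit_of_dvd' hpa h1
    have h3 := Int.isUnit_iff.1 h2
    have := hp.two_le
    omega
  | coprime x y hx hy hcop ihx ihy =>
    obtain ⟨a₁, a₂, h1, h2, h3⟩ := cs_mul k c x y (by omega) (by omega) hcop a ha
    rw [h3, norm_mul, hcop.primeFactors_mul, prod_union hcop.disjoint_primeFactors]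
    have e1 : ∏ p ∈ x.primeFactors, g p ((x * y).factorization p) =
        ∏ p ∈ x.primeFactors, g p (x.factorization p) := by
      apply prod_congr rfl
      intro p hp
      rw [Nat.factorization_eq_of_coprime_left hcop (Nat.mem_primeFactors_iff_mem_primeFactorsList.1 hp)]
    have e2 : ∏ p ∈ y.primeFactors, g p ((x * y).factorization p) =
        ∏ p ∈ y.primeFactors, g p (y.factorization p) := by
      apply prod_congr rfl
      intro p hp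
      rw [Nat.factorization_eq_of_coprime_right hcop (Nat.mem_primeFactors_iff_mem_primeFactorsList.1 hp)]
    rw [e1, e2]
    exact mul_le_mul (ihx (by omega) a₁ h1) (ihy (by omega) a₂ h2) (norm_nonneg _)
      (prod_nonneg fun p _ => hg0 _ _)

end Vale.Agent.P042.GS
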