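import Vale.Agent.P042.GS.Iterate2
import Vale.Agent.P042.FS.Final

namespace Vale.Agent.P042.GS

open Polynomial Vale.Agent.P042.FS

/-- the bound of Green and Sawhney strength for all intersective polynomials -/
theorem final2 (k : ℕ) (hk : 1 ≤ k) : ∃ c : ℝ, 0 < c ∧ ∀ h : ℤ[X], h.natDegree = k →
    0 < h.leadingCoeff → (∀ q : ℕ, 1 ≤ q → ∃ t : ℤ, (q : ℤ) ∣ h.eval t) →
    ∃ N₀ : ℕ, ∀ N : ℕ, N₀ ≤ N → (rmax h N : ℝ) ≤ N * Real.exp (-(c * Real.sqrt (Real.log N))) := by
  obtain ⟨C₀, hC₀, hmain⟩ := main_sys2 k hk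
  set s : ℝ := Real.sqrt (2 * C₀) with hs
  have hs0 : 0 < s := Real.sqrt_pos.mpr (by positivity)
  have hs2 : s ^ 2 = 2 * C₀ := Real.sq_sqrt (by positivity)
  refine ⟨1 / (2 * s), by positivity, ?_⟩
  intro h hdeg hlead hint
  obtain ⟨G, Cc, sys, hsys⟩ := sys_exists k hk h hdeg hlead hint
  obtain ⟨L₀, hL₀, hN⟩ := hmain G Cc 1 sys
  set x₀ : ℝ := (s * (L₀ + 5)) ^ 2 with hx₀
  refine ⟨Nat.ceil (Real.exp x₀) + 1, ?_⟩
  intro N hN0
  have hN1 : 1 ≤ N := by omega
  have hNR : (0 : ℝ) < N := by exact_mod_cast hN1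
  have hlogN : x₀ ≤ Real.log N := by
    rw [Real.le_log_iff_exp_le hNR]
    calc Real.exp x₀ ≤ Nat.ceil (Real.exp x₀) := Nat.le_ceil _
      _ ≤ N := by exact_mod_cast (by omega : Nat.ceil (Real.exp x₀) ≤ N)
  set ℓ := Real.log ((N : ℝ) + 1) with hℓ
  have hℓN : Real.log N ≤ ℓ := Real.log_le_log hNR (by linarith)
  set w := Real.sqrt (Real.log N) with hw
  have hlog0 : 0 ≤ Real.log N := le_trans (by positivity) hlogN
  have hw2 : w ^ 2 = Real.log N := Real.sq_sqrt hlog0
  have hwL : s * (L₀ + 5) ≤ w := by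
    rw [hw]
    apply Real.le_sqrt_of_sq_le
    exact hlogN
  set y : ℝ := w / s with hy
  have hyL : (L₀ : ℝ) + 5 ≤ y := by
    rw [hy, le_div_iff₀ hs0]
    linarith
  set L := Nat.floor y with hL
  have hL₀L : L₀ ≤ L := by
    rw [hL]
    apply Nat.le_floor
    linarith
  have hy0 : 0 ≤ y := by
    have : (0 : ℝ) ≤ L₀ := Nat.cast_nonneg _
    linarith
  have hLy : (L : ℝ) ≤ y := Nat.floor_le hy0
  have hyL' : y < L + 1 := Nat.lt_floor_add_one y
  obtain ⟨A, hA1, hA2, hA3⟩ := rmax_attained h N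
  have hCL : C₀ * (L : ℝ) ^ 2 ≤ Real.log N / 2 := by
    have e1 : (L : ℝ) ^ 2 ≤ y ^ 2 := pow_le_pow_left₀ (Nat.cast_nonneg _) hLy 2
    have e2 : y ^ 2 = Real.log N / (2 * C₀) := by
      rw [hy, div_pow, hw2, hs2]
    calc C₀ * (L : ℝ) ^ 2 ≤ C₀ * (Real.log N / (2 * C₀)) := by
          rw [← e2]
          exact mul_le_mul_of_nonneg_left e1 hC₀.le
      _ = Real.log N / 2 := by field_simp
  have hlogpos : 0 < Real.log N := by
    refine lt_of_lt_of_le ?_ hlogN
    have : (0 : ℝ) ≤ L₀ := Nat.cast_nonneg _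
    positivity
  have hnot : ¬ (Real.exp (-(L : ℝ)) * ((N + 1 : ℕ) : ℝ) ≤ A.card) := by
    intro hcon
    have := hN (N + 1) A
      (by
        intro x hx
        have := hA1 x hx
        push_cast
        constructor <;> omega)
      (by
        intro x hx n hn hpos hmem
        have hpv : pv k (sys.c 1) n = h.eval (n : ℤ) := by
          rw [← pv_coeff k h hdeg]
          unfold pv
          apply Finset.sum_congr rfl
          intro j _
          rw [hsys j]
        rw [hpv] at hpos hmem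
        have := hA2 _ hmem x hx n hn (by ring)
        have h5 : h.eval (n : ℤ) = 0 := by linarith
        omega)
      L hL₀L hcon
    push_cast at this
    rw [← hℓ] at this
    linarith
  push Not at hnot
  rw [← hA3]
  refine le_trans hnot.le ?_
  have hN2 : (((N + 1 : ℕ) : ℝ)) ≤ 2 * N := by
    push_cast
    have : (1 : ℝ) ≤ N := by exact_mod_cast hN1
    linarith
  have hcw : 1 / (2 * s) * w ≤ (L : ℝ) - 1 := by
    have e1 : 1 / (2 * s) * w = y / 2 := by
      rw [hy]; field_simp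
    rw [e1]
    have : (1 : ℝ) ≤ L₀ := by exact_mod_cast hL₀
    linarith
  calc Real.exp (-(L : ℝ)) * ((N + 1 : ℕ) : ℝ) ≤ Real.exp (-(L : ℝ)) * (2 * N) :=
        mul_le_mul_of_nonneg_left hN2 (Real.exp_pos _).le
    _ ≤ Real.exp (-(L : ℝ)) * (Real.exp 1 * N) := by
        apply mul_le_mul_of_nonneg_left _ (Real.exp_pos _).le
        apply mul_le_mul_of_nonneg_right _ hNR.le
        have := Real.exp_one_gt_d9
        linarith
    _ = N * Real.exp (1 - (L : ℝ)) := by
        rw [sub_eq_add_neg, Real.exp_add]; ring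
    _ ≤ N * Real.exp (-(1 / (2 * s) * w)) := by
        apply mul_le_mul_of_nonneg_left _ hNR.le
        apply Real.exp_le_exp.mpr
        linarith

end Vale.Agent.P042.GS
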