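import Vale.Agent.P042.FS.Freq
import Vale.Agent.P042.GS.Defs

namespace Vale.Agent.P042.GS

open Finset Vale.Agent.P042.FS

/-- the exact power of `p` in the quotient of the product of the local moduli by `q` -/
theorem fq2_dvd {Q q : ℕ} (hq : 1 ≤ q) (hqQ : q ≤ Q) (p : PI Q) :
    pN Q p ∣ (p : ℕ) ^ (q.factorization p) * ((∏ p : PI Q, pN Q p) / q) := by
  set P := ∏ p : PI Q, pN Q p with hP
  obtain ⟨R, hR⟩ := fq_dvd_prod hq hqQ
  rw [← hP] at hR
  have h1 : P / q = R := by
    rw [hR]; exact Nat.mul_div_cancel_left _ hq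
  rw [h1]
  have h4 : pN Q p ∣ q * R := by
    rw [← hR]; exact dvd_prod_of_mem _ (mem_univ p)
  have h5 : q = (p : ℕ) ^ (q.factorization p) * (q / (p : ℕ) ^ (q.factorization p)) :=
    (Nat.ordProj_mul_ordCompl_eq_self q p).symm
  have h6 : Nat.Coprime (pN Q p) (q / (p : ℕ) ^ (q.factorization p)) :=
    Nat.Coprime.pow_left _ (Nat.coprime_ordCompl (fq_prime p) (by omega))
  rw [h5] at h4
  have h7 : pN Q p ∣ (q / (p : ℕ) ^ (q.factorization p)) * ((p : ℕ) ^ (q.factorization p) * R) := by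
    convert h4 using 1
    ring
  exact h6.dvd_of_dvd_mul_left h7

theorem fq2_not_dvd {Q q : ℕ} (hq : 1 ≤ q) (hqQ : q ≤ Q) (p : PI Q) (v : ℕ)
    (hv : q.factorization p = v + 1) :
    ¬ pN Q p ∣ (p : ℕ) ^ v * ((∏ p : PI Q, pN Q p) / q) := by
  classical
  set P := ∏ p : PI Q, pN Q p with hP
  obtain ⟨R, hR⟩ := fq_dvd_prod hq hqQ
  rw [← hP] at hR
  have h1 : P / q = R := by
    rw [hR]; exact Nat.mul_div_cancel_left _ hq
  rw [h1]
  rintro ⟨w, hw⟩
  have h5 : q = (p : ℕ) ^ (v + 1) * (q / (p : ℕ) ^ (v + 1)) := by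
    have := (Nat.ordProj_mul_ordCompl_eq_self q p).symm
    rwa [hv] at this
  set q' := q / (p : ℕ) ^ (v + 1) with hq'
  have h2 : P = pN Q p * ∏ j ∈ {p}ᶜ, pN Q j := by
    rw [hP]
    exact Fintype.prod_eq_mul_prod_compl p _
  have h3 : pN Q p * ∏ j ∈ {p}ᶜ, pN Q j = pN Q p * (w * (p * q')) := by
    calc pN Q p * ∏ j ∈ {p}ᶜ, pN Q j = q * R := by rw [← h2, hR]
      _ = ((p : ℕ) ^ (v + 1) * q') * R := by rw [← h5]
      _ = ((p : ℕ) ^ v * R) * (p * q') := by ring
      _ = (pN Q p * w) * (p * q') := by rw [hw]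
      _ = pN Q p * (w * (p * q')) := by ring
  have h4 := Nat.eq_of_mul_eq_mul_left (Nat.pos_of_ne_zero (NeZero.ne (pN Q p))) h3
  have h6 : (p : ℕ) ∣ ∏ j ∈ ({p}ᶜ : Finset (PI Q)), pN Q j := by
    rw [h4]
    exact Dvd.dvd.mul_left (Dvd.intro q' rfl) w
  obtain ⟨j, hj, hj2⟩ := ((fq_prime p).prime.dvd_finsetProd_iff _).1 h6
  have h7 : (p : ℕ) ∣ (j : ℕ) := (fq_prime p).dvd_of_dvd_pow hj2
  have h8 := (Nat.prime_dvd_prime_iff_eq (fq_prime p) (fq_prime j)).1 h7
  rw [mem_compl, mem_singleton] at hj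
  exact hj (Subtype.ext h8.symm)

/-- the frequency of a rational number -/
theorem freq2 (Q : ℕ) (θ : ℚ) (hθ : θ.den ≤ Q) : ∃ ξ : ∀ p : PI Q, ZMod (pN Q p),
    (∀ n : ℤ, ee ((θ : ℝ) * n) = chi ξ (toX (pN Q) n)) ∧
    (∀ p : PI Q, addOrderOf (ξ p) = (p : ℕ) ^ (θ.den.factorization p)) ∧ dn ξ = θ.den ∧
    spt ξ = univ.filter (fun p : PI Q => (p : ℕ) ∣ θ.den) := by
  classical
  have hq : 1 ≤ θ.den := θ.pos
  -- it is enough to have the first two properties
  suffices h : ∃ ξ : ∀ p : PI Q, ZMod (pN Q p),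
      (∀ n : ℤ, ee ((θ : ℝ) * n) = chi ξ (toX (pN Q) n)) ∧
      (∀ p : PI Q, addOrderOf (ξ p) = (p : ℕ) ^ (θ.den.factorization p)) by
    obtain ⟨ξ, h1, h2⟩ := h
    refine ⟨ξ, h1, h2, ?_, ?_⟩
    · unfold dn
      rw [prod_congr rfl (fun p _ => h2 p)]
      have h3 : ∏ p : PI Q, (p : ℕ) ^ (θ.den.factorization p) =
          ∏ p ∈ (range (Q + 1)).filter Nat.Prime, p ^ (θ.den.factorization p) :=
        Finset.prod_coe_sort ((range (Q + 1)).filter Nat.Prime)
          (fun p => p ^ (θ.den.factorization p))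
      rw [h3]
      have h4 : ∏ p ∈ θ.den.primeFactors, p ^ (θ.den.factorization p) = θ.den :=
        Nat.prod_factorization_pow_eq_self (by omega)
      refine Eq.trans ?_ h4
      symm
      apply prod_subset
      · intro p hp
        rw [mem_filter, mem_range]
        have h5 := Nat.le_of_mem_primeFactors hp
        exact ⟨by omega, Nat.prime_of_mem_primeFactors hp⟩
      · intro p _ hp
        have : θ.den.factorization p = 0 := by
          rw [← Nat.support_factorization] at hp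
          exact Finsupp.notMem_support_iff.1 hp
        rw [this, pow_zero]
    · unfold spt
      ext p
      simp only [mem_filter, mem_univ, true_and]
      rw [← not_iff_not, not_not, ← AddMonoid.addOrderOf_eq_one_iff, h2 p,
        Nat.pow_eq_one]
      have hp := fq_prime p
      constructor
      · rintro (h | h)
        · exact absurd h hp.one_lt.ne'
        · intro h3
          have := hp.factorization_pos_of_dvd (by omega) h3
          omega
      · intro h
        exact Or.inr (Nat.factorization_eq_zero_of_not_dvd h)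
  rcases isEmpty_or_nonempty (PI Q) with hE | hE
  · have hq1 : θ.den = 1 := by
      have := fq_dvd_prod hq hθ
      rw [Fintype.prod_empty] at this
      exact Nat.dvd_one.1 this
    refine ⟨fun p => 0, ?_, fun p => hE.elim p⟩
    intro n
    have h1 : (θ : ℝ) * n = ((θ.num * n : ℤ) : ℝ) := by
      rw [Rat.cast_def, hq1]; push_cast; ring
    rw [h1, fq_ee_int]
    unfold chi
    rw [Fintype.prod_empty]
  obtain ⟨μ, hμ⟩ := (exists_sum_eq_one_iff_pairwise_coprime' (I := PI Q) (R := ℤ)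
    (s := fun p => (pN Q p : ℤ))).2 (fun p p' h => by
      show IsCoprime _ _
      rw [Nat.isCoprime_iff_coprime]
      exact pN_coprime Q p p' h)
  set P : ℕ := ∏ p : PI Q, pN Q p with hP
  set q : ℕ := θ.den with hqdef
  set a : ℤ := θ.num with ha
  set m : ℤ := (P / q : ℕ) * a with hm
  have hPpos : 0 < P := prod_pos (fun p _ => Nat.pos_of_ne_zero (NeZero.ne _))
  have hqP : q ∣ P := fq_dvd_prod hq hθ
  refine ⟨fun p => ((m * μ p : ℤ) : ZMod (pN Q p)), ?_, ?_⟩
  · intro n
    have h1 : (θ : ℝ) * n =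
        ∑ p : PI Q, ((m * μ p : ℤ) : ℝ) / (pN Q p) * n := by
      rw [← Finset.sum_mul]
      congr 1
      have h2 : ∀ p : PI Q, ((m * μ p : ℤ) : ℝ) / (pN Q p) =
          (m : ℝ) / P * ((μ p * ∏ j ∈ {p}ᶜ, (pN Q j : ℤ) : ℤ) : ℝ) := by
        intro p
        have h3 : (P : ℝ) = (pN Q p : ℝ) * ∏ j ∈ {p}ᶜ, (pN Q j : ℝ) := by
          rw [hP]
          push_cast
          exact (Fintype.prod_eq_mul_prod_compl p _)
        have h4 : (pN Q p : ℝ) ≠ 0 := by exact_mod_cast NeZero.ne (pN Q p)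
        have h5 : ∏ j ∈ ({p}ᶜ : Finset (PI Q)), (pN Q j : ℝ) ≠ 0 :=
          prod_ne_zero_iff.2 (fun j _ => by exact_mod_cast NeZero.ne (pN Q j))
        rw [h3]
        push_cast
        field_simp
      rw [sum_congr rfl (fun p _ => h2 p), ← Finset.mul_sum]
      have h6 : ∑ p : PI Q, ((μ p * ∏ j ∈ {p}ᶜ, (pN Q j : ℤ) : ℤ) : ℝ) = 1 := by
        have := congrArg (Int.cast : ℤ → ℝ) hμ
        push_cast at this ⊢
        exact this
      rw [h6, mul_one, hm, Rat.cast_def, ← hqdef, ← ha]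
      obtain ⟨R, hR⟩ := hqP
      have h7 : P / q = R := by rw [hR]; exact Nat.mul_div_cancel_left _ hq
      rw [h7]
      have hq' : (q : ℝ) ≠ 0 := by positivity
      have hR' : (R : ℝ) ≠ 0 := by
        intro h
        have : R = 0 := by exact_mod_cast h
        rw [this] at hR
        omega
      rw [hR]
      push_cast
      field_simp
    rw [h1, fq_ee_sum]
    unfold chi toX
    apply prod_congr rfl
    intro p _
    rw [fq_std_ee]
  · intro p
    have hpp := fq_prime p
    have hμp : IsCoprime (pN Q p : ℤ) (μ p) := by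
      have h2 : (μ p) * ∏ j ∈ {p}ᶜ, (pN Q j : ℤ) +
          ∑ i ∈ ({p}ᶜ : Finset (PI Q)), μ i * ∏ j ∈ {i}ᶜ, (pN Q j : ℤ) = 1 := by
        rw [← hμ]
        exact (Fintype.sum_eq_add_sum_compl p
          (fun i : PI Q => μ i * ∏ j ∈ {i}ᶜ, (pN Q j : ℤ))).symm
      have h3 : (pN Q p : ℤ) ∣ ∑ i ∈ ({p}ᶜ : Finset (PI Q)), μ i * ∏ j ∈ {i}ᶜ, (pN Q j : ℤ) := by
        apply dvd_sum
        intro i hi
        rw [mem_compl, mem_singleton] at hi
        apply Dvd.dvd.mul_left
        apply dvd_prod_of_mem (fun j : PI Q => (pN Q j : ℤ))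
        rw [mem_compl, mem_singleton]
        exact fun h => hi h.symm
      obtain ⟨w, hw⟩ := h3
      refine ⟨w, ∏ j ∈ {p}ᶜ, (pN Q j : ℤ), ?_⟩
      rw [← h2, hw]
      ring
    -- characterisation of vanishing multiples
    have hz : ∀ v : ℕ, (p : ℕ) ^ v • ((m * μ p : ℤ) : ZMod (pN Q p)) = 0 ↔
        (pN Q p : ℤ) ∣ (p : ℤ) ^ v * ((P / q : ℕ) : ℤ) * a := by
      intro v
      have h1 : (p : ℕ) ^ v • ((m * μ p : ℤ) : ZMod (pN Q p)) =
          (((p : ℤ) ^ v * ((P / q : ℕ) : ℤ) * a * μ p : ℤ) : ZMod (pN Q p)) := by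
        rw [nsmul_eq_mul, hm]
        push_cast
        ring
      rw [h1, ZMod.intCast_zmod_eq_zero_iff_dvd]
      constructor
      · intro h
        exact hμp.dvd_of_dvd_mul_right h
      · intro h
        exact h.mul_right _
    rcases hv : q.factorization p with _ | v
    · rw [pow_zero, AddMonoid.addOrderOf_eq_one_iff]
      have h1 := (hz 0).2 (by
        have h2 := fq2_dvd hq hθ p
        rw [← hP] at h2
        rw [hv, pow_zero, one_mul] at h2
        rw [pow_zero, one_mul]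
        exact Dvd.dvd.mul_right (by exact_mod_cast h2) _)
      rwa [pow_zero, one_smul] at h1
    · have : Fact (p : ℕ).Prime := ⟨hpp⟩
      apply addOrderOf_eq_prime_pow
      · intro h
        have h1 := (hz v).1 h
        have hpq : (p : ℕ) ∣ q := by
          apply (hpp.dvd_iff_one_le_factorization (by omega)).2
          omega
        have hcop : IsCoprime (pN Q p : ℤ) a := by
          have h2 : Nat.Coprime a.natAbs q := θ.reduced
          have h3 : Nat.Coprime (p : ℕ) a.natAbs := (h2.coprime_dvd_right hpq).symm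
          have h4 : Nat.Coprime (pN Q p) a.natAbs := Nat.Coprime.pow_left _ h3
          rw [Int.isCoprime_iff_gcd_eq_one]
          unfold Int.gcd
          rw [Int.natAbs_natCast]
          exact h4
        have h5 := hcop.dvd_of_dvd_mul_right h1
        have h6 : pN Q p ∣ (p : ℕ) ^ v * (P / q) := by exact_mod_cast h5
        exact fq2_not_dvd hq hθ p v hv h6
      · rw [hz]
        have h2 := fq2_dvd hq hθ p
        rw [← hP, hv] at h2
        exact Dvd.dvd.mul_right (by exact_mod_cast h2) _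

/-- denominators of multiples -/
theorem den_mul (M : ℕ) (hM : 1 ≤ M) (θ : ℚ) (p : ℕ) (hp : p.Prime) :
    ((M : ℚ) * θ).den.factorization p = θ.den.factorization p - M.factorization p := by
  have h0 : θ.den ≠ 0 := θ.den_ne_zero
  have h1 : ((M : ℚ) * θ).den = θ.den / Nat.gcd M θ.den := by
    rw [Rat.mul_den]
    simp only [Rat.den_natCast, one_mul, Rat.num_natCast]
    rw [Int.natAbs_mul, Int.natAbs_natCast]
    congr 1
    exact Nat.Coprime.gcd_mul_right_cancel M θ.reduced
  rw [h1, Nat.factorization_div (Nat.gcd_dvd_right _ _),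
    Nat.factorization_gcd (by omega) h0]
  simp only [Finsupp.coe_tsub, Pi.sub_apply, Finsupp.inf_apply]
  omega

end Vale.Agent.P042.GS
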