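import Vale.Agent.P042.GS.OneStep2
import Vale.Agent.P042.FS.WeylInt
import Vale.Agent.P042.FS.Iterate

namespace Vale.Agent.P042.GS

open Finset Vale.Agent.P042.FS

/-- iteration -/
theorem it2_iter (k G Cc n₀ : ℕ) (sys : Sys k G Cc) (P B E L T : ℕ) (hP : 1 ≤ P)
    (hstep : ∀ (d N : ℕ) (_ : 1 ≤ d) (A : Finset ℤ) (α : ℝ),
      (∀ x ∈ A, 0 ≤ x ∧ x < N) → Avoid k (sys.c d) n₀ A → Real.exp (-(L : ℝ)) ≤ α →
      (A.card : ℝ) = α * N → (d * B) ^ E ≤ N →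
      ∃ (q N' : ℕ) (A' : Finset ℤ), 1 ≤ q ∧ q ≤ P ∧ 1 ≤ N' ∧ N ≤ N' * P ^ E ∧
        (∀ x ∈ A', 0 ≤ x ∧ x < N') ∧ Avoid k (sys.c (d * q)) n₀ A' ∧
        (1 + 1 / 3000) * α * N' ≤ A'.card)
    (N : ℕ) (A : Finset ℤ) (hN : 1 ≤ N) (hA : ∀ x ∈ A, 0 ≤ x ∧ x < N)
    (hav : Avoid k (sys.c 1) n₀ A) (hd : Real.exp (-(L : ℝ)) * N ≤ A.card)
    (hbig : (P ^ T * B) ^ E * P ^ (E * T) ≤ N) (t : ℕ) (ht : t ≤ T + 1) :
    ∃ (d N' : ℕ) (A' : Finset ℤ), 1 ≤ d ∧ d ≤ P ^ t ∧ 1 ≤ N' ∧ N ≤ N' * P ^ (E * t) ∧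
      (∀ x ∈ A', 0 ≤ x ∧ x < N') ∧ Avoid k (sys.c d) n₀ A' ∧
      (1 + 1 / 3000) ^ t * Real.exp (-(L : ℝ)) * N' ≤ A'.card := by
  induction t with
  | zero =>
    refine ⟨1, N, A, le_rfl, by simp, hN, by simp, hA, hav, ?_⟩
    rw [pow_zero, one_mul]
    exact hd
  | succ t ih =>
    obtain ⟨d, N', A', hd1, hdP, hN1, hNN, hA', hav', hc'⟩ := ih (by omega)
    have hN0 : (0 : ℝ) < N' := by exact_mod_cast hN1
    have hpowpos : 0 < P ^ (E * t) := pow_pos hP _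
    have hbig' : (d * B) ^ E ≤ N' := by
      have h1 : (P ^ T * B) ^ E * P ^ (E * t) ≤ N' * P ^ (E * t) := by
        refine le_trans ?_ hNN
        refine le_trans ?_ hbig
        apply Nat.mul_le_mul_left
        exact Nat.pow_le_pow_right hP (Nat.mul_le_mul_left _ (by omega))
      have h2 := Nat.le_of_mul_le_mul_right h1 hpowpos
      refine le_trans ?_ h2
      apply Nat.pow_le_pow_left
      apply Nat.mul_le_mul_right
      exact le_trans hdP (Nat.pow_le_pow_right hP (by omega))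
    have hα : (A'.card : ℝ) = (A'.card / N') * N' := by field_simp
    have hg : (1 : ℝ) ≤ (1 + 1 / 3000) ^ t := one_le_pow₀ (by norm_num)
    have hαL' : (1 + 1 / 3000) ^ t * Real.exp (-(L : ℝ)) ≤ (A'.card : ℝ) / N' := by
      rw [le_div_iff₀ hN0]
      exact hc'
    have hαL : Real.exp (-(L : ℝ)) ≤ (A'.card : ℝ) / N' := by
      refine le_trans ?_ hαL'
      have := Real.exp_pos (-(L : ℝ))
      nlinarith
    obtain ⟨q, N'', A'', hq1, hqP, hN1', hNN', hA'', hav'', hc''⟩ :=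
      hstep d N' hd1 A' _ hA' hav' hαL hα hbig'
    refine ⟨d * q, N'', A'', Nat.mul_pos hd1 hq1, ?_, hN1', ?_, hA'', hav'', ?_⟩
    · rw [pow_succ]
      exact Nat.mul_le_mul hdP hqP
    · calc N ≤ N' * P ^ (E * t) := hNN
        _ ≤ N'' * P ^ E * P ^ (E * t) := Nat.mul_le_mul_right _ hNN'
        _ = N'' * P ^ (E * (t + 1)) := by ring
    · refine le_trans ?_ hc''
      have hN0' : (0 : ℝ) ≤ N'' := Nat.cast_nonneg _
      calc (1 + 1 / 3000 : ℝ) ^ (t + 1) * Real.exp (-(L : ℝ)) * N''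
          = (1 + 1 / 3000) * ((1 + 1 / 3000) ^ t * Real.exp (-(L : ℝ))) * N'' := by ring
        _ ≤ _ := by
          apply mul_le_mul_of_nonneg_right _ hN0'
          exact mul_le_mul_of_nonneg_left hαL' (by norm_num)

theorem it2_log_Q (C G L : ℕ) (hG : 1 ≤ G) (hL : 1 ≤ L) (hGL : G ≤ L) :
    Real.log (Qi C G (2 * L + 4)) ≤ (1 + 7 * (C : ℝ)) * L := by
  have hG0 : (0 : ℝ) < G := by exact_mod_cast hG
  have hL1 : (1 : ℝ) ≤ L := by exact_mod_cast hL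
  have hGL' : (G : ℝ) ≤ L := by exact_mod_cast hGL
  have hC0 : (0 : ℝ) ≤ C := Nat.cast_nonneg C
  unfold Qi
  rw [Nat.cast_mul, Real.log_mul hG0.ne' (by positivity), Nat.cast_pow, Real.log_pow]
  have h1 : Real.log G ≤ G := by
    have := Real.log_le_sub_one_of_pos hG0
    linarith
  have h2 : Real.log ((2 : ℕ) : ℝ) ≤ 1 := by
    have := Real.log_two_lt_d9
    push_cast
    linarith
  have h3 : ((C * (2 * L + 4 + 1) : ℕ) : ℝ) * Real.log ((2 : ℕ) : ℝ) ≤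
      ((C * (2 * L + 4 + 1) : ℕ) : ℝ) * 1 := mul_le_mul_of_nonneg_left h2 (Nat.cast_nonneg _)
  push_cast at h3 ⊢
  have h5 : (C : ℝ) ≤ C * L := by nlinarith
  nlinarith

theorem it2_log_PM (C' C G L : ℕ) (hG : 1 ≤ G) (hL : 1 ≤ L) (hGL : G ≤ L) :
    Real.log (PM C' C G L) ≤ ((C' : ℝ) + 2 + 7 * C) * L := by
  have hL1 : (1 : ℝ) ≤ L := by exact_mod_cast hL
  have hQ1 := os_Q_pos C G (2 * L + 4) hG
  have hQ0 : (0 : ℝ) < Qi C G (2 * L + 4) := by exact_mod_cast hQ1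
  have hc1 : 1 ≤ ⌈Real.exp (C' * L)⌉₊ := Nat.one_le_ceil_iff.2 (Real.exp_pos _)
  have hc0 : (0 : ℝ) < (⌈Real.exp (C' * L)⌉₊ : ℝ) := by exact_mod_cast hc1
  have h2 : Real.log 2 ≤ 1 := by
    have := Real.log_two_lt_d9
    linarith
  have h1 : Real.log (⌈Real.exp (C' * L)⌉₊ : ℝ) ≤ Real.log 2 + C' * L := by
    have h3 : (⌈Real.exp (C' * L)⌉₊ : ℝ) ≤ 2 * Real.exp (C' * L) := by
      have h4 := (Nat.ceil_lt_add_one (Real.exp_pos ((C' : ℝ) * L)).le).le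
      have h5 : (1 : ℝ) ≤ Real.exp (C' * L) := Real.one_le_exp (by positivity)
      linarith
    have h6 := Real.log_le_log hc0 h3
    rw [Real.log_mul (by norm_num) (Real.exp_pos _).ne', Real.log_exp] at h6
    exact h6
  have h3 := it2_log_Q C G L hG hL hGL
  unfold PM
  rw [Nat.cast_mul, Real.log_mul hc0.ne' hQ0.ne']
  nlinarith

theorem it2_log_PB (C' C G L : ℕ) (hG : 1 ≤ G) (hL : 1 ≤ L) (hGL : G ≤ L) :
    Real.log (PB C' C G L) ≤ ((C' : ℝ) + 2 + 7 * C + 28 * (2 + 7 * C)) * (L : ℝ) ^ 2 := by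
  have hL1 : (1 : ℝ) ≤ L := by exact_mod_cast hL
  have hQ1 := os_Q_pos C G (2 * L + 4) hG
  have hQ0 : (0 : ℝ) < Qi C G (2 * L + 4) := by exact_mod_cast hQ1
  have hPM0 : (0 : ℝ) < PM C' C G L := by
    have : 1 ≤ PM C' C G L := le_trans hQ1 (os2_Q_le_PM C' C G L)
    exact_mod_cast this
  have h1 := it2_log_Q C G L hG hL hGL
  have h2 := it2_log_PM C' C G L hG hL hGL
  have h3 : Real.log 2 ≤ 1 := by
    have := Real.log_two_lt_d9
    linarith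
  unfold PB
  rw [Nat.cast_mul, Real.log_mul hPM0.ne' (by positivity), Nat.cast_pow, Real.log_pow,
    Nat.cast_mul, Real.log_mul (by norm_num) hQ0.ne']
  have h4 : Real.log ((2 : ℕ) : ℝ) + Real.log (Qi C G (2 * L + 4)) ≤ (2 + 7 * (C : ℝ)) * L := by
    push_cast
    have : (2 + 7 * (C : ℝ)) * L = 1 * L + (1 + 7 * (C : ℝ)) * L := by ring
    linarith
  have h5 : ((8 * L + 20 : ℕ) : ℝ) ≤ 28 * L := by
    push_cast
    linarith
  have h6 : ((8 * L + 20 : ℕ) : ℝ) * (Real.log ((2 : ℕ) : ℝ) + Real.log (Qi C G (2 * L + 4))) ≤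
      28 * L * ((2 + 7 * (C : ℝ)) * L) := by
    calc ((8 * L + 20 : ℕ) : ℝ) * (Real.log ((2 : ℕ) : ℝ) + Real.log (Qi C G (2 * L + 4)))
        ≤ ((8 * L + 20 : ℕ) : ℝ) * ((2 + 7 * (C : ℝ)) * L) :=
          mul_le_mul_of_nonneg_left h4 (Nat.cast_nonneg _)
      _ ≤ _ := mul_le_mul_of_nonneg_right h5 (by positivity)
  have h7 : ((C' : ℝ) + 2 + 7 * C) * L ≤ ((C' : ℝ) + 2 + 7 * C) * (L : ℝ) ^ 2 := by
    apply mul_le_mul_of_nonneg_left _ (by positivity)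
    nlinarith
  calc _ ≤ ((C' : ℝ) + 2 + 7 * C) * (L : ℝ) ^ 2 + 28 * L * ((2 + 7 * (C : ℝ)) * L) := by
        linarith
    _ = _ := by ring

/-- main theorem for systems of auxiliary polynomials -/
theorem main_sys2 (k : ℕ) (hk : 1 ≤ k) : ∃ C₀ : ℝ, 0 < C₀ ∧
    ∀ (G Cc n₀ : ℕ) (sys : Sys k G Cc), ∃ L₀ : ℕ, 1 ≤ L₀ ∧
    ∀ (N : ℕ) (A : Finset ℤ), (∀ x ∈ A, 0 ≤ x ∧ x < N) →
      Avoid k (sys.c 1) n₀ A → ∀ L : ℕ, L₀ ≤ L →
      Real.exp (-(L : ℝ)) * N ≤ A.card → Real.log N ≤ C₀ * (L : ℝ) ^ 2 := by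
  obtain ⟨C, hC, hW⟩ := weyl_int k hk
  obtain ⟨C', E, hC', hE, hone⟩ := one_step2 k C hk hC hW
  have hE0 : (0 : ℝ) < E := by exact_mod_cast hE
  refine ⟨E * (6002 * ((C' : ℝ) + 2 + 7 * C) + ((C' : ℝ) + 2 + 7 * C + 28 * (2 + 7 * C))),
    by positivity, ?_⟩
  intro G Cc n₀ sys
  have hG : 1 ≤ G := sys.cont 1 le_rfl 1 (fun j _ _ => by simp)
  obtain ⟨L₀, hL₀, hone⟩ := hone G Cc n₀ hG sys
  refine ⟨L₀ + G, by omega, ?_⟩
  intro N A hA hav L hL hd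
  have hL1' : 1 ≤ L := by omega
  have hL1 : (1 : ℝ) ≤ L := by exact_mod_cast hL1'
  rcases Nat.eq_zero_or_pos N with h0 | hN
  · subst h0
    simp only [Nat.cast_zero, Real.log_zero]
    positivity
  have hstep := hone L (by omega)
  have hlogP := it2_log_PM C' C G L hG hL1' (by omega)
  have hlogB := it2_log_PB C' C G L hG hL1' (by omega)
  have hQ1 := os_Q_pos C G (2 * L + 4) hG
  have hPM1 : 1 ≤ PM C' C G L := le_trans hQ1 (os2_Q_le_PM C' C G L)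
  have hPB1 : 1 ≤ PB C' C G L := le_trans hPM1 (os2_PM_le_PB C' C G L hG)
  obtain ⟨P, hP⟩ : ∃ P, P = PM C' C G L := ⟨_, rfl⟩
  obtain ⟨B, hB⟩ : ∃ B, B = PB C' C G L := ⟨_, rfl⟩
  rw [← hP, ← hB] at hstep
  rw [← hP] at hlogP hPM1
  rw [← hB] at hlogB hPB1
  have hlt : N < (P ^ (3001 * L) * B) ^ E * P ^ (E * (3001 * L)) := by
    by_contra hcon
    push Not at hcon
    obtain ⟨d, N', A', _, _, hN1, _, hA', _, hc'⟩ := it2_iter k G Cc n₀ sys P B E L (3001 * L)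
      hPM1 hstep N A hN hA hav hd hcon (3001 * L + 1) le_rfl
    have h1 : ((A'.card : ℕ) : ℝ) ≤ (N' : ℝ) := by exact_mod_cast it_card N' A' hA'
    have hN0 : (0 : ℝ) < N' := by exact_mod_cast hN1
    have h2 := it_growth L
    have h3 : (1 : ℝ) ≤ (1 + 1 / 3000) ^ (3001 * L) * Real.exp (-(L : ℝ)) := by
      rw [Real.exp_neg, ← div_eq_mul_inv, le_div_iff₀ (Real.exp_pos _), one_mul]
      exact h2
    have h4 : (1 + 1 / 3000 : ℝ) * N' ≤
        (1 + 1 / 3000) ^ (3001 * L + 1) * Real.exp (-(L : ℝ)) * N' := by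
      have e : (1 + 1 / 3000 : ℝ) ^ (3001 * L + 1) * Real.exp (-(L : ℝ)) * N' =
        ((1 + 1 / 3000) * ((1 + 1 / 3000 : ℝ) ^ (3001 * L) * Real.exp (-(L : ℝ)))) * N' := by
        ring
      rw [e]
      apply mul_le_mul_of_nonneg_right _ hN0.le
      linarith
    have h5 : (1 + 1 / 3000 : ℝ) * N' ≤ N' := le_trans h4 (le_trans hc' h1)
    linarith
  have hN0 : (0 : ℝ) < N := by exact_mod_cast hN
  have hP0 : (0 : ℝ) < P := by exact_mod_cast hPM1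
  have hB0 : (0 : ℝ) < B := by exact_mod_cast hPB1
  have hlt' : (N : ℝ) ≤ ((P : ℝ) ^ (3001 * L) * B) ^ E * (P : ℝ) ^ (E * (3001 * L)) := by
    exact_mod_cast hlt.le
  have h1 := Real.log_le_log hN0 hlt'
  rw [Real.log_mul (by positivity) (by positivity), Real.log_pow, Real.log_pow,
    Real.log_mul (by positivity) hB0.ne', Real.log_pow] at h1
  refine le_trans h1 ?_
  push_cast
  have h3 : (E : ℝ) * (3001 * L * Real.log P + Real.log B) +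
      E * (3001 * L) * Real.log P = E * ((6002 * L) * Real.log P + Real.log B) := by ring
  rw [h3, mul_assoc (E : ℝ)]
  apply mul_le_mul_of_nonneg_left _ hE0.le
  have h4 : (6002 * (L : ℝ)) * Real.log P ≤ (6002 * (L : ℝ)) * (((C' : ℝ) + 2 + 7 * C) * L) :=
    mul_le_mul_of_nonneg_left hlogP (by positivity)
  calc (6002 * (L : ℝ)) * Real.log P + Real.log B
      ≤ (6002 * (L : ℝ)) * (((C' : ℝ) + 2 + 7 * C) * L) +
        ((C' : ℝ) + 2 + 7 * C + 28 * (2 + 7 * C)) * (L : ℝ) ^ 2 := by linarith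
    _ = _ := by ring

end Vale.Agent.P042.GS
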