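import Vale.Agent.P042.GS.Level2B

/-! Helper lemmas for `Level2.lean` (helper23): inner bound. -/

namespace Vale.Agent.P042.GS

open Finset Vale.Agent.P042.FS

variable {ι : Type} [Fintype ι] [DecidableEq ι] {N : ι → ℕ} [∀ i, NeZero (N i)]

lemma sum_JJ (e : ι → ℕ) (S : Finset ι) (lam : ι → ℝ) (l₀ : ℝ) (hl₁ : l₀ < 1)
    (hlam : ∀ i, 0 ≤ lam i ∧ lam i ≤ l₀) :
    (1 - l₀) ^ S.card * ∑ j ∈ JJ e S, ∏ i ∈ S, lam i ^ (j i - 1) ≤ 1 := by
  have h1 : ∑ j ∈ JJ e S, ∏ i ∈ S, lam i ^ (j i - 1) =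
      ∏ i ∈ S, ∑ k ∈ Icc 1 (e i), lam i ^ (k - 1) := by
    have h2 := Finset.prod_univ_sum (t := fun i => if i ∈ S then Icc 1 (e i) else {0})
      (f := fun i (k : ℕ) => if i ∈ S then lam i ^ (k - 1) else 1)
    have h3 : ∏ i ∈ S, ∑ k ∈ Icc 1 (e i), lam i ^ (k - 1) =
        ∏ i, ∑ k ∈ (if i ∈ S then Icc 1 (e i) else {0}),
          (if i ∈ S then lam i ^ (k - 1) else 1) := by
      rw [← Finset.prod_subset (Finset.subset_univ S)]
      · refine Finset.prod_congr rfl fun i hi => ?_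
        rw [if_pos hi]
        exact Finset.sum_congr rfl fun k _ => by rw [if_pos hi]
      · intro i _ hi
        rw [if_neg hi]
        simp [hi]
    rw [h3, h2, JJ]
    refine Finset.sum_congr rfl fun j _ => ?_
    rw [Finset.prod_ite_mem]; simp
  rw [h1, ← Finset.prod_const, ← Finset.prod_mul_distrib]
  refine Finset.prod_le_one (fun i _ => ?_) fun i _ => ?_
  · exact mul_nonneg (by linarith) (Finset.sum_nonneg fun k _ => pow_nonneg (hlam i).1 _)
  · have h2 : ∑ k ∈ Icc 1 (e i), lam i ^ (k - 1) = ∑ k ∈ range (e i), lam i ^ k := by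
      rw [Finset.range_eq_Ico, Finset.sum_Ico_eq_sum_range]
      have : Icc 1 (e i) = Ico 1 (e i + 1) := by ext; simp
      rw [this, Finset.sum_Ico_eq_sum_range]
      simp
    rw [h2]
    have h3 := geom_sum_mul_neg (lam i) (e i)
    have h4 : 0 ≤ ∑ k ∈ range (e i), lam i ^ k := Finset.sum_nonneg fun k _ => pow_nonneg (hlam i).1 _
    have h5 : 0 ≤ lam i ^ e i := pow_nonneg (hlam i).1 _
    have h6 := (hlam i).2
    nlinarith

/-- inner bound -/
lemma l2_inner (pr e : ι → ℕ) (hpr : ∀ i, (pr i).Prime) (hinj : Function.Injective pr)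
    (hN : ∀ i, N i = pr i ^ e i) (lam : ι → ℝ) (l₀ : ℝ) (hl₀ : 0 ≤ l₀) (hl₁ : l₀ < 1)
    (hlam : ∀ i, 0 ≤ lam i ∧ lam i ≤ l₀) (m : ℕ) (hm : 1 ≤ m) (T : ℕ)
    (K : Finset ι) (R : ℕ) (hR : 1 ≤ R)
    (hRc : ∀ i ∈ K, Nat.Coprime R (N i)) (x₀ u v : ℤ) (ν a : ℝ)
    (huv : ((v - u : ℤ) : ℝ) ≤ ν + 1) (hν : (R : ℝ) * (2 * T) ^ (8 * m) ≤ ν)
    (φ : ℤ → ℝ) (hφ : ∀ n, 0 ≤ φ n) (hφ1 : ∀ n, φ n ≤ 1)
    (hsup : ∀ n, φ n ≠ 0 → u ≤ n ∧ n < v ∧ n ≡ x₀ [ZMOD R])
    (ha : Real.exp (-(2 * m : ℝ)) ≤ a)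
    (hNI : ∀ M : ℕ, 1 ≤ M → M ≤ T → Nat.Coprime M R → ∀ z : ℤ,
      (R * M : ℝ) / ν * ∑ n ∈ (Ico u v).filter (fun n => n ≡ z [ZMOD M]), φ n ≤ a)
    (S : Finset ι) (hSK : S ⊆ K) (hSne : S.Nonempty)
    (ih : ∀ T' < T, 1 ≤ T' → L2Stat N pr lam l₀ m T')
    (c : (∀ i, ZMod (N i)) → ℂ)
    (hc1 : ∀ ξ, spt ξ ⊆ K → dn ξ ≤ T →
      c ξ = (((1 - l₀) ^ (spt ξ).card * om pr lam ξ : ℝ) : ℂ) * fco R ν u v φ ξ)
    (hc0 : ∀ ξ, ¬ (spt ξ ⊆ K ∧ dn ξ ≤ T) → c ξ = 0) (x : ∀ i, ZMod (N i)) :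
    ∑ ξ' ∈ univ.filter (fun ξ' : ∀ i, ZMod (N i) => ∀ i ∈ S, ξ' i = 0),
          (1 / (256 * m : ℝ)) ^ (spt ξ').card *
            ‖∑ ξ ∈ univ.filter (fun ξ : ∀ i, ZMod (N i) => (∀ i ∈ S, ξ i ≠ 0) ∧
              ∀ i, i ∉ S → ξ i = ξ' i), c ξ * chiS S ξ x‖ ^ 2 ≤ 25 * a ^ 2 * 4 ^ S.card := by
  have ha0 : 0 < a := lt_of_lt_of_le (Real.exp_pos _) ha
  have hm0 : (1 : ℝ) ≤ m := by exact_mod_cast hm
  set η : ℝ := 1 - l₀ with hη
  have hη0 : 0 < η := by rw [hη]; linarith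
  have hη1 : η ≤ 1 := by rw [hη]; linarith
  have hlam0 : ∀ i, 0 ≤ lam i := fun i => (hlam i).1
  have hlam1 : ∀ i, lam i ≤ 1 := fun i => (hlam i).2.trans hl₁.le
  let q : (ι → ℕ) → ℕ := fun j => ∏ i ∈ S, pr i ^ j i
  let oS : (ι → ℕ) → ℝ := fun j => ∏ i ∈ S, lam i ^ (j i - 1)
  have hoS : ∀ j, 0 ≤ oS j := fun j => Finset.prod_nonneg fun i _ => pow_nonneg (hlam0 i) _
  let cnd : (ι → ℕ) → (∀ i, ZMod (N i)) → Prop := fun j ξ' =>
    spt ξ' ⊆ K \ S ∧ dn ξ' ≤ T / q j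
  classical
  let b : (ι → ℕ) × Finset ι → (∀ i, ZMod (N i)) → ℂ := fun t ξ' =>
    if cnd t.1 ξ' then ((η ^ S.card * oS t.1 * (η ^ (spt ξ').card * om pr lam ξ') : ℝ) : ℂ) *
      ((-1) ^ (S \ t.2).card * fco (R * ∏ i ∈ S, pr i ^ hh t.2 t.1 i) ν u v
        (resψ pr S (hh t.2 t.1) x φ) ξ') else 0
  have hq1 : ∀ j, 1 ≤ q j := fun j => Finset.one_le_prod' fun i _ => Nat.one_le_pow _ _ (hpr i).pos
  -- fibre sums
  have hfib : ∀ ξ' : ∀ i, ZMod (N i), (∀ i ∈ S, ξ' i = 0) →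
      ∑ ξ ∈ univ.filter (fun ξ : ∀ i, ZMod (N i) => (∀ i ∈ S, ξ i ≠ 0) ∧
              ∀ i, i ∉ S → ξ i = ξ' i), c ξ * chiS S ξ x =
      ∑ t ∈ JJ e S ×ˢ S.powerset, b t ξ' := by
    intro ξ' h0
    rw [fib_split pr e hpr hN S ξ', Finset.sum_product]
    refine Finset.sum_congr rfl fun j hjj => ?_
    have hj := mem_JJ hjj
    by_cases hcnd : cnd j ξ'
    · have h1 : ∀ ξ ∈ fibj pr S j ξ', c ξ * chiS S ξ x =
          ((η ^ S.card * oS j * (η ^ (spt ξ').card * om pr lam ξ') : ℝ) : ℂ) *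
            (fco R ν u v φ ξ * chiS S ξ x) := by
        intro ξ hξ
        obtain ⟨h2, h3⟩ := fib_spt pr hpr S j (fun i hi => (hj i hi).1) ξ' ξ h0 hξ
        have h4 := fib_dn pr S j ξ' ξ h0 hξ
        have h5 := fib_om pr hpr S j (fun i hi => (hj i hi).1) ξ' ξ h0 hξ lam
        rw [hc1 ξ]
        · rw [h2, h5, Finset.card_union_of_disjoint h3, pow_add]
          push_cast
          simp only [oS]
          push_cast
          ring
        · rw [h2]
          exact Finset.union_subset (hcnd.1.trans Finset.sdiff_subset) hSK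
        · rw [h4]
          exact (Nat.mul_le_mul_right _ hcnd.2).trans (Nat.div_mul_le_self T (q j))
      rw [Finset.sum_congr rfl h1, ← Finset.mul_sum, l2_expand pr e hpr hN S j hj ξ' x h0,
        Finset.mul_sum]
      refine Finset.sum_congr rfl fun S' _ => ?_
      simp only [b]
      rw [if_pos hcnd]
    · have h1 : ∀ ξ ∈ fibj pr S j ξ', c ξ * chiS S ξ x = 0 := by
        intro ξ hξ
        obtain ⟨h2, h3⟩ := fib_spt pr hpr S j (fun i hi => (hj i hi).1) ξ' ξ h0 hξ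
        have h4 := fib_dn pr S j ξ' ξ h0 hξ
        rw [hc0 ξ, zero_mul]
        rintro ⟨h5, h6⟩
        apply hcnd
        constructor
        · intro i hi
          rw [mem_sdiff]
          exact ⟨h5 (h2 ▸ mem_union_left _ hi), fun hiS => Finset.disjoint_left.mp h3 hi hiS⟩
        · rw [Nat.le_div_iff_mul_le (hq1 j)]
          rw [h4] at h6
          exact h6
      rw [Finset.sum_congr rfl h1, Finset.sum_const_zero]
      refine (Finset.sum_eq_zero fun S' _ => ?_).symm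
      simp only [b]
      rw [if_neg hcnd]
  have hmink := al_minkowski (X := ∀ i, ZMod (N i)) (JJ e S ×ˢ S.powerset)
    (fun ξ' => (1 / (256 * m : ℝ)) ^ (spt ξ').card) (fun ξ' => by positivity) b
    (fun t => η ^ S.card * oS t.1 * (5 * a)) (fun t _ => by have := hoS t.1; positivity)
    (by
      rintro ⟨j, S'⟩ ht
      rw [mem_product] at ht
      have hj : ∀ i ∈ S, 1 ≤ j i ∧ j i ≤ e i := mem_JJ ht.1
      simp only
      by_cases hqT : q j ≤ T
      · have hT' : 1 ≤ T / q j := (Nat.one_le_div_iff (hq1 j)).mpr hqT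
        have hq2 : 2 ≤ q j := by
          obtain ⟨i, hi⟩ := hSne
          calc 2 ≤ pr i := (hpr i).two_le
            _ ≤ pr i ^ j i := Nat.le_self_pow (by have := hj i hi; omega) _
            _ ≤ q j := Finset.single_le_prod' (fun i _ => Nat.one_le_pow _ _ (hpr i).pos) hi
        have hTT : T / q j < T := Nat.div_lt_self (by omega) hq2
        have h := l2_ih pr e hpr hinj hN lam l₀ m hm T K R hR hRc x₀ u v ν a huv hν φ hφ hφ1 hsup
          ha hNI S hSK j hj (ih _ hTT hT') (hh S' j) (fun i _ => by unfold hh; split_ifs <;> omega) x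
        rw [Finset.sum_filter] at h
        calc _ ≤ ∑ ξ : ∀ i, ZMod (N i), (η ^ S.card * oS j) ^ 2 *
              (if spt ξ ⊆ K \ S ∧ dn ξ ≤ T / ∏ i ∈ S, pr i ^ j i then
              wt pr lam ((1 - l₀) / (48 * m)) ξ *
              ‖fco (R * ∏ i ∈ S, pr i ^ hh S' j i) ν u v (resψ pr S (hh S' j) x φ) ξ‖ ^ 2
              else 0) := by
              refine Finset.sum_le_sum fun ξ _ => ?_
              simp only [b]
              by_cases hcnd : cnd j ξ
              · rw [if_pos hcnd, if_pos (show spt ξ ⊆ K \ S ∧ dn ξ ≤ T / ∏ i ∈ S, pr i ^ j i from hcnd)]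
                rw [norm_mul, norm_mul, norm_pow, norm_neg, norm_one, one_pow, one_mul,
                  Complex.norm_real, Real.norm_eq_abs, wt_eq]
                have ho0 := om_nonneg pr lam hlam0 ξ
                have ho1 := om_le_one pr lam hlam0 hlam1 ξ
                have ho2 : om pr lam ξ ^ 2 ≤ om pr lam ξ := by nlinarith
                set A := ‖fco (R * ∏ i ∈ S, pr i ^ hh S' j i) ν u v (resψ pr S (hh S' j) x φ) ξ‖
                set kk := (spt ξ).card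
                have h1 : (1 / (256 * m : ℝ)) ^ kk * (η ^ kk) ^ 2 ≤ ((1 - l₀) / (48 * m)) ^ kk := by
                  rw [← pow_mul, mul_comm kk 2, pow_mul, ← mul_pow]
                  refine pow_le_pow_left₀ (by positivity) ?_ _
                  rw [← hη, one_div, inv_mul_eq_div, div_le_div_iff₀ (by positivity) (by positivity)]
                  have e1 : η ^ 2 ≤ η := by nlinarith
                  calc η ^ 2 * (48 * m) ≤ η * (48 * m) :=
                        mul_le_mul_of_nonneg_right e1 (by positivity)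
                    _ ≤ η * (256 * m) := mul_le_mul_of_nonneg_left (by linarith) hη0.le
                rw [mul_pow, sq_abs]
                calc (1 / (256 * m : ℝ)) ^ kk * ((η ^ S.card * oS j * (η ^ kk * om pr lam ξ)) ^ 2 *
                      A ^ 2)
                    = (η ^ S.card * oS j) ^ 2 * (((1 / (256 * m : ℝ)) ^ kk * (η ^ kk) ^ 2) *
                      om pr lam ξ ^ 2 * A ^ 2) := by ring
                  _ ≤ (η ^ S.card * oS j) ^ 2 * (((1 - l₀) / (48 * m)) ^ kk * om pr lam ξ *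
                      A ^ 2) := by
                      refine mul_le_mul_of_nonneg_left ?_ (by positivity)
                      refine mul_le_mul_of_nonneg_right ?_ (by positivity)
                      refine mul_le_mul h1 ho2 (by positivity) ?_
                      rw [← hη]
                      positivity
              · rw [if_neg hcnd, if_neg (show ¬ (spt ξ ⊆ K \ S ∧ dn ξ ≤ T / ∏ i ∈ S, pr i ^ j i)
                  from hcnd)]
                simp
          _ = (η ^ S.card * oS j) ^ 2 * ∑ ξ : ∀ i, ZMod (N i),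
              (if spt ξ ⊆ K \ S ∧ dn ξ ≤ T / ∏ i ∈ S, pr i ^ j i then
              wt pr lam ((1 - l₀) / (48 * m)) ξ *
              ‖fco (R * ∏ i ∈ S, pr i ^ hh S' j i) ν u v (resψ pr S (hh S' j) x φ) ξ‖ ^ 2
              else 0) := by rw [← Finset.mul_sum]
          _ ≤ (η ^ S.card * oS j) ^ 2 * (25 * a ^ 2) :=
              mul_le_mul_of_nonneg_left h (by positivity)
          _ = (η ^ S.card * oS j * (5 * a)) ^ 2 := by ring
      · have hT0 : T / q j = 0 := Nat.div_eq_of_lt (not_le.mp hqT)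
        have h1 : ∀ ξ : ∀ i, ZMod (N i), b (j, S') ξ = 0 := by
          intro ξ
          simp only [b]
          rw [if_neg]
          rintro ⟨_, h2⟩
          have := dn_pos ξ
          rw [show T / q (j, S').1 = 0 from hT0] at h2
          omega
        simp only [h1, norm_zero, ne_eq, OfNat.ofNat_ne_zero, not_false_eq_true, zero_pow,
          mul_zero, Finset.sum_const_zero]
        positivity)
  have hsumC : ∑ t ∈ JJ e S ×ˢ S.powerset, η ^ S.card * oS t.1 * (5 * a) ≤ 5 * a * 2 ^ S.card := by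
    rw [Finset.sum_product]
    simp only [Finset.sum_const, Finset.card_powerset, nsmul_eq_mul]
    rw [← Finset.mul_sum]
    have h1 := sum_JJ e S lam l₀ hl₁ hlam
    have h2 : ∑ i ∈ JJ e S, η ^ S.card * oS i * (5 * a) =
        (η ^ S.card * ∑ j ∈ JJ e S, oS j) * (5 * a) := by
      rw [Finset.mul_sum, Finset.sum_mul]
    rw [h2]
    have h3 : (η ^ S.card * ∑ j ∈ JJ e S, oS j) * (5 * a) ≤ 1 * (5 * a) :=
      mul_le_mul_of_nonneg_right h1 (by positivity)
    calc ((2 ^ S.card : ℕ) : ℝ) * ((η ^ S.card * ∑ j ∈ JJ e S, oS j) * (5 * a))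
        ≤ ((2 ^ S.card : ℕ) : ℝ) * (1 * (5 * a)) := mul_le_mul_of_nonneg_left h3 (by positivity)
      _ = 5 * a * 2 ^ S.card := by push_cast; ring
  have hsum0 : 0 ≤ ∑ t ∈ JJ e S ×ˢ S.powerset, η ^ S.card * oS t.1 * (5 * a) :=
    Finset.sum_nonneg fun t _ => by have := hoS t.1; positivity
  calc _ ≤ ∑ ξ' : ∀ i, ZMod (N i), (1 / (256 * m : ℝ)) ^ (spt ξ').card *
        ‖∑ t ∈ JJ e S ×ˢ S.powerset, b t ξ'‖ ^ 2 := by
        rw [Finset.sum_filter]
        refine Finset.sum_le_sum fun ξ' _ => ?_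
        by_cases h0 : ∀ i ∈ S, ξ' i = 0
        · rw [if_pos h0, hfib ξ' h0]
        · rw [if_neg h0]
          positivity
    _ ≤ (∑ t ∈ JJ e S ×ˢ S.powerset, η ^ S.card * oS t.1 * (5 * a)) ^ 2 := hmink
    _ ≤ (5 * a * 2 ^ S.card) ^ 2 := pow_le_pow_left₀ hsum0 hsumC 2
    _ = 25 * a ^ 2 * 4 ^ S.card := by
        rw [mul_pow, mul_pow, ← pow_mul, mul_comm S.card 2, pow_mul]
        norm_num

end Vale.Agent.P042.GS
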