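import Vale.Agent.P042.FS.Moment
import Vale.Agent.P042.GS.Defs

namespace Vale.Agent.P042.GS

open Finset Vale.Agent.P042.FS

variable {ι : Type} [Fintype ι] [DecidableEq ι] {N : ι → ℕ} [∀ i, NeZero (N i)]

/-! ### frequencies of bounded order -/

theorem m2_dn_pos (ξ : ∀ i, ZMod (N i)) : 1 ≤ dn ξ := by
  unfold dn
  exact Nat.one_le_iff_ne_zero.2 (prod_ne_zero_iff.2 fun i _ => (addOrderOf_pos (ξ i)).ne')

theorem m2_dn_nsmul (ξ : ∀ i, ZMod (N i)) : dn ξ • ξ = 0 := by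
  funext i
  rw [Pi.smul_apply, Pi.zero_apply]
  apply addOrderOf_dvd_iff_nsmul_eq_zero.1
  unfold dn
  exact dvd_prod_of_mem (fun i => addOrderOf (ξ i)) (mem_univ i)

theorem m2_chi_nsmul (n : ℕ) (ξ x : ∀ i, ZMod (N i)) : chi (n • ξ) x = chi ξ x ^ n := by
  induction n with
  | zero => rw [zero_smul, mo_chi_zero_left, pow_zero]
  | succ n ih => rw [succ_nsmul, mo_chi_add_left, ih, pow_succ]

theorem m2_cyclic (hcop : ∀ i j, i ≠ j → Nat.Coprime (N i) (N j)) :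
    IsAddCyclic (∀ i, ZMod (N i)) := by
  have e : ZMod (∏ i, N i) ≃+* (∀ i, ZMod (N i)) :=
    ZMod.prodEquivPi N (fun i j hij => hcop i j hij)
  exact isAddCyclic_of_surjective e.toAddEquiv.toAddMonoidHom e.surjective

/-- number of frequencies of small order -/
theorem m2_count (hcop : ∀ i j, i ≠ j → Nat.Coprime (N i) (N j)) (T : ℕ) :
    (univ.filter (fun ξ : ∀ i, ZMod (N i) => dn ξ ≤ T)).card ≤ T * T := by
  haveI := m2_cyclic (N := N) hcop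
  have h1 : (univ.filter (fun ξ : ∀ i, ZMod (N i) => dn ξ ≤ T)) ⊆
      (Icc 1 T).biUnion (fun q => univ.filter (fun ξ : ∀ i, ZMod (N i) => q • ξ = 0)) := by
    intro ξ hξ
    rw [mem_filter] at hξ
    rw [mem_biUnion]
    refine ⟨dn ξ, mem_Icc.2 ⟨m2_dn_pos ξ, hξ.2⟩, ?_⟩
    rw [mem_filter]
    exact ⟨mem_univ _, m2_dn_nsmul ξ⟩
  refine (card_le_card h1).trans (card_biUnion_le.trans ?_)
  calc ∑ q ∈ Icc 1 T, (univ.filter (fun ξ : ∀ i, ZMod (N i) => q • ξ = 0)).card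
      ≤ ∑ _q ∈ Icc 1 T, T := by
        apply sum_le_sum
        intro q hq
        rw [mem_Icc] at hq
        exact (IsAddCyclic.card_nsmul_eq_zero_le (by omega)).trans hq.2
    _ = T * T := by
        rw [sum_const, Nat.card_Icc, smul_eq_mul, Nat.add_sub_cancel]

/-! ### powers -/

/-- the `m`-th power of a trigonometric polynomial -/
theorem m2_pow (c : (∀ i, ZMod (N i)) → ℂ) (K : Finset ι) (T : ℕ)
    (hc0 : ∀ ξ, c ξ ≠ 0 → spt ξ ⊆ K ∧ dn ξ ≤ T) (m : ℕ) :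
    ∃ b : (∀ i, ZMod (N i)) → ℂ, (∀ x, (∑ ξ, c ξ * chi ξ x) ^ m = ∑ ζ, b ζ * chi ζ x) ∧
      ∑ ζ, ‖b ζ‖ ≤ (∑ ξ, ‖c ξ‖) ^ m ∧
      ∀ ζ, b ζ ≠ 0 → spt ζ ⊆ K ∧ ∃ M : ℕ, 1 ≤ M ∧ M ≤ T ^ m ∧ M • ζ = 0 := by
  induction m with
  | zero =>
    refine ⟨fun ζ => if ζ = 0 then 1 else 0, ?_, ?_, ?_⟩
    · intro x
      simp [mo_chi_zero_left]
    · rw [pow_zero, sum_eq_single 0]
      · simp
      · intro ζ _ hζ
        simp [hζ]
      · intro h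
        exact absurd (mem_univ _) h
    · intro ζ hζ
      have : ζ = 0 := by
        by_contra h
        simp [h] at hζ
      rw [this, mo_spt_zero]
      exact ⟨empty_subset _, 1, le_refl _, by rw [pow_zero], smul_zero _⟩
  | succ m ih =>
    obtain ⟨b, hb1, hb2, hb3⟩ := ih
    refine ⟨fun ζ => ∑ ξ, c ξ * b (ζ - ξ), ?_, ?_, ?_⟩
    · intro x
      rw [pow_succ, hb1 x, mul_comm, sum_mul]
      have h1 : ∀ ζ, (∑ ξ, c ξ * b (ζ - ξ)) * chi ζ x = ∑ ξ, c ξ * b (ζ - ξ) * chi ζ x := by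
        intro ζ
        rw [sum_mul]
      rw [sum_congr rfl (fun ζ _ => h1 ζ), sum_comm]
      apply sum_congr rfl
      intro ξ _
      rw [mul_sum, ← Equiv.sum_comp (Equiv.subRight ξ)]
      apply sum_congr rfl
      intro ζ _
      rw [Equiv.subRight_apply]
      have h2 : chi ζ x = chi ξ x * chi (ζ - ξ) x := by
        rw [← mo_chi_add_left, add_sub_cancel]
      rw [h2]
      ring
    · calc ∑ ζ, ‖∑ ξ, c ξ * b (ζ - ξ)‖ ≤ ∑ ζ, ∑ ξ, ‖c ξ‖ * ‖b (ζ - ξ)‖ := by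
            apply sum_le_sum
            intro ζ _
            refine (norm_sum_le _ _).trans ?_
            apply sum_le_sum
            intro ξ _
            rw [norm_mul]
        _ = ∑ ξ, ‖c ξ‖ * ∑ ζ, ‖b ζ‖ := by
            rw [sum_comm]
            apply sum_congr rfl
            intro ξ _
            rw [← mul_sum, ← Equiv.sum_comp (Equiv.subRight ξ) (fun ζ => ‖b ζ‖)]
            rfl
        _ = (∑ ξ, ‖c ξ‖) * ∑ ζ, ‖b ζ‖ := by rw [sum_mul]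
        _ ≤ (∑ ξ, ‖c ξ‖) * (∑ ξ, ‖c ξ‖) ^ m :=
            mul_le_mul_of_nonneg_left hb2 (sum_nonneg fun _ _ => norm_nonneg _)
        _ = _ := by rw [pow_succ, mul_comm]
    · intro ζ hζ
      obtain ⟨ξ, _, hξ⟩ := exists_ne_zero_of_sum_ne_zero hζ
      have h1 := hc0 ξ (left_ne_zero_of_mul hξ)
      obtain ⟨h2, M, hM1, hM2, hM3⟩ := hb3 (ζ - ξ) (right_ne_zero_of_mul hξ)
      have h3 : spt ζ ⊆ spt ξ ∪ spt (ζ - ξ) := by
        have := mo_spt_add ξ (ζ - ξ)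
        rwa [add_sub_cancel] at this
      refine ⟨h3.trans (union_subset h1.1 h2), dn ξ * M, Nat.mul_pos (m2_dn_pos ξ) hM1, ?_, ?_⟩
      · rw [pow_succ, mul_comm (T ^ m) T]
        exact Nat.mul_le_mul h1.2 hM2
      · have h4 : ζ = (ζ - ξ) + ξ := (sub_add_cancel ζ ξ).symm
        rw [h4, smul_add, mul_smul, hM3, smul_zero, zero_add, mul_comm, mul_smul, m2_dn_nsmul,
          smul_zero]

/-! ### character sums -/

theorem m2_ne_one (hcop : ∀ i j, i ≠ j → Nat.Coprime (N i) (N j)) (K : Finset ι)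
    (R : ℕ) (hRc : ∀ i ∈ K, Nat.Coprime R (N i))
    (ζ : ∀ i, ZMod (N i)) (hζ : ζ ≠ 0) (hK : spt ζ ⊆ K) : chi ζ (toX N R) ≠ 1 := by
  obtain ⟨i, hi⟩ := Function.ne_iff.1 hζ
  have hi' : ζ i ≠ 0 := hi
  have his : i ∈ spt ζ := by
    unfold spt
    exact mem_filter.2 ⟨mem_univ i, hi'⟩
  set P := ∏ j ∈ (spt ζ).erase i, N j with hP
  intro hcon
  have h1 : chi ζ (toX N ((R : ℤ) * (P : ℕ))) = 1 := by
    rw [mo_chi_nat_mul, hcon, one_pow]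
  have h2 : chi ζ (toX N ((R : ℤ) * (P : ℕ))) =
      (ZMod.stdAddChar (ζ i * ((R * P : ℕ) : ZMod (N i))) : ℂ) := by
    unfold chi
    rw [prod_eq_single i]
    · unfold toX
      push_cast
      rfl
    · intro j _ hj
      by_cases hj0 : ζ j = 0
      · rw [hj0, zero_mul, AddChar.map_zero_eq_one]
      · have h3 : toX N ((R : ℤ) * (P : ℕ)) j = 0 := by
          unfold toX
          rw [ZMod.intCast_zmod_eq_zero_iff_dvd]
          apply Dvd.dvd.mul_left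
          have : N j ∣ P := dvd_prod_of_mem N (by
            rw [mem_erase]
            refine ⟨hj, ?_⟩
            unfold spt
            exact mem_filter.2 ⟨mem_univ j, hj0⟩)
          exact_mod_cast this
        rw [h3, mul_zero, AddChar.map_zero_eq_one]
    · intro h
      exact absurd (mem_univ i) h
  rw [h2] at h1
  have h3 : ζ i * ((R * P : ℕ) : ZMod (N i)) = 0 := by
    apply ZMod.injective_stdAddChar
    rw [h1, AddChar.map_zero_eq_one]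
  have hcopP : Nat.Coprime (R * P) (N i) := by
    apply Nat.Coprime.mul_left (hRc i (hK his))
    apply Nat.Coprime.prod_left
    intro j hj
    exact hcop j i (ne_of_mem_erase hj)
  have hu : IsUnit ((R * P : ℕ) : ZMod (N i)) := (ZMod.isUnit_iff_coprime _ _).2 hcopP
  exact hi' ((IsUnit.mul_left_eq_zero hu).1 h3)

/-- bound of a nontrivial character sum over a progression in an interval -/
theorem m2_char_sum (hcop : ∀ i j, i ≠ j → Nat.Coprime (N i) (N j)) (K : Finset ι)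
    (R : ℕ) (hR : 1 ≤ R) (hRc : ∀ i ∈ K, Nat.Coprime R (N i)) (x₀ u v : ℤ)
    (ζ : ∀ i, ZMod (N i)) (hζ : ζ ≠ 0) (hK : spt ζ ⊆ K) (M : ℕ) (hM1 : 1 ≤ M)
    (hM : M • ζ = 0) :
    ‖∑ n ∈ (Ico u v).filter (fun n => n ≡ x₀ [ZMOD R]), chi ζ (toX N n)‖ ≤ (M : ℝ) := by
  obtain ⟨j₀, n, hset, _⟩ := mo_prog R hR x₀ u v
  have hR0 : (R : ℤ) ≠ 0 := by
    have : (0 : ℤ) < R := by exact_mod_cast hR
    omega
  rw [hset, sum_image (by
    intro i _ j _ hij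
    simp only at hij
    have h1 : (R : ℤ) * (j₀ + i) = R * (j₀ + j) := by linarith
    have h2 := mul_left_cancel₀ hR0 h1
    omega)]
  have hterm : ∀ i ∈ range n, chi ζ (toX N (x₀ + R * (j₀ + (i : ℤ)))) =
      chi ζ (toX N x₀) * chi ζ (toX N R) ^ (j₀ + (i : ℤ)) := by
    intro i _
    rw [mo_toX_add, mo_chi_add_right, mo_chi_int_mul]
  rw [sum_congr rfl hterm, ← mul_sum, norm_mul, mo_chi_norm, one_mul]
  have hwM : chi ζ (toX N R) ^ M = 1 := by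
    rw [← m2_chi_nsmul, hM, mo_chi_zero_left]
  exact mo_geom _ (mo_chi_norm _ _) (m2_ne_one hcop K R hRc ζ hζ hK) M hM1 hwM n j₀

/-- second moment over a progression -/
theorem m2_second (hcop : ∀ i j, i ≠ j → Nat.Coprime (N i) (N j)) (B : ℕ) (K : Finset ι)
    (R : ℕ) (hR : 1 ≤ R) (hRc : ∀ i ∈ K, Nat.Coprime R (N i)) (x₀ u v : ℤ)
    (b : (∀ i, ZMod (N i)) → ℂ)
    (hb : ∀ ζ, b ζ ≠ 0 → spt ζ ⊆ K ∧ ∃ M : ℕ, 1 ≤ M ∧ M ≤ B ∧ M • ζ = 0) :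
    ∑ n ∈ (Ico u v).filter (fun n => n ≡ x₀ [ZMOD R]), ‖∑ ζ, b ζ * chi ζ (toX N n)‖ ^ 2 ≤
      ((Ico u v).filter (fun n => n ≡ x₀ [ZMOD R])).card * ∑ ζ, ‖b ζ‖ ^ 2 +
        (B : ℝ) ^ 2 * (∑ ζ, ‖b ζ‖) ^ 2 := by
  set I := (Ico u v).filter (fun n => n ≡ x₀ [ZMOD R]) with hI
  have h1 : ((∑ n ∈ I, ‖∑ ζ, b ζ * chi ζ (toX N n)‖ ^ 2 : ℝ) : ℂ) =
      ∑ ζ, ∑ η, b ζ * (starRingEnd ℂ) (b η) * ∑ n ∈ I, chi (ζ - η) (toX N n) := by
    rw [Complex.ofReal_sum, sum_congr rfl (fun n _ => mo_sq b (toX N n)), sum_comm]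
    apply sum_congr rfl
    intro ζ _
    rw [sum_comm]
    apply sum_congr rfl
    intro η _
    rw [mul_sum]
  have h2 : ∀ ζ η, ‖b ζ * (starRingEnd ℂ) (b η) * ∑ n ∈ I, chi (ζ - η) (toX N n)‖ ≤
      (if ζ = η then (I.card : ℝ) * ‖b ζ‖ ^ 2 else 0) + (B : ℝ) ^ 2 * (‖b ζ‖ * ‖b η‖) := by
    intro ζ η
    rw [norm_mul, norm_mul, RCLike.norm_conj]
    by_cases h : ζ = η
    · subst h
      rw [if_pos rfl, sub_self, sum_congr rfl (fun n _ => mo_chi_zero_left _), sum_const,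
        nsmul_eq_mul, mul_one]
      rw [Complex.norm_natCast]
      have : 0 ≤ (B : ℝ) ^ 2 * (‖b ζ‖ * ‖b ζ‖) := by positivity
      nlinarith
    · rw [if_neg h, zero_add]
      by_cases hζ : b ζ = 0
      · rw [hζ]
        simp
      by_cases hη : b η = 0
      · rw [hη]
        simp
      obtain ⟨h3, M, hM1, hMB, hM⟩ := hb ζ hζ
      obtain ⟨h4, M', hM1', hMB', hM'⟩ := hb η hη
      have h5 := mo_spt_sub ζ η
      have h6 : (M * M') • (ζ - η) = 0 := by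
        have e1 : (M * M') • ζ = 0 := by rw [mul_comm, mul_smul, hM, smul_zero]
        have e2 : (M * M') • η = 0 := by rw [mul_smul, hM', smul_zero]
        rw [smul_sub, e1, e2, sub_zero]
      have h7 := m2_char_sum hcop K R hR hRc x₀ u v (ζ - η) (sub_ne_zero.2 h)
        (h5.trans (union_subset h3 h4)) (M * M') (Nat.mul_pos hM1 hM1') h6
      rw [← hI] at h7
      have h8 : ((M * M' : ℕ) : ℝ) ≤ (B : ℝ) ^ 2 := by
        rw [sq]
        exact_mod_cast Nat.mul_le_mul hMB hMB'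
      calc ‖b ζ‖ * ‖b η‖ * ‖∑ n ∈ I, chi (ζ - η) (toX N n)‖
          ≤ ‖b ζ‖ * ‖b η‖ * (B : ℝ) ^ 2 := by
            apply mul_le_mul_of_nonneg_left (h7.trans h8)
            positivity
        _ = _ := by ring
  have h3 : (0 : ℝ) ≤ ∑ n ∈ I, ‖∑ ζ, b ζ * chi ζ (toX N n)‖ ^ 2 :=
    sum_nonneg fun _ _ => by positivity
  have h4 : ∑ n ∈ I, ‖∑ ζ, b ζ * chi ζ (toX N n)‖ ^ 2 =
      ‖((∑ n ∈ I, ‖∑ ζ, b ζ * chi ζ (toX N n)‖ ^ 2 : ℝ) : ℂ)‖ := by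
    rw [Complex.norm_real, Real.norm_of_nonneg h3]
  rw [h4, h1]
  calc ‖∑ ζ, ∑ η, b ζ * (starRingEnd ℂ) (b η) * ∑ n ∈ I, chi (ζ - η) (toX N n)‖
      ≤ ∑ ζ, ∑ η, ‖b ζ * (starRingEnd ℂ) (b η) * ∑ n ∈ I, chi (ζ - η) (toX N n)‖ := by
        refine (norm_sum_le _ _).trans ?_
        exact sum_le_sum fun ζ _ => norm_sum_le _ _
    _ ≤ ∑ ζ, ∑ η, ((if ζ = η then (I.card : ℝ) * ‖b ζ‖ ^ 2 else 0) +
          (B : ℝ) ^ 2 * (‖b ζ‖ * ‖b η‖)) :=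
        sum_le_sum fun ζ _ => sum_le_sum fun η _ => h2 ζ η
    _ = _ := by
        rw [sum_congr rfl (fun ζ _ => sum_add_distrib), sum_add_distrib]
        congr 1
        · rw [mul_sum]
          apply sum_congr rfl
          intro ζ _
          rw [sum_ite_eq univ ζ, if_pos (mem_univ ζ)]
        · rw [sq (∑ ζ, ‖b ζ‖), sum_mul_sum, mul_sum]
          apply sum_congr rfl
          intro ζ _
          rw [mul_sum]

/-- comparison of moments for frequencies with denominator at most `T` -/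
theorem moment_compare2 (hcop : ∀ i j, i ≠ j → Nat.Coprime (N i) (N j)) (m T : ℕ)
    (hm : 1 ≤ m) (hT : 1 ≤ T) (K : Finset ι)
    (R : ℕ) (hR : 1 ≤ R) (hRc : ∀ i ∈ K, Nat.Coprime R (N i)) (x₀ u v : ℤ) (ν a : ℝ)
    (huv : ((v - u : ℤ) : ℝ) ≤ ν + 1) (hν : (R : ℝ) * (2 * T) ^ (8 * m) ≤ ν)
    (ha : 0 < a) (c : (∀ i, ZMod (N i)) → ℂ) (hca : ∀ ξ, ‖c ξ‖ ≤ a)
    (hc0 : ∀ ξ, c ξ ≠ 0 → spt ξ ⊆ K ∧ dn ξ ≤ T) :
    (R / ν) * ∑ n ∈ (Ico u v).filter (fun n => n ≡ x₀ [ZMOD R]),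
        ‖∑ ξ, c ξ * chi ξ (toX N n)‖ ^ (2 * m) ≤
      2 * ((∑ x : ∀ i, ZMod (N i), ‖∑ ξ, c ξ * chi ξ x‖ ^ (2 * m)) /
        Fintype.card (∀ i, ZMod (N i))) + a ^ (2 * m) := by
  have hR0 : (0 : ℝ) < R := by exact_mod_cast hR
  have hR1 : (1 : ℝ) ≤ R := by exact_mod_cast hR
  have hT1 : (1 : ℝ) ≤ T := by exact_mod_cast hT
  have hQp : (2 : ℝ) ≤ (2 * (T : ℝ)) ^ (8 * m) := by
    calc (2 : ℝ) ≤ 2 * T := by linarith
      _ = (2 * (T : ℝ)) ^ 1 := (pow_one _).symm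
      _ ≤ _ := pow_le_pow_right₀ (by linarith) (by omega)
  have hν2 : 2 * (R : ℝ) ≤ ν := by nlinarith
  have hν0 : 0 < ν := by linarith
  obtain ⟨b, hb1, hb2, hb3⟩ := m2_pow c K T hc0 m
  -- the sum of the coefficients
  have hcsum : ∑ ξ, ‖c ξ‖ ≤ ((T : ℝ) * T) * a := by
    have h1 : ∑ ξ, ‖c ξ‖ = ∑ ξ ∈ univ.filter (fun ξ : ∀ i, ZMod (N i) => dn ξ ≤ T),
        ‖c ξ‖ := by
      symm
      apply sum_subset (subset_univ _)
      intro ξ _ hξ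
      rw [mem_filter] at hξ
      by_contra hne
      apply hξ
      refine ⟨mem_univ _, (hc0 ξ ?_).2⟩
      intro h
      apply hne
      rw [h, norm_zero]
    rw [h1]
    calc _ ≤ ∑ ξ ∈ univ.filter (fun ξ : ∀ i, ZMod (N i) => dn ξ ≤ T), a :=
          sum_le_sum fun ξ _ => hca ξ
      _ = ((univ.filter (fun ξ : ∀ i, ZMod (N i) => dn ξ ≤ T)).card : ℝ) * a := by
          rw [sum_const, nsmul_eq_mul]
      _ ≤ ((T : ℝ) * T) * a := by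
          apply mul_le_mul_of_nonneg_right _ ha.le
          exact_mod_cast m2_count hcop T
  have hc0' : 0 ≤ ∑ ξ, ‖c ξ‖ := sum_nonneg fun _ _ => norm_nonneg _
  have hbsum : ∑ ζ, ‖b ζ‖ ≤ ((T : ℝ) * T) ^ m * a ^ m := by
    refine hb2.trans ?_
    calc (∑ ξ, ‖c ξ‖) ^ m ≤ (((T : ℝ) * T) * a) ^ m := pow_le_pow_left₀ hc0' hcsum m
      _ = _ := by rw [mul_pow]
  have hb0 : 0 ≤ ∑ ζ, ‖b ζ‖ := sum_nonneg fun _ _ => norm_nonneg _
  -- powers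
  have hpow : ∀ x, ‖∑ ξ, c ξ * chi ξ x‖ ^ (2 * m) = ‖∑ ζ, b ζ * chi ζ x‖ ^ 2 := by
    intro x
    rw [← hb1 x, norm_pow, ← pow_mul, mul_comm 2 m]
  rw [sum_congr rfl (fun n _ => hpow (toX N n)), sum_congr rfl (fun x _ => hpow x), mo_parseval]
  have hG0 : ((Fintype.card (∀ i, ZMod (N i)) : ℕ) : ℝ) ≠ 0 := by
    exact_mod_cast Fintype.card_ne_zero
  rw [mul_div_cancel_left₀ _ hG0]
  have hsec := m2_second hcop (T ^ m) K R hR hRc x₀ u v b hb3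
  set I := (Ico u v).filter (fun n => n ≡ x₀ [ZMOD R]) with hI
  have hB0 : 0 ≤ ∑ ζ, ‖b ζ‖ ^ 2 := sum_nonneg fun _ _ => by positivity
  have hcount : (R : ℝ) / ν * I.card ≤ 2 := by
    obtain ⟨j₀, n, hset, hn⟩ := mo_prog R hR x₀ u v
    have h1 : I.card ≤ n := by
      rw [hI, hset]
      refine card_image_le.trans ?_
      rw [card_range]
    have h2 : (R : ℝ) * n ≤ max ((v - u : ℤ) : ℝ) 0 + R := by exact_mod_cast hn
    have h3 : max ((v - u : ℤ) : ℝ) 0 ≤ ν + 1 := max_le huv (by linarith)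
    have h4 : (R : ℝ) * I.card ≤ R * n := by
      apply mul_le_mul_of_nonneg_left _ hR0.le
      exact_mod_cast h1
    rw [div_mul_eq_mul_div, div_le_iff₀ hν0]
    linarith
  have hmain : (R : ℝ) / ν * (((T ^ m : ℕ) : ℝ) ^ 2 * (∑ ζ, ‖b ζ‖) ^ 2) ≤ a ^ (2 * m) := by
    have h1 : (∑ ζ, ‖b ζ‖) ^ 2 ≤ (((T : ℝ) * T) ^ m * a ^ m) ^ 2 :=
      pow_le_pow_left₀ hb0 hbsum 2
    have h2 : (R : ℝ) * (T : ℝ) ^ (6 * m) ≤ ν := by
      refine le_trans ?_ hν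
      apply mul_le_mul_of_nonneg_left _ hR0.le
      calc (T : ℝ) ^ (6 * m) ≤ (T : ℝ) ^ (8 * m) := pow_le_pow_right₀ hT1 (by omega)
        _ ≤ (2 * (T : ℝ)) ^ (8 * m) := pow_le_pow_left₀ (by linarith) (by linarith) _
    rw [div_mul_eq_mul_div, div_le_iff₀ hν0]
    calc (R : ℝ) * (((T ^ m : ℕ) : ℝ) ^ 2 * (∑ ζ, ‖b ζ‖) ^ 2)
        ≤ (R : ℝ) * (((T ^ m : ℕ) : ℝ) ^ 2 * (((T : ℝ) * T) ^ m * a ^ m) ^ 2) := by
          gcongr
      _ = ((R : ℝ) * (T : ℝ) ^ (6 * m)) * a ^ (2 * m) := by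
          push_cast
          ring
      _ ≤ ν * a ^ (2 * m) := by
          apply mul_le_mul_of_nonneg_right h2
          positivity
      _ = a ^ (2 * m) * ν := mul_comm _ _
  have hRν : 0 ≤ (R : ℝ) / ν := by positivity
  calc (R : ℝ) / ν * ∑ n ∈ I, ‖∑ ζ, b ζ * chi ζ (toX N n)‖ ^ 2
      ≤ (R : ℝ) / ν * (I.card * ∑ ζ, ‖b ζ‖ ^ 2 +
        ((T ^ m : ℕ) : ℝ) ^ 2 * (∑ ζ, ‖b ζ‖) ^ 2) := mul_le_mul_of_nonneg_left hsec hRν
    _ = (R : ℝ) / ν * I.card * ∑ ζ, ‖b ζ‖ ^ 2 +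
        (R : ℝ) / ν * (((T ^ m : ℕ) : ℝ) ^ 2 * (∑ ζ, ‖b ζ‖) ^ 2) := by ring
    _ ≤ 2 * ∑ ζ, ‖b ζ‖ ^ 2 + a ^ (2 * m) :=
        add_le_add (mul_le_mul_of_nonneg_right hcount hB0) hmain

end Vale.Agent.P042.GS
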