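import Vale.Agent.P042.FS.ArithLevel
import Vale.Agent.P042.GS.Moment2
import Vale.Agent.P042.GS.Level2C

namespace Vale.Agent.P042.GS

open Finset Vale.Agent.P042.FS

variable {ι : Type} [Fintype ι] [DecidableEq ι] {N : ι → ℕ} [∀ i, NeZero (N i)]

lemma l2_phi_identity (R : ℕ) (ν : ℝ) (u v : ℤ) (φ : ℤ → ℝ) (c : (∀ i, ZMod (N i)) → ℂ)
    (hc : ∀ ξ, c ξ = 0 ∨ c ξ = fco R ν u v φ ξ) (w : (∀ i, ZMod (N i)) → ℝ) :
    ((∑ ξ, w ξ * ‖c ξ‖ ^ 2 : ℝ) : ℂ) =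
      ∑ n ∈ Ico u v, (((R / ν) * φ n : ℝ) : ℂ) *
        ∑ ξ, ((w ξ : ℝ) : ℂ) * c ξ * chi ξ (toX N n) := by
  push_cast
  simp only [Finset.mul_sum]
  rw [Finset.sum_comm]
  refine Finset.sum_congr rfl fun ξ _ => ?_
  rcases hc ξ with h | h
  · simp [h]
  · have h1 : ((‖c ξ‖ : ℂ)) ^ 2 = c ξ * (starRingEnd ℂ) (c ξ) := (Complex.mul_conj' _).symm
    rw [h1]
    have h2 : (starRingEnd ℂ) (c ξ) = ∑ n ∈ Ico u v, ((R / ν : ℝ) : ℂ) * ((φ n : ℂ) *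
        chi ξ (toX N n)) := by
      rw [h, fco, map_mul, map_sum, Complex.conj_ofReal, Finset.mul_sum]
      refine Finset.sum_congr rfl fun n _ => ?_
      rw [map_mul, Complex.conj_ofReal, Complex.conj_conj]
    rw [h2, Finset.mul_sum, Finset.mul_sum]
    refine Finset.sum_congr rfl fun n _ => ?_
    push_cast
    ring

/-- Hölder step -/
lemma l2_holder (R : ℕ) (ν : ℝ) (hν : 0 < ν) (x₀ u v : ℤ) (φ : ℤ → ℝ) (hφ : ∀ n, 0 ≤ φ n)
    (hφ1 : ∀ n, φ n ≤ 1) (hsup : ∀ n, φ n ≠ 0 → n ≡ x₀ [ZMOD R])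
    (c : (∀ i, ZMod (N i)) → ℂ) (hc : ∀ ξ, c ξ = 0 ∨ c ξ = fco R ν u v φ ξ)
    (w : (∀ i, ZMod (N i)) → ℝ) (hw : ∀ ξ, 0 ≤ w ξ)
    (a : ℝ) (hsum : R / ν * ∑ n ∈ Ico u v, φ n ≤ a) (p : ℕ) (hp : 1 ≤ p) :
    (∑ ξ, w ξ * ‖c ξ‖ ^ 2) ^ p ≤ a ^ (p - 1) *
      ((R / ν) * ∑ n ∈ (Ico u v).filter (fun n => n ≡ x₀ [ZMOD R]),
        ‖∑ ξ, ((w ξ : ℝ) : ℂ) * c ξ * chi ξ (toX N n)‖ ^ p) := by
  have hR : (0 : ℝ) ≤ R / ν := by positivity
  have hΦ0 : 0 ≤ ∑ ξ : ∀ i, ZMod (N i), w ξ * ‖c ξ‖ ^ 2 :=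
    Finset.sum_nonneg fun ξ _ => mul_nonneg (hw ξ) (by positivity)
  set g : ℤ → ℂ := fun n => ∑ ξ, ((w ξ : ℝ) : ℂ) * c ξ * chi ξ (toX N n) with hg
  have h1 : ∑ ξ : ∀ i, ZMod (N i), w ξ * ‖c ξ‖ ^ 2 ≤
      ∑ n ∈ Ico u v, ((R / ν) * φ n) * ‖g n‖ := by
    have h := congrArg norm (l2_phi_identity (N := N) R ν u v φ c hc w)
    rw [Complex.norm_real, Real.norm_eq_abs, abs_of_nonneg hΦ0] at h
    rw [h]
    refine (norm_sum_le _ _).trans (le_of_eq (Finset.sum_congr rfl fun n _ => ?_))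
    rw [norm_mul, Complex.norm_real, Real.norm_eq_abs, abs_of_nonneg (mul_nonneg hR (hφ n))]
  have h2 := al_power_mean (Ico u v) (fun n => (R / ν) * φ n) (fun n => ‖g n‖)
    (fun n _ => mul_nonneg hR (hφ n)) (fun n _ => norm_nonneg _) p hp
  have h3 : ∑ n ∈ Ico u v, (R / ν) * φ n ≤ a := by rwa [← Finset.mul_sum]
  have h30 : 0 ≤ ∑ n ∈ Ico u v, (R / ν) * φ n :=
    Finset.sum_nonneg fun n _ => mul_nonneg hR (hφ n)
  have h4 : ∑ n ∈ Ico u v, ((R / ν) * φ n) * ‖g n‖ ^ p ≤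
      (R / ν) * ∑ n ∈ (Ico u v).filter (fun n => n ≡ x₀ [ZMOD R]), ‖g n‖ ^ p := by
    rw [Finset.mul_sum, Finset.sum_filter]
    refine Finset.sum_le_sum fun n _ => ?_
    by_cases hn : φ n = 0
    · rw [hn]
      simp only [mul_zero, zero_mul]
      split_ifs <;> positivity
    · rw [if_pos (hsup n hn)]
      calc (R / ν) * φ n * ‖g n‖ ^ p ≤ (R / ν) * 1 * ‖g n‖ ^ p := by
            refine mul_le_mul_of_nonneg_right ?_ (by positivity)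
            exact mul_le_mul_of_nonneg_left (hφ1 n) hR
        _ = (R / ν) * ‖g n‖ ^ p := by ring
  calc (∑ ξ : ∀ i, ZMod (N i), w ξ * ‖c ξ‖ ^ 2) ^ p
      ≤ (∑ n ∈ Ico u v, ((R / ν) * φ n) * ‖g n‖) ^ p := pow_le_pow_left₀ hΦ0 h1 p
    _ ≤ (∑ n ∈ Ico u v, (R / ν) * φ n) ^ (p - 1) * ∑ n ∈ Ico u v, ((R / ν) * φ n) * ‖g n‖ ^ p := h2
    _ ≤ a ^ (p - 1) * ((R / ν) * ∑ n ∈ (Ico u v).filter (fun n => n ≡ x₀ [ZMOD R]),
          ‖g n‖ ^ p) := by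
        refine mul_le_mul (pow_le_pow_left₀ h30 h3 _) h4 ?_ (pow_nonneg (h30.trans h3) _)
        exact Finset.sum_nonneg fun n _ =>
          mul_nonneg (mul_nonneg hR (hφ n)) (pow_nonneg (norm_nonneg _) _)

/-- level inequality with denominators at most `T` and moduli at most `T` -/
theorem level_ineq (pr e : ι → ℕ) (hpr : ∀ i, (pr i).Prime) (hinj : Function.Injective pr)
    (hN : ∀ i, N i = pr i ^ e i) (lam : ι → ℝ) (l₀ : ℝ) (hl₀ : 0 ≤ l₀) (hl₁ : l₀ < 1)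
    (hlam : ∀ i, 0 ≤ lam i ∧ lam i ≤ l₀) (m : ℕ) (hm : 1 ≤ m) : ∀ (T : ℕ) (_ : 1 ≤ T)
    (K : Finset ι) (R : ℕ) (_ : 1 ≤ R) (_ : ∀ i ∈ K, Nat.Coprime R (N i)) (x₀ u v : ℤ)
    (ν a : ℝ) (_ : ((v - u : ℤ) : ℝ) ≤ ν + 1) (_ : (R : ℝ) * (2 * T) ^ (8 * m) ≤ ν)
    (φ : ℤ → ℝ) (_ : ∀ n, 0 ≤ φ n) (_ : ∀ n, φ n ≤ 1)
    (_ : ∀ n, φ n ≠ 0 → u ≤ n ∧ n < v ∧ n ≡ x₀ [ZMOD R])
    (_ : Real.exp (-(2 * m : ℝ)) ≤ a)
    (_ : ∀ M : ℕ, 1 ≤ M → M ≤ T → Nat.Coprime M R → ∀ z : ℤ,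
      (R * M : ℝ) / ν * ∑ n ∈ (Ico u v).filter (fun n => n ≡ z [ZMOD M]), φ n ≤ a),
    ∑ ξ ∈ univ.filter (fun ξ : ∀ i, ZMod (N i) => spt ξ ⊆ K ∧ dn ξ ≤ T),
      wt pr lam ((1 - l₀) / (48 * m)) ξ * ‖fco R ν u v φ ξ‖ ^ 2 ≤ 25 * a ^ 2 := by
  intro T
  induction T using Nat.strong_induction_on with
  | _ T ih =>
  intro hT K R hR hRc x₀ u v ν a huv hν φ hφ hφ1 hsup ha hNI
  have ih' : ∀ T' < T, 1 ≤ T' → L2Stat N pr lam l₀ m T' := fun T' h1 h2 => ih T' h1 h2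
  have ha0 : 0 < a := lt_of_lt_of_le (Real.exp_pos _) ha
  have hm0 : (1 : ℝ) ≤ m := by exact_mod_cast hm
  have hη0 : 0 < 1 - l₀ := by linarith
  have hη1 : 1 - l₀ ≤ 1 := by linarith
  have hlam0 : ∀ i, 0 ≤ lam i := fun i => (hlam i).1
  have hlam1 : ∀ i, lam i ≤ 1 := fun i => (hlam i).2.trans hl₁.le
  have hcop : ∀ i j, i ≠ j → Nat.Coprime (N i) (N j) := by
    intro i j hij
    rw [hN i, hN j]
    exact Nat.Coprime.pow _ _ ((Nat.coprime_primes (hpr i) (hpr j)).mpr (fun h => hij (hinj h)))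
  have hν0 : 0 < ν := by
    refine lt_of_lt_of_le ?_ hν
    have h1 : (0 : ℝ) < R := by exact_mod_cast hR
    have h2 : (0 : ℝ) < T := by exact_mod_cast (by omega : 0 < T)
    positivity
  have hsum : R / ν * ∑ n ∈ Ico u v, φ n ≤ a := by
    have h := hNI 1 (le_refl 1) hT (Nat.coprime_one_left R) 0
    have h2 : (Ico u v).filter (fun n => n ≡ 0 [ZMOD ((1 : ℕ) : ℤ)]) = Ico u v := by
      refine Finset.filter_true_of_mem fun n _ => ?_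
      simp [Int.modEq_one]
    rw [h2] at h
    simpa using h
  set ρ : ℝ := (1 - l₀) / (48 * m) with hρ
  have hρ0 : 0 < ρ := by positivity
  have hρ1 : ρ ≤ 1 := by
    rw [hρ, div_le_one (by positivity)]
    linarith
  -- unweighted coefficients
  set c₁ : (∀ i, ZMod (N i)) → ℂ := fun ξ =>
    if spt ξ ⊆ K ∧ dn ξ ≤ T then fco R ν u v φ ξ else 0 with hc₁
  have hcor : ∀ ξ, c₁ ξ = 0 ∨ c₁ ξ = fco R ν u v φ ξ := by
    intro ξ
    simp only [hc₁]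
    split_ifs
    · exact Or.inr rfl
    · exact Or.inl rfl
  have hc₁a : ∀ ξ, ‖c₁ ξ‖ ≤ a := by
    intro ξ
    rcases hcor ξ with h | h
    · rw [h, norm_zero]; exact ha0.le
    · rw [h]; exact (al_fco_norm R ν hν0 u v φ hφ ξ).trans hsum
  have hwt0 : ∀ ξ : ∀ i, ZMod (N i), 0 ≤ wt pr lam ρ ξ := by
    intro ξ
    rw [wt_eq]
    exact mul_nonneg (by positivity) (om_nonneg pr lam hlam0 ξ)
  have hwt1 : ∀ ξ : ∀ i, ZMod (N i), wt pr lam ρ ξ ≤ 1 := by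
    intro ξ
    rw [wt_eq]
    exact mul_le_one₀ (pow_le_one₀ hρ0.le hρ1) (om_nonneg pr lam hlam0 ξ)
      (om_le_one pr lam hlam0 hlam1 ξ)
  -- weighted coefficients
  set c : (∀ i, ZMod (N i)) → ℂ := fun ξ =>
    (((1 - l₀) ^ (spt ξ).card * om pr lam ξ : ℝ) : ℂ) * c₁ ξ with hc
  have hc1 : ∀ ξ, spt ξ ⊆ K → dn ξ ≤ T →
      c ξ = (((1 - l₀) ^ (spt ξ).card * om pr lam ξ : ℝ) : ℂ) * fco R ν u v φ ξ := by
    intro ξ h1 h2
    simp only [hc, hc₁]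
    rw [if_pos ⟨h1, h2⟩]
  have hc0 : ∀ ξ, ¬ (spt ξ ⊆ K ∧ dn ξ ≤ T) → c ξ = 0 := by
    intro ξ h
    simp only [hc, hc₁]
    rw [if_neg h, mul_zero]
  have hcw : ∀ ξ, (((1 / (48 * m : ℝ)) ^ (spt ξ).card : ℝ) : ℂ) * c ξ =
      ((wt pr lam ρ ξ : ℝ) : ℂ) * c₁ ξ := by
    intro ξ
    simp only [hc]
    rw [wt_eq, hρ, ← mul_assoc, ← Complex.ofReal_mul]
    congr 2
    rw [← mul_assoc, ← mul_pow]
    congr 2
    ring
  set Φ : ℝ := ∑ ξ : ∀ i, ZMod (N i), wt pr lam ρ ξ * ‖c₁ ξ‖ ^ 2 with hΦdef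
  have hΦeq : ∑ ξ ∈ univ.filter (fun ξ : ∀ i, ZMod (N i) => spt ξ ⊆ K ∧ dn ξ ≤ T),
      wt pr lam ρ ξ * ‖fco R ν u v φ ξ‖ ^ 2 = Φ := by
    rw [hΦdef, Finset.sum_filter]
    refine Finset.sum_congr rfl fun ξ _ => ?_
    simp only [hc₁]
    split_ifs
    · rfl
    · simp
  rw [hΦeq]
  by_contra hcon
  push Not at hcon
  have hΦ0 : 0 < Φ := lt_trans (by positivity) hcon
  have hcsq : ∀ ξ, ‖c ξ‖ ^ 2 ≤ (1 - l₀) ^ (spt ξ).card * om pr lam ξ * ‖c₁ ξ‖ ^ 2 := by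
    intro ξ
    have ho0 := om_nonneg pr lam hlam0 ξ
    have ho1 := om_le_one pr lam hlam0 hlam1 ξ
    have h1 : 0 ≤ (1 - l₀) ^ (spt ξ).card := by positivity
    have h2 : (1 - l₀) ^ (spt ξ).card ≤ 1 := pow_le_one₀ hη0.le hη1
    have h3 : 0 ≤ (1 - l₀) ^ (spt ξ).card * om pr lam ξ := mul_nonneg h1 ho0
    have h4 : (1 - l₀) ^ (spt ξ).card * om pr lam ξ ≤ 1 := mul_le_one₀ h2 ho0 ho1
    simp only [hc]
    rw [norm_mul, mul_pow, Complex.norm_real, Real.norm_eq_abs, sq_abs]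
    refine mul_le_mul_of_nonneg_right ?_ (by positivity)
    nlinarith
  -- inner bound
  have hin : ∀ (S : Finset ι) (x : ∀ i, ZMod (N i)),
      ∑ ξ' ∈ univ.filter (fun ξ' : ∀ i, ZMod (N i) => ∀ i ∈ S, ξ' i = 0),
          (1 / (256 * m : ℝ)) ^ (spt ξ').card *
            ‖∑ ξ ∈ univ.filter (fun ξ : ∀ i, ZMod (N i) => (∀ i ∈ S, ξ i ≠ 0) ∧
              ∀ i, i ∉ S → ξ i = ξ' i), c ξ * chiS S ξ x‖ ^ 2 ≤ Φ * 9 ^ S.card := by
    intro S x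
    by_cases hSe : S = ∅
    · subst hSe
      have h1 : ∀ ξ' : ∀ i, ZMod (N i), univ.filter (fun ξ : ∀ i, ZMod (N i) =>
          (∀ i ∈ (∅ : Finset ι), ξ i ≠ 0) ∧ ∀ i, i ∉ (∅ : Finset ι) → ξ i = ξ' i) = {ξ'} := by
        intro ξ'
        ext ξ
        simp [funext_iff]
      simp_rw [h1]
      rw [Finset.card_empty, pow_zero, mul_one]
      have h2 : univ.filter (fun ξ' : ∀ i, ZMod (N i) => ∀ i ∈ (∅ : Finset ι), ξ' i = 0) =
          univ := by simp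
      rw [h2]
      refine Finset.sum_le_sum fun ξ' _ => ?_
      rw [Finset.sum_singleton]
      have h3 : chiS ∅ ξ' x = 1 := by simp [chiS]
      rw [h3, mul_one, wt_eq]
      have h4 : (1 / (256 * m : ℝ)) ^ (spt ξ').card ≤ (1 / (48 * m : ℝ)) ^ (spt ξ').card := by
        refine pow_le_pow_left₀ (by positivity) ?_ _
        refine one_div_le_one_div_of_le (by positivity) ?_
        nlinarith
      have ho0 := om_nonneg pr lam hlam0 ξ'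
      calc (1 / (256 * m : ℝ)) ^ (spt ξ').card * ‖c ξ'‖ ^ 2
          ≤ (1 / (48 * m : ℝ)) ^ (spt ξ').card *
            ((1 - l₀) ^ (spt ξ').card * om pr lam ξ' * ‖c₁ ξ'‖ ^ 2) :=
            mul_le_mul h4 (hcsq ξ') (by positivity) (by positivity)
        _ = ρ ^ (spt ξ').card * om pr lam ξ' * ‖c₁ ξ'‖ ^ 2 := by
            have : ρ ^ (spt ξ').card = (1 / (48 * m : ℝ)) ^ (spt ξ').card *
                (1 - l₀) ^ (spt ξ').card := by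
              rw [← mul_pow, hρ]
              congr 1
              ring
            rw [this]
            ring
    · by_cases hSK : S ⊆ K
      · have h := l2_inner pr e hpr hinj hN lam l₀ hl₀ hl₁ hlam m hm T K R hR hRc x₀ u v ν a huv
          hν φ hφ hφ1 hsup ha hNI S hSK (Finset.nonempty_iff_ne_empty.mpr hSe) ih' c hc1 hc0 x
        refine h.trans ?_
        refine mul_le_mul hcon.le ?_ (by positivity) hΦ0.le
        exact pow_le_pow_left₀ (by norm_num) (by norm_num) _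
      · have h1 : ∀ ξ' : ∀ i, ZMod (N i), ∑ ξ ∈ univ.filter (fun ξ : ∀ i, ZMod (N i) =>
            (∀ i ∈ S, ξ i ≠ 0) ∧ ∀ i, i ∉ S → ξ i = ξ' i), c ξ * chiS S ξ x = 0 := by
          intro ξ'
          refine Finset.sum_eq_zero fun ξ hξ => ?_
          rw [mem_filter] at hξ
          have hSsub : S ⊆ spt ξ := by
            intro i hi
            simp [spt, hξ.2.1 i hi]
          rw [hc0 ξ, zero_mul]
          rintro ⟨h5, _⟩
          exact hSK (hSsub.trans h5)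
        simp_rw [h1]
        simp only [norm_zero, ne_eq, OfNat.ofNat_ne_zero, not_false_eq_true, zero_pow, mul_zero,
          Finset.sum_const_zero]
        positivity
  have hE := al_energy m hm c Φ hΦ0.le hin
  have hcΦ : ∑ ξ, (1 / (48 * m : ℝ)) ^ (spt ξ).card * ‖c ξ‖ ^ 2 ≤ Φ := by
    rw [hΦdef]
    refine Finset.sum_le_sum fun ξ _ => ?_
    rw [wt_eq]
    calc (1 / (48 * m : ℝ)) ^ (spt ξ).card * ‖c ξ‖ ^ 2
        ≤ (1 / (48 * m : ℝ)) ^ (spt ξ).card *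
          ((1 - l₀) ^ (spt ξ).card * om pr lam ξ * ‖c₁ ξ‖ ^ 2) :=
          mul_le_mul_of_nonneg_left (hcsq ξ) (by positivity)
      _ = ρ ^ (spt ξ).card * om pr lam ξ * ‖c₁ ξ‖ ^ 2 := by
          have : ρ ^ (spt ξ).card = (1 / (48 * m : ℝ)) ^ (spt ξ).card *
              (1 - l₀) ^ (spt ξ).card := by
            rw [← mul_pow, hρ]
            congr 1
            ring
          rw [this]
          ring
  -- moment comparison
  have hmom := moment_compare2 hcop m T hm hT K R hR hRc x₀ u v ν a huv hν ha0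
    (fun ξ => ((wt pr lam ρ ξ : ℝ) : ℂ) * c₁ ξ)
    (by
      intro ξ
      rw [norm_mul, Complex.norm_real, Real.norm_eq_abs, abs_of_nonneg (hwt0 ξ)]
      refine (mul_le_mul_of_nonneg_right (hwt1 ξ) (norm_nonneg _)).trans
        (by rw [one_mul]; exact hc₁a ξ))
    (by
      intro ξ hne
      by_contra h
      apply hne
      simp only [hc₁]
      rw [if_neg h, mul_zero])
  have hGpos : (0 : ℝ) < (Fintype.card (∀ i, ZMod (N i)) : ℝ) := by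
    exact_mod_cast Fintype.card_pos
  have hE2 : (∑ x : ∀ i, ZMod (N i), ‖∑ ξ, ((wt pr lam ρ ξ : ℝ) : ℂ) * c₁ ξ *
      chi ξ x‖ ^ (2 * m)) / (Fintype.card (∀ i, ZMod (N i)) : ℝ) ≤ Φ ^ m := by
    rw [div_le_iff₀ hGpos]
    have h1 : ∀ x : ∀ i, ZMod (N i), ∑ ξ, ((wt pr lam ρ ξ : ℝ) : ℂ) * c₁ ξ * chi ξ x =
        ∑ ξ, (((1 / (48 * m : ℝ)) ^ (spt ξ).card : ℝ) : ℂ) * c ξ * chi ξ x := by
      intro x
      refine Finset.sum_congr rfl fun ξ _ => ?_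
      rw [hcw ξ]
    simp_rw [h1]
    refine hE.trans ?_
    have : Φ ^ m = Φ ^ (m - 1) * Φ := by
      rw [← pow_succ]; congr 1; omega
    rw [this, mul_comm]
    exact mul_le_mul_of_nonneg_right (mul_le_mul_of_nonneg_left hcΦ (by positivity)) hGpos.le
  have hhol := l2_holder R ν hν0 x₀ u v φ hφ hφ1 (fun n hn => (hsup n hn).2.2) c₁ hcor
    (wt pr lam ρ) hwt0 a hsum (2 * m) (by omega)
  rw [← hΦdef] at hhol
  refine al_final m hm a Φ ha hcon (hhol.trans ?_)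
  refine mul_le_mul_of_nonneg_left ?_ (by positivity)
  refine hmom.trans ?_
  linarith

end Vale.Agent.P042.GS
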