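import Vale.Agent.P042.FS.ArithLevel
import Vale.Agent.P042.GS.Defs

/-! Helper lemmas for `Level2.lean` (helper23): sums over frequencies of exact order. -/

namespace Vale.Agent.P042.GS

open Finset Vale.Agent.P042.FS

lemma l2_card_G (p e j : ℕ) (hj : j ≤ e) (n : ℕ) [NeZero n] (hn : n = p ^ e) :
    (univ.filter (fun t : ZMod n => ((p ^ j : ℕ) : ZMod n) * t = 0)).card = p ^ j := by
  subst hn
  have h := IsAddCyclic.card_nsmulAddMonoidHom_ker (G := ZMod (p ^ e)) (p ^ j)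
  rw [Nat.card_zmod, Nat.gcd_eq_right (pow_dvd_pow p hj)] at h
  rw [Nat.card_eq_fintype_card] at h
  have h2 : (univ.filter (fun t : ZMod (p ^ e) => ((p ^ j : ℕ) : ZMod (p ^ e)) * t = 0)).card =
      Fintype.card (nsmulAddMonoidHom (p ^ j) : ZMod (p ^ e) →+ ZMod (p ^ e)).ker := by
    rw [← Fintype.card_coe]
    refine Fintype.card_congr (Equiv.subtypeEquivRight fun t => ?_)
    rw [mem_filter, AddMonoidHom.mem_ker, nsmulAddMonoidHom_apply, nsmul_eq_mul]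
    simp
  rw [h2, h]

lemma l2_sum_G (p e j : ℕ) (hp : p.Prime) (hj : j ≤ e) (n : ℕ) [NeZero n] (hn : n = p ^ e)
    (b : ℤ) :
    ∑ t ∈ univ.filter (fun t : ZMod n => ((p ^ j : ℕ) : ZMod n) * t = 0),
      (ZMod.stdAddChar (t * (b : ZMod n)) : ℂ) =
      if ((p ^ j : ℕ) : ℤ) ∣ b then ((p ^ j : ℕ) : ℂ) else 0 := by
  split_ifs with h
  · obtain ⟨b', rfl⟩ := h
    rw [Finset.sum_congr rfl (g := fun _ => (1 : ℂ))]
    · rw [sum_const, l2_card_G p e j hj n hn]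
      simp
    · intro t ht
      rw [mem_filter] at ht
      have : t * (((((p ^ j : ℕ) : ℤ) * b' : ℤ)) : ZMod n) = 0 := by
        calc t * (((((p ^ j : ℕ) : ℤ) * b' : ℤ)) : ZMod n)
            = (((p ^ j : ℕ) : ZMod n) * t) * (b' : ZMod n) := by push_cast; ring
          _ = 0 := by rw [ht.2, zero_mul]
      rw [this, AddChar.map_zero_eq_one]
  · set t0 : ZMod n := ((p ^ (e - j) : ℕ) : ZMod n) with ht0
    have hG : ((p ^ j : ℕ) : ZMod n) * t0 = 0 := by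
      rw [ht0, ← Nat.cast_mul, ← pow_add, Nat.add_sub_cancel' hj, ← hn, ZMod.natCast_self]
    have hne : (ZMod.stdAddChar (t0 * (b : ZMod n)) : ℂ) ≠ 1 := by
      intro h1
      rw [← AddChar.map_zero_eq_one (ZMod.stdAddChar : AddChar (ZMod n) ℂ)] at h1
      have h2 := ZMod.injective_stdAddChar h1
      apply h
      have h3 : ((((p ^ (e - j) : ℕ) : ℤ) * b : ℤ) : ZMod n) = 0 := by
        push_cast
        rw [ht0] at h2
        push_cast at h2
        exact h2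
      rw [ZMod.intCast_zmod_eq_zero_iff_dvd, hn] at h3
      have h4 : ((p ^ e : ℕ) : ℤ) = ((p ^ (e - j) : ℕ) : ℤ) * ((p ^ j : ℕ) : ℤ) := by
        rw [← Nat.cast_mul, ← pow_add, Nat.sub_add_cancel hj]
      rw [h4] at h3
      refine Int.dvd_of_mul_dvd_mul_left ?_ h3
      have := hp.pos
      positivity
    set Sg := ∑ t ∈ univ.filter (fun t : ZMod n => ((p ^ j : ℕ) : ZMod n) * t = 0),
      (ZMod.stdAddChar (t * (b : ZMod n)) : ℂ) with hSg
    have h1 : Sg = (ZMod.stdAddChar (t0 * (b : ZMod n)) : ℂ) * Sg := by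
      rw [hSg, mul_sum]
      refine Finset.sum_equiv (Equiv.subRight t0) ?_ ?_
      · intro t
        simp only [mem_filter, mem_univ, true_and, Equiv.subRight_apply, mul_sub, hG, sub_zero]
      · intro t _
        rw [← AddChar.map_add_eq_mul]
        congr 1
        simp only [Equiv.subRight_apply]
        ring
    have h2 : (1 - (ZMod.stdAddChar (t0 * (b : ZMod n)) : ℂ)) * Sg = 0 := by
      rw [sub_mul, one_mul, ← h1, sub_self]
    exact (mul_eq_zero.mp h2).resolve_left (sub_ne_zero.mpr hne.symm)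

lemma l2_order_iff (p j : ℕ) (hp : p.Prime) (hj : 1 ≤ j) (n : ℕ) [NeZero n] (t : ZMod n) :
    addOrderOf t = p ^ j ↔ ((p ^ j : ℕ) : ZMod n) * t = 0 ∧ ¬ ((p ^ (j - 1) : ℕ) : ZMod n) * t = 0 := by
  have : Fact p.Prime := ⟨hp⟩
  constructor
  · intro h
    constructor
    · rw [← nsmul_eq_mul, ← addOrderOf_dvd_iff_nsmul_eq_zero, h]
    · rw [← nsmul_eq_mul, ← addOrderOf_dvd_iff_nsmul_eq_zero, h]
      intro h1
      have := (Nat.pow_dvd_pow_iff_le_right hp.one_lt).mp h1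
      omega
  · rintro ⟨h1, h2⟩
    rw [← nsmul_eq_mul] at h1 h2
    obtain ⟨k, rfl⟩ : ∃ k, j = k + 1 := ⟨j - 1, by omega⟩
    rw [Nat.add_sub_cancel] at h2
    exact addOrderOf_eq_prime_pow h2 h1

lemma l2_sum_O (p e j : ℕ) (hp : p.Prime) (hj1 : 1 ≤ j) (hj : j ≤ e) (n : ℕ) [NeZero n]
    (hn : n = p ^ e) (b : ℤ) :
    ∑ t ∈ univ.filter (fun t : ZMod n => addOrderOf t = p ^ j),
      (ZMod.stdAddChar (t * (b : ZMod n)) : ℂ) =
      (if ((p ^ j : ℕ) : ℤ) ∣ b then ((p ^ j : ℕ) : ℂ) else 0) +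
      -(if ((p ^ (j - 1) : ℕ) : ℤ) ∣ b then ((p ^ (j - 1) : ℕ) : ℂ) else 0) := by
  rw [← l2_sum_G p e j hp hj n hn b, ← l2_sum_G p e (j - 1) hp (by omega) n hn b]
  rw [← Finset.sum_filter_add_sum_filter_not
    (univ.filter (fun t : ZMod n => ((p ^ j : ℕ) : ZMod n) * t = 0))
    (fun t => ((p ^ (j - 1) : ℕ) : ZMod n) * t = 0)]
  have h1 : (univ.filter (fun t : ZMod n => ((p ^ j : ℕ) : ZMod n) * t = 0)).filter
      (fun t => ((p ^ (j - 1) : ℕ) : ZMod n) * t = 0) =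
      univ.filter (fun t : ZMod n => ((p ^ (j - 1) : ℕ) : ZMod n) * t = 0) := by
    ext t
    simp only [mem_filter, mem_univ, true_and, and_iff_right_iff_imp]
    intro h
    have : p ^ j = p * p ^ (j - 1) := by rw [← pow_succ']; congr 1; omega
    rw [this, Nat.cast_mul, mul_assoc, h, mul_zero]
  have h2 : (univ.filter (fun t : ZMod n => ((p ^ j : ℕ) : ZMod n) * t = 0)).filter
      (fun t => ¬ ((p ^ (j - 1) : ℕ) : ZMod n) * t = 0) =
      univ.filter (fun t : ZMod n => addOrderOf t = p ^ j) := by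
    ext t
    simp only [mem_filter, mem_univ, true_and]
    exact (l2_order_iff p j hp hj1 n t).symm
  rw [h1, h2]
  ring

variable {ι : Type} [Fintype ι] [DecidableEq ι] {N : ι → ℕ} [∀ i, NeZero (N i)]

/-- frequencies with prescribed exact orders on `S` -/
noncomputable def fibj (pr : ι → ℕ) (S : Finset ι) (j : ι → ℕ) (ξ' : ∀ i, ZMod (N i)) :
    Finset (∀ i, ZMod (N i)) :=
  univ.filter (fun ξ : ∀ i, ZMod (N i) =>
    (∀ i ∈ S, addOrderOf (ξ i) = pr i ^ j i) ∧ ∀ i, i ∉ S → ξ i = ξ' i)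

lemma fibj_eq (pr : ι → ℕ) (S : Finset ι) (j : ι → ℕ) (ξ' : ∀ i, ZMod (N i)) :
    fibj pr S j ξ' = Fintype.piFinset (fun i => if i ∈ S then
      univ.filter (fun z : ZMod (N i) => addOrderOf z = pr i ^ j i) else {ξ' i}) := by
  ext ξ
  simp only [fibj, mem_filter, mem_univ, true_and, Fintype.mem_piFinset]
  constructor
  · rintro ⟨h1, h2⟩ i
    by_cases h : i ∈ S
    · simp [h, h1 i h]
    · simp [h, h2 i h]
  · intro h
    refine ⟨fun i hi => ?_, fun i hi => ?_⟩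
    · have := h i
      simpa [hi] using this
    · have := h i
      simpa [hi] using this

/-- exponent with `ε` subtracted -/
def hh (S' : Finset ι) (j : ι → ℕ) (i : ι) : ℕ := if i ∈ S' then j i else j i - 1

/-- restriction of `φ` to residue classes -/
noncomputable def resψ (pr : ι → ℕ) (S : Finset ι) (h : ι → ℕ) (x : ∀ i, ZMod (N i)) (φ : ℤ → ℝ)
    (n : ℤ) : ℝ :=
  if ∀ i ∈ S, ((pr i ^ h i : ℕ) : ℤ) ∣ (((x i).val : ℤ) - n) then φ n else 0

lemma l2_fiber_sum (pr e : ι → ℕ) (hpr : ∀ i, (pr i).Prime) (hN : ∀ i, N i = pr i ^ e i)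
    (S : Finset ι) (j : ι → ℕ) (hj : ∀ i ∈ S, 1 ≤ j i ∧ j i ≤ e i)
    (ξ' x : ∀ i, ZMod (N i)) (h0 : ∀ i ∈ S, ξ' i = 0) (n : ℤ) :
    ∑ ξ ∈ fibj pr S j ξ', (starRingEnd ℂ) (chi ξ (toX N n)) * chiS S ξ x =
      (starRingEnd ℂ) (chi ξ' (toX N n)) * ∏ i ∈ S,
        ((if ((pr i ^ j i : ℕ) : ℤ) ∣ (((x i).val : ℤ) - n) then ((pr i ^ j i : ℕ) : ℂ) else 0) +
        -(if ((pr i ^ (j i - 1) : ℕ) : ℤ) ∣ (((x i).val : ℤ) - n) then
          ((pr i ^ (j i - 1) : ℕ) : ℂ) else 0)) := by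
  rw [fibj_eq]
  have h1 : ∀ ξ : ∀ i, ZMod (N i), (starRingEnd ℂ) (chi ξ (toX N n)) * chiS S ξ x =
      ∏ i, (if i ∈ S then (ZMod.stdAddChar (ξ i * (((((x i).val : ℤ) - n : ℤ)) : ZMod (N i))) : ℂ)
        else ZMod.stdAddChar (-(ξ i * (n : ZMod (N i))))) := by
    intro ξ
    rw [al_chiS_eq, chi, map_prod, ← Finset.prod_mul_distrib]
    refine Finset.prod_congr rfl fun i _ => ?_
    rw [al_conj_std]
    by_cases h : i ∈ S
    · simp only [h, if_true]
      rw [← AddChar.map_add_eq_mul]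
      congr 1
      push_cast
      rw [ZMod.natCast_zmod_val]
      simp only [toX]
      ring
    · simp [h, toX]
  rw [Finset.sum_congr rfl fun ξ _ => h1 ξ]
  have h2 := Finset.prod_univ_sum
    (t := fun i => if i ∈ S then univ.filter (fun z : ZMod (N i) => addOrderOf z = pr i ^ j i)
      else {ξ' i})
    (f := fun i (z : ZMod (N i)) => (if i ∈ S then
        (ZMod.stdAddChar (z * (((((x i).val : ℤ) - n : ℤ)) : ZMod (N i))) : ℂ)
        else ZMod.stdAddChar (-(z * (n : ZMod (N i))))))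
  rw [← h2]
  have h4 : ∏ i ∈ S,
        ((if ((pr i ^ j i : ℕ) : ℤ) ∣ (((x i).val : ℤ) - n) then ((pr i ^ j i : ℕ) : ℂ) else 0) +
        -(if ((pr i ^ (j i - 1) : ℕ) : ℤ) ∣ (((x i).val : ℤ) - n) then
          ((pr i ^ (j i - 1) : ℕ) : ℂ) else 0)) =
      ∏ i, (if i ∈ S then
        ((if ((pr i ^ j i : ℕ) : ℤ) ∣ (((x i).val : ℤ) - n) then ((pr i ^ j i : ℕ) : ℂ) else 0) +
        -(if ((pr i ^ (j i - 1) : ℕ) : ℤ) ∣ (((x i).val : ℤ) - n) then
          ((pr i ^ (j i - 1) : ℕ) : ℂ) else 0)) else 1) := by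
    rw [Finset.prod_ite_mem]; simp
  rw [h4, chi, map_prod, ← Finset.prod_mul_distrib]
  refine Finset.prod_congr rfl fun i _ => ?_
  rw [al_conj_std]
  by_cases h : i ∈ S
  · simp only [h, if_true]
    rw [l2_sum_O (pr i) (e i) (j i) (hpr i) (hj i h).1 (hj i h).2 (N i) (hN i), h0 i h]
    simp
  · simp [h, toX]

lemma l2_expand (pr e : ι → ℕ) (hpr : ∀ i, (pr i).Prime) (hN : ∀ i, N i = pr i ^ e i)
    (S : Finset ι) (j : ι → ℕ) (hj : ∀ i ∈ S, 1 ≤ j i ∧ j i ≤ e i)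
    (ξ' x : ∀ i, ZMod (N i)) (h0 : ∀ i ∈ S, ξ' i = 0) (R : ℕ) (ν : ℝ) (u v : ℤ) (φ : ℤ → ℝ) :
    ∑ ξ ∈ fibj pr S j ξ', fco R ν u v φ ξ * chiS S ξ x =
      ∑ S' ∈ S.powerset, (-1) ^ (S \ S').card *
        fco (R * ∏ i ∈ S, pr i ^ hh S' j i) ν u v (resψ pr S (hh S' j) x φ) ξ' := by
  have h1 : ∀ ξ : ∀ i, ZMod (N i), fco R ν u v φ ξ * chiS S ξ x =
      ∑ n ∈ Ico u v, ((R / ν : ℝ) : ℂ) * (φ n : ℂ) *
        ((starRingEnd ℂ) (chi ξ (toX N n)) * chiS S ξ x) := by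
    intro ξ
    rw [fco, Finset.mul_sum, Finset.sum_mul]
    exact Finset.sum_congr rfl fun n _ => by ring
  rw [Finset.sum_congr rfl fun ξ _ => h1 ξ, Finset.sum_comm]
  have h2 : ∀ n : ℤ, ∑ ξ ∈ fibj pr S j ξ', ((R / ν : ℝ) : ℂ) * (φ n : ℂ) *
        ((starRingEnd ℂ) (chi ξ (toX N n)) * chiS S ξ x) =
      ∑ S' ∈ S.powerset, (-1) ^ (S \ S').card *
        (((((R * ∏ i ∈ S, pr i ^ hh S' j i : ℕ) : ℝ) / ν : ℝ) : ℂ) *
        ((resψ pr S (hh S' j) x φ n : ℂ) * (starRingEnd ℂ) (chi ξ' (toX N n)))) := by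
    intro n
    rw [← Finset.mul_sum, l2_fiber_sum pr e hpr hN S j hj ξ' x h0 n, Finset.prod_add]
    have h3 : ∀ S' ∈ S.powerset, (∏ i ∈ S', (if ((pr i ^ j i : ℕ) : ℤ) ∣ (((x i).val : ℤ) - n) then
          ((pr i ^ j i : ℕ) : ℂ) else 0)) * ∏ i ∈ S \ S',
          -(if ((pr i ^ (j i - 1) : ℕ) : ℤ) ∣ (((x i).val : ℤ) - n) then
          ((pr i ^ (j i - 1) : ℕ) : ℂ) else 0) =
        (-1) ^ (S \ S').card * (if ∀ i ∈ S, ((pr i ^ hh S' j i : ℕ) : ℤ) ∣ (((x i).val : ℤ) - n)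
          then ((∏ i ∈ S, pr i ^ hh S' j i : ℕ) : ℂ) else 0) := by
      intro S' hS'
      rw [mem_powerset] at hS'
      have e1 : ∏ i ∈ S \ S', -(if ((pr i ^ (j i - 1) : ℕ) : ℤ) ∣ (((x i).val : ℤ) - n) then
          ((pr i ^ (j i - 1) : ℕ) : ℂ) else 0) = (-1) ^ (S \ S').card * ∏ i ∈ S \ S',
          (if ((pr i ^ hh S' j i : ℕ) : ℤ) ∣ (((x i).val : ℤ) - n) then
          ((pr i ^ hh S' j i : ℕ) : ℂ) else 0) := by
        rw [← Finset.prod_const, ← Finset.prod_mul_distrib]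
        refine Finset.prod_congr rfl fun i hi => ?_
        have : hh S' j i = j i - 1 := by
          unfold hh
          rw [if_neg (mem_sdiff.mp hi).2]
        rw [this]
        ring
      have e2 : ∏ i ∈ S', (if ((pr i ^ j i : ℕ) : ℤ) ∣ (((x i).val : ℤ) - n) then
          ((pr i ^ j i : ℕ) : ℂ) else 0) = ∏ i ∈ S',
          (if ((pr i ^ hh S' j i : ℕ) : ℤ) ∣ (((x i).val : ℤ) - n) then
          ((pr i ^ hh S' j i : ℕ) : ℂ) else 0) := by
        refine Finset.prod_congr rfl fun i hi => ?_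
        have : hh S' j i = j i := by
          unfold hh
          rw [if_pos hi]
        rw [this]
      have e3 : (if ∀ i ∈ S, ((pr i ^ hh S' j i : ℕ) : ℤ) ∣ (((x i).val : ℤ) - n)
          then ((∏ i ∈ S, pr i ^ hh S' j i : ℕ) : ℂ) else 0) = ∏ i ∈ S,
          (if ((pr i ^ hh S' j i : ℕ) : ℤ) ∣ (((x i).val : ℤ) - n) then
          ((pr i ^ hh S' j i : ℕ) : ℂ) else 0) := by
        rw [Finset.prod_ite_zero]
        push_cast
        rfl
      rw [e1, e2, e3, ← Finset.prod_sdiff hS']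
      ring
    rw [Finset.sum_congr rfl h3, Finset.mul_sum, Finset.mul_sum]
    refine Finset.sum_congr rfl fun S' _ => ?_
    unfold resψ
    split_ifs with h
    · push_cast
      ring
    · push_cast
      ring
  rw [Finset.sum_congr rfl fun n _ => h2 n, Finset.sum_comm]
  refine Finset.sum_congr rfl fun S' _ => ?_
  rw [fco, Finset.mul_sum, Finset.mul_sum]

end Vale.Agent.P042.GS
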