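import Vale.Agent.P042.GS.Level2A

/-! Helper lemmas for `Level2.lean` (helper23): use of the induction hypothesis. -/

namespace Vale.Agent.P042.GS

open Finset Vale.Agent.P042.FS

variable {ι : Type} [Fintype ι] [DecidableEq ι] {N : ι → ℕ} [∀ i, NeZero (N i)]

/-- the inductive statement -/
def L2Stat (N : ι → ℕ) [∀ i, NeZero (N i)] (pr : ι → ℕ) (lam : ι → ℝ) (l₀ : ℝ) (m T : ℕ) : Prop :=
  ∀ (K : Finset ι) (R : ℕ) (_ : 1 ≤ R) (_ : ∀ i ∈ K, Nat.Coprime R (N i)) (x₀ u v : ℤ)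
    (ν a : ℝ) (_ : ((v - u : ℤ) : ℝ) ≤ ν + 1) (_ : (R : ℝ) * (2 * T) ^ (8 * m) ≤ ν)
    (φ : ℤ → ℝ) (_ : ∀ n, 0 ≤ φ n) (_ : ∀ n, φ n ≤ 1)
    (_ : ∀ n, φ n ≠ 0 → u ≤ n ∧ n < v ∧ n ≡ x₀ [ZMOD R])
    (_ : Real.exp (-(2 * m : ℝ)) ≤ a)
    (_ : ∀ M : ℕ, 1 ≤ M → M ≤ T → Nat.Coprime M R → ∀ z : ℤ,
      (R * M : ℝ) / ν * ∑ n ∈ (Ico u v).filter (fun n => n ≡ z [ZMOD M]), φ n ≤ a),
    ∑ ξ ∈ univ.filter (fun ξ : ∀ i, ZMod (N i) => spt ξ ⊆ K ∧ dn ξ ≤ T),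
      wt pr lam ((1 - l₀) / (48 * m)) ξ * ‖fco R ν u v φ ξ‖ ^ 2 ≤ 25 * a ^ 2

omit [Fintype ι] [DecidableEq ι] in
lemma l2_crt (pr : ι → ℕ) (hpr : ∀ i, (pr i).Prime) (hinj : Function.Injective pr)
    (S : Finset ι) (h : ι → ℕ) (M : ℕ) (hM : ∀ i ∈ S, Nat.Coprime M (pr i ^ h i)) (n n' : ℤ)
    (h1 : n ≡ n' [ZMOD M]) (X : ι → ℤ) (h2 : ∀ i ∈ S, ((pr i ^ h i : ℕ) : ℤ) ∣ X i - n)
    (h3 : ∀ i ∈ S, ((pr i ^ h i : ℕ) : ℤ) ∣ X i - n') :
    n ≡ n' [ZMOD ((M * ∏ i ∈ S, pr i ^ h i : ℕ) : ℤ)] := by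
  rw [Int.modEq_iff_dvd] at h1 ⊢
  rw [Nat.cast_mul, Nat.cast_prod]
  refine IsCoprime.mul_dvd ?_ h1 ?_
  · refine IsCoprime.prod_right fun i hi => ?_
    exact Nat.isCoprime_iff_coprime.mpr (hM i hi)
  · refine Finset.prod_dvd_of_coprime ?_ fun i hi => ?_
    · intro i _ j _ hij
      exact Nat.isCoprime_iff_coprime.mpr (Nat.Coprime.pow _ _
        ((Nat.coprime_primes (hpr i) (hpr j)).mpr (fun h => hij (hinj h))))
    · have := dvd_sub (h2 i hi) (h3 i hi)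
      have e : X i - n - (X i - n') = n' - n := by ring
      rwa [e] at this

lemma l2_ih (pr e : ι → ℕ) (hpr : ∀ i, (pr i).Prime) (hinj : Function.Injective pr)
    (hN : ∀ i, N i = pr i ^ e i) (lam : ι → ℝ) (l₀ : ℝ) (m : ℕ) (hm : 1 ≤ m) (T : ℕ)
    (K : Finset ι) (R : ℕ) (hR : 1 ≤ R)
    (hRc : ∀ i ∈ K, Nat.Coprime R (N i)) (x₀ u v : ℤ) (ν a : ℝ)
    (huv : ((v - u : ℤ) : ℝ) ≤ ν + 1) (hν : (R : ℝ) * (2 * T) ^ (8 * m) ≤ ν)
    (φ : ℤ → ℝ) (hφ : ∀ n, 0 ≤ φ n) (hφ1 : ∀ n, φ n ≤ 1)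
    (hsup : ∀ n, φ n ≠ 0 → u ≤ n ∧ n < v ∧ n ≡ x₀ [ZMOD R])
    (ha : Real.exp (-(2 * m : ℝ)) ≤ a)
    (hNI : ∀ M : ℕ, 1 ≤ M → M ≤ T → Nat.Coprime M R → ∀ z : ℤ,
      (R * M : ℝ) / ν * ∑ n ∈ (Ico u v).filter (fun n => n ≡ z [ZMOD M]), φ n ≤ a)
    (S : Finset ι) (hSK : S ⊆ K) (j : ι → ℕ) (hj : ∀ i ∈ S, 1 ≤ j i ∧ j i ≤ e i)
    (ih : L2Stat N pr lam l₀ m (T / ∏ i ∈ S, pr i ^ j i)) (h : ι → ℕ)
    (hhj : ∀ i ∈ S, h i ≤ j i) (x : ∀ i, ZMod (N i)) :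
    ∑ ξ ∈ univ.filter (fun ξ : ∀ i, ZMod (N i) => spt ξ ⊆ K \ S ∧
        dn ξ ≤ T / ∏ i ∈ S, pr i ^ j i), wt pr lam ((1 - l₀) / (48 * m)) ξ *
        ‖fco (R * ∏ i ∈ S, pr i ^ h i) ν u v (resψ pr S h x φ) ξ‖ ^ 2 ≤ 25 * a ^ 2 := by
  have ha0 : 0 < a := lt_of_lt_of_le (Real.exp_pos _) ha
  set q := ∏ i ∈ S, pr i ^ j i with hq
  set q' := ∏ i ∈ S, pr i ^ h i with hq'
  have hq1 : 1 ≤ q := Finset.one_le_prod' fun i _ => Nat.one_le_pow _ _ (hpr i).pos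
  have hq'1 : 1 ≤ q' := Finset.one_le_prod' fun i _ => Nat.one_le_pow _ _ (hpr i).pos
  have hqq : q' ≤ q := Finset.prod_le_prod' fun i hi => Nat.pow_le_pow_right (hpr i).pos (hhj i hi)
  have hRp : ∀ i ∈ S, Nat.Coprime R (pr i ^ h i) := by
    intro i hi
    refine Nat.Coprime.coprime_dvd_right ?_ (hRc i (hSK hi))
    rw [hN i]
    exact pow_dvd_pow _ ((hhj i hi).trans (hj i hi).2)
  have hmem : ∀ n, resψ pr S h x φ n ≠ 0 → φ n ≠ 0 ∧
      ∀ i ∈ S, ((pr i ^ h i : ℕ) : ℤ) ∣ (((x i).val : ℤ) - n) := by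
    intro n hn
    unfold resψ at hn
    split_ifs at hn with h1
    · exact ⟨hn, h1⟩
    · exact absurd rfl hn
  obtain ⟨x₁, hx₁⟩ : ∃ x₁ : ℤ, ∀ n, resψ pr S h x φ n ≠ 0 →
      n ≡ x₁ [ZMOD ((R * q' : ℕ) : ℤ)] := by
    by_cases hex : ∃ n, resψ pr S h x φ n ≠ 0
    · obtain ⟨n₁, hn₁⟩ := hex
      refine ⟨n₁, fun n hn => ?_⟩
      exact l2_crt pr hpr hinj S h R hRp n n₁
        ((hsup n (hmem n hn).1).2.2.trans (hsup n₁ (hmem n₁ hn₁).1).2.2.symm)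
        (fun i => ((x i).val : ℤ)) (hmem n hn).2 (hmem n₁ hn₁).2
    · push Not at hex
      exact ⟨0, fun n hn => absurd (hex n) hn⟩
  refine ih (K \ S) (R * q') (Nat.mul_pos hR hq'1) ?_ x₁ u v ν a huv ?_
    (resψ pr S h x φ) ?_ ?_ ?_ ha ?_
  · intro i hi
    rw [mem_sdiff] at hi
    refine Nat.Coprime.mul_left (hRc i hi.1) ?_
    refine Nat.Coprime.prod_left fun k hk => ?_
    rw [hN i]
    exact Nat.Coprime.pow _ _ ((Nat.coprime_primes (hpr k) (hpr i)).mpr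
      (fun h => hi.2 (hinj h ▸ hk)))
  · have h8 : 1 ≤ 8 * m := by omega
    have h1 : q * (2 * (T / q)) ^ (8 * m) ≤ (2 * T) ^ (8 * m) := by
      calc q * (2 * (T / q)) ^ (8 * m) ≤ q ^ (8 * m) * (2 * (T / q)) ^ (8 * m) :=
            Nat.mul_le_mul_right _ (Nat.le_self_pow (by omega) q)
        _ = (2 * (q * (T / q))) ^ (8 * m) := by rw [← mul_pow]; congr 1; ring
        _ ≤ (2 * T) ^ (8 * m) := Nat.pow_le_pow_left
            (Nat.mul_le_mul_left 2 (Nat.mul_div_le T q)) _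
    have h2 : R * q' * (2 * (T / q)) ^ (8 * m) ≤ R * (2 * T) ^ (8 * m) := by
      calc R * q' * (2 * (T / q)) ^ (8 * m) ≤ R * q * (2 * (T / q)) ^ (8 * m) :=
            Nat.mul_le_mul_right _ (Nat.mul_le_mul_left R hqq)
        _ = R * (q * (2 * (T / q)) ^ (8 * m)) := by ring
        _ ≤ R * (2 * T) ^ (8 * m) := Nat.mul_le_mul_left R h1
    have h3 : ((R * q' * (2 * (T / q)) ^ (8 * m) : ℕ) : ℝ) ≤ ((R * (2 * T) ^ (8 * m) : ℕ) : ℝ) := by
      exact_mod_cast h2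
    rw [Nat.cast_mul, Nat.cast_mul (R) ((2 * T) ^ (8 * m)), Nat.cast_pow, Nat.cast_pow,
      Nat.cast_mul 2 (T / q), Nat.cast_mul 2 T, Nat.cast_ofNat] at h3
    exact h3.trans hν
  · intro n
    unfold resψ
    split_ifs
    · exact hφ n
    · exact le_refl _
  · intro n
    unfold resψ
    split_ifs
    · exact hφ1 n
    · exact zero_le_one
  · intro n hn
    have h0 := hsup n (hmem n hn).1
    exact ⟨h0.1, h0.2.1, hx₁ n hn⟩
  · intro M hM1 hMT hMR z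
    have hMR' : Nat.Coprime M R := Nat.Coprime.coprime_mul_right_right hMR
    have hMq : Nat.Coprime M q' := Nat.Coprime.coprime_mul_left_right hMR
    have hMi : ∀ i ∈ S, Nat.Coprime M (pr i ^ h i) := fun i hi =>
      Nat.Coprime.coprime_dvd_right (Finset.dvd_prod_of_mem (fun i => pr i ^ h i) hi) hMq
    by_cases hex : ∃ n₀ : ℤ, n₀ ≡ z [ZMOD M] ∧
        ∀ i ∈ S, ((pr i ^ h i : ℕ) : ℤ) ∣ (((x i).val : ℤ) - n₀)
    · obtain ⟨n₀, hn₀, hn₀'⟩ := hex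
      have hMqT : M * q' ≤ T := by
        calc M * q' ≤ (T / q) * q := Nat.mul_le_mul hMT hqq
          _ ≤ T := Nat.div_mul_le_self T q
      have hcop : Nat.Coprime (M * q') R :=
        Nat.Coprime.mul_left hMR' (Nat.Coprime.prod_left fun i hi => (hRp i hi).symm)
      have h1 := hNI (M * q') (Nat.mul_pos hM1 hq'1) hMqT hcop n₀
      have h2 : ∑ n ∈ (Ico u v).filter (fun n => n ≡ z [ZMOD M]), resψ pr S h x φ n ≤
          ∑ n ∈ (Ico u v).filter (fun n => n ≡ n₀ [ZMOD ((M * q' : ℕ) : ℤ)]), φ n := by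
        rw [Finset.sum_filter, Finset.sum_filter]
        refine Finset.sum_le_sum fun n _ => ?_
        by_cases h3 : n ≡ z [ZMOD M]
        · rw [if_pos h3]
          by_cases h4 : ∀ i ∈ S, ((pr i ^ h i : ℕ) : ℤ) ∣ (((x i).val : ℤ) - n)
          · have h5 := l2_crt pr hpr hinj S h M hMi n n₀ (h3.trans hn₀.symm)
              (fun i => ((x i).val : ℤ)) h4 hn₀'
            rw [if_pos h5, resψ, if_pos h4]
          · rw [resψ, if_neg h4]
            split_ifs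
            · exact hφ n
            · exact le_refl _
        · rw [if_neg h3]
          split_ifs
          · exact hφ n
          · exact le_refl _
      have hν0 : 0 ≤ ν := le_trans (by positivity) hν
      calc ((R * q' : ℕ) : ℝ) * M / ν * ∑ n ∈ (Ico u v).filter (fun n => n ≡ z [ZMOD M]),
            resψ pr S h x φ n
          ≤ ((R * q' : ℕ) : ℝ) * M / ν *
            ∑ n ∈ (Ico u v).filter (fun n => n ≡ n₀ [ZMOD ((M * q' : ℕ) : ℤ)]), φ n :=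
            mul_le_mul_of_nonneg_left h2 (by positivity)
        _ = (R * (M * q' : ℕ) : ℝ) / ν *
            ∑ n ∈ (Ico u v).filter (fun n => n ≡ n₀ [ZMOD ((M * q' : ℕ) : ℤ)]), φ n := by
            push_cast; ring
        _ ≤ a := h1
    · have h2 : ∑ n ∈ (Ico u v).filter (fun n => n ≡ z [ZMOD M]), resψ pr S h x φ n = 0 := by
        refine Finset.sum_eq_zero fun n hn => ?_
        rw [mem_filter] at hn
        rw [resψ, if_neg (fun h4 => hex ⟨n, hn.2, h4⟩)]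
      rw [h2, mul_zero]
      exact ha0.le

/-- damping weight of a frequency -/
noncomputable def om (pr : ι → ℕ) (lam : ι → ℝ) (ξ : ∀ i, ZMod (N i)) : ℝ :=
  ∏ i ∈ spt ξ, lam i ^ ((addOrderOf (ξ i)).factorization (pr i) - 1)

omit [DecidableEq ι] [∀ i, NeZero (N i)] in
lemma wt_eq (pr : ι → ℕ) (lam : ι → ℝ) (ρ : ℝ) (ξ : ∀ i, ZMod (N i)) :
    wt pr lam ρ ξ = ρ ^ (spt ξ).card * om pr lam ξ := by
  rw [wt, om, Finset.prod_mul_distrib, Finset.prod_const]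

omit [DecidableEq ι] [∀ i, NeZero (N i)] in
lemma om_nonneg (pr : ι → ℕ) (lam : ι → ℝ) (h : ∀ i, 0 ≤ lam i) (ξ : ∀ i, ZMod (N i)) :
    0 ≤ om pr lam ξ := Finset.prod_nonneg fun i _ => pow_nonneg (h i) _

omit [DecidableEq ι] [∀ i, NeZero (N i)] in
lemma om_le_one (pr : ι → ℕ) (lam : ι → ℝ) (h : ∀ i, 0 ≤ lam i) (h1 : ∀ i, lam i ≤ 1)
    (ξ : ∀ i, ZMod (N i)) : om pr lam ξ ≤ 1 :=
  Finset.prod_le_one (fun i _ => pow_nonneg (h i) _) fun i _ => pow_le_one₀ (h i) (h1 i)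

omit [DecidableEq ι] in
lemma dn_pos (ξ : ∀ i, ZMod (N i)) : 1 ≤ dn ξ :=
  Finset.one_le_prod' fun i _ => addOrderOf_pos (ξ i)

section fib

variable (pr e : ι → ℕ) (hpr : ∀ i, (pr i).Prime) (hN : ∀ i, N i = pr i ^ e i)
  (S : Finset ι) (j : ι → ℕ) (hj : ∀ i ∈ S, 1 ≤ j i) (ξ' ξ : ∀ i, ZMod (N i))
  (h0 : ∀ i ∈ S, ξ' i = 0) (hξ : ξ ∈ fibj pr S j ξ')

include hpr hj h0 hξ

lemma fib_spt : spt ξ = spt ξ' ∪ S ∧ Disjoint (spt ξ') S := by
  rw [fibj, mem_filter] at hξ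
  constructor
  · ext i
    simp only [spt, mem_filter, mem_univ, true_and, mem_union]
    by_cases h : i ∈ S
    · have h1 : ξ i ≠ 0 := by
        intro h2
        have h3 := hξ.2.1 i h
        rw [h2, addOrderOf_zero] at h3
        have h4 := Nat.one_lt_pow (show j i ≠ 0 by have := hj i h; omega) (hpr i).one_lt
        omega
      simp [h, h1]
    · simp [h, hξ.2.2 i h]
  · rw [Finset.disjoint_left]
    intro i hi hiS
    simp only [spt, mem_filter, mem_univ, true_and] at hi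
    exact hi (h0 i hiS)

omit hpr hj in
lemma fib_dn : dn ξ = dn ξ' * ∏ i ∈ S, pr i ^ j i := by
  rw [fibj, mem_filter] at hξ
  have h1 : ∏ i ∈ S, pr i ^ j i = ∏ i, (if i ∈ S then pr i ^ j i else 1) := by
    rw [Finset.prod_ite_mem]; simp
  rw [dn, dn, h1, ← Finset.prod_mul_distrib]
  refine Finset.prod_congr rfl fun i _ => ?_
  by_cases h : i ∈ S
  · rw [hξ.2.1 i h, h0 i h, if_pos h, addOrderOf_zero, one_mul]
  · rw [hξ.2.2 i h, if_neg h, mul_one]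

lemma fib_om (lam : ι → ℝ) : om pr lam ξ = om pr lam ξ' * ∏ i ∈ S, lam i ^ (j i - 1) := by
  obtain ⟨h1, h2⟩ := fib_spt pr hpr S j hj ξ' ξ h0 hξ
  rw [fibj, mem_filter] at hξ
  rw [om, h1, Finset.prod_union h2, om]
  congr 1
  · refine Finset.prod_congr rfl fun i hi => ?_
    rw [hξ.2.2 i (fun h => Finset.disjoint_left.mp h2 hi h)]
  · refine Finset.prod_congr rfl fun i hi => ?_
    rw [hξ.2.1 i hi, Nat.factorization_pow, Finsupp.smul_apply, (hpr i).factorization_self]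
    simp

end fib

/-- exponent patterns -/
def JJ (e : ι → ℕ) (S : Finset ι) : Finset (ι → ℕ) :=
  Fintype.piFinset (fun i => if i ∈ S then Icc 1 (e i) else {0})

lemma mem_JJ {e : ι → ℕ} {S : Finset ι} {j : ι → ℕ} (h : j ∈ JJ e S) :
    ∀ i ∈ S, 1 ≤ j i ∧ j i ≤ e i := by
  intro i hi
  have := (Fintype.mem_piFinset.mp h) i
  rw [if_pos hi, mem_Icc] at this
  exact this

lemma fib_split (pr e : ι → ℕ) (hpr : ∀ i, (pr i).Prime) (hN : ∀ i, N i = pr i ^ e i)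
    (S : Finset ι) (ξ' : ∀ i, ZMod (N i)) (g : (∀ i, ZMod (N i)) → ℂ) :
    ∑ ξ ∈ univ.filter (fun ξ : ∀ i, ZMod (N i) => (∀ i ∈ S, ξ i ≠ 0) ∧
        ∀ i, i ∉ S → ξ i = ξ' i), g ξ =
      ∑ j ∈ JJ e S, ∑ ξ ∈ fibj pr S j ξ', g ξ := by
  have hord : ∀ (i : ι) (t : ZMod (N i)), t ≠ 0 → addOrderOf t =
      pr i ^ (addOrderOf t).factorization (pr i) ∧ 1 ≤ (addOrderOf t).factorization (pr i) ∧
      (addOrderOf t).factorization (pr i) ≤ e i := by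
    intro i t ht
    have h1 : addOrderOf t ∣ pr i ^ e i := by
      rw [← hN i]
      have h2 := addOrderOf_dvd_card (x := t)
      rwa [ZMod.card] at h2
    obtain ⟨k, hk, hk2⟩ := (Nat.dvd_prime_pow (hpr i)).mp h1
    have h2 : (addOrderOf t).factorization (pr i) = k := by
      rw [hk2, Nat.factorization_pow, Finsupp.smul_apply, (hpr i).factorization_self]
      simp
    rw [h2]
    refine ⟨hk2, ?_, hk⟩
    rcases Nat.eq_zero_or_pos k with h | h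
    · rw [h, pow_zero] at hk2
      exact absurd (AddMonoid.addOrderOf_eq_one_iff.mp hk2) ht
    · exact h
  rw [← Finset.sum_fiberwise_of_maps_to
    (t := JJ e S) (g := fun ξ : ∀ i, ZMod (N i) => fun i =>
      if i ∈ S then (addOrderOf (ξ i)).factorization (pr i) else 0)]
  · refine Finset.sum_congr rfl fun j hjj => ?_
    refine Finset.sum_congr ?_ fun _ _ => rfl
    ext ξ
    simp only [mem_filter, mem_univ, true_and, fibj]
    constructor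
    · rintro ⟨⟨h1, h2⟩, h3⟩
      refine ⟨fun i hi => ?_, h2⟩
      have h4 := congrFun h3 i
      simp only [if_pos hi] at h4
      rw [← h4]
      exact (hord i (ξ i) (h1 i hi)).1
    · rintro ⟨h1, h2⟩
      have hj := mem_JJ hjj
      have h5 : ∀ i ∈ S, ξ i ≠ 0 := by
        intro i hi h3
        have h4 := h1 i hi
        rw [h3, addOrderOf_zero] at h4
        have h6 := Nat.one_lt_pow (show j i ≠ 0 by have := hj i hi; omega) (hpr i).one_lt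
        omega
      refine ⟨⟨h5, h2⟩, funext fun i => ?_⟩
      by_cases hi : i ∈ S
      · rw [if_pos hi, h1 i hi, Nat.factorization_pow, Finsupp.smul_apply,
          (hpr i).factorization_self]
        simp
      · rw [if_neg hi]
        have := (Fintype.mem_piFinset.mp hjj) i
        rw [if_neg hi, mem_singleton] at this
        exact this.symm
  · intro ξ hξ
    rw [mem_filter] at hξ
    rw [JJ, Fintype.mem_piFinset]
    intro i
    by_cases hi : i ∈ S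
    · rw [if_pos hi, if_pos hi, mem_Icc]
      exact (hord i (ξ i) (hξ.2.1 i hi)).2
    · rw [if_neg hi, if_neg hi, mem_singleton]

end Vale.Agent.P042.GS
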