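import Vale.Agent.P042.GS.Defs

namespace Vale.Agent.P042.GS

open Finset Vale.Agent.P042.FS

theorem ma_norm_ee (x : ℝ) : ‖ee x‖ = 1 := by
  unfold ee
  rw [show (2 * Real.pi * Complex.I * (x : ℂ) : ℂ) = Complex.I * ((2 * Real.pi * x : ℝ) : ℂ) by
    push_cast; ring]
  exact Complex.norm_exp_I_mul_ofReal _

theorem ma_ee_add (x y : ℝ) : ee (x + y) = ee x * ee y := by
  unfold ee
  rw [← Complex.exp_add]
  congr 1
  push_cast
  ring

theorem ma_ee_lip (x y : ℝ) : ‖ee x - ee y‖ ≤ 7 * |x - y| := by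
  have h1 : ee x - ee y = ee y * (ee (x - y) - 1) := by
    have : ee x = ee y * ee (x - y) := by
      rw [← ma_ee_add]
      congr 1
      ring
    rw [this]
    ring
  rw [h1, norm_mul, ma_norm_ee, one_mul]
  have h2 : ee (x - y) = Complex.exp (Complex.I * ((2 * Real.pi * (x - y) : ℝ) : ℂ)) := by
    unfold ee
    congr 1
    push_cast
    ring
  rw [h2]
  refine Real.norm_exp_I_mul_ofReal_sub_one_le.trans ?_
  rw [Real.norm_eq_abs, abs_mul, abs_of_pos (by positivity : (0 : ℝ) < 2 * Real.pi)]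
  refine mul_le_mul_of_nonneg_right ?_ (abs_nonneg _)
  have := Real.pi_lt_d2
  linarith

theorem ma_sum_range {q : ℕ} [NeZero q] (F : ZMod q → ℂ) :
    ∑ x ∈ range q, F (x : ZMod q) = ∑ x : ZMod q, F x := by
  refine Finset.sum_nbij' (fun x => (x : ZMod q)) (fun x => x.val) ?_ ?_ ?_ ?_ ?_
  · intro x _
    exact mem_univ _
  · intro x _
    exact mem_range.mpr (ZMod.val_lt x)
  · intro x hx
    exact ZMod.val_cast_of_lt (mem_range.mp hx)
  · intro x _
    exact ZMod.natCast_zmod_val x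
  · intro x _
    rfl

theorem ma_ee {q : ℕ} [NeZero q] (n : ℤ) : ee ((n : ℝ) / q) = (ZMod.stdAddChar ((n : ℤ) : ZMod q) : ℂ) := by
  rw [ZMod.stdAddChar_coe]
  unfold ee
  congr 1
  push_cast
  ring

/-- the complete sum over any block of `q` consecutive integers -/
theorem ma_block (k : ℕ) (c : ℕ → ℤ) (q : ℕ) (hq : 1 ≤ q) (a : ℤ) (n₀ : ℕ) :
    ∑ t ∈ range q, ee ((a : ℝ) / q * (pv k c ((n₀ + t : ℕ) : ℤ) : ℝ)) = q * cs k c q a := by
  have : NeZero q := ⟨by omega⟩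
  set G : ZMod q → ℂ := fun x => (ZMod.stdAddChar ((a : ZMod q) * ∑ j ∈ range (k + 1), (c j : ZMod q) * x ^ j) : ℂ)
    with hG
  have hval : ∀ n : ℕ, ee ((a : ℝ) * (pv k c (n : ℤ) : ℝ) / q) = G (n : ZMod q) := by
    intro n
    have h1 : (a : ℝ) * (pv k c (n : ℤ) : ℝ) / q = ((a * pv k c n : ℤ) : ℝ) / q := by
      push_cast
      ring
    rw [h1, ma_ee]
    simp only [hG]
    congr 2
    unfold pv
    push_cast
    rfl
  have hq0 : (q : ℂ) ≠ 0 := by exact_mod_cast (by omega : q ≠ 0)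
  have h2 : (q : ℂ) * cs k c q a = ∑ x : ZMod q, G x := by
    unfold cs
    rw [mul_div_cancel₀ _ hq0, ← ma_sum_range]
    exact sum_congr rfl fun x _ => hval x
  rw [h2]
  have h3 : ∀ t ∈ range q, ee ((a : ℝ) / q * (pv k c ((n₀ + t : ℕ) : ℤ) : ℝ)) = G ((n₀ : ZMod q) + (t : ZMod q)) := by
    intro t _
    have h4 : (a : ℝ) / q * (pv k c ((n₀ + t : ℕ) : ℤ) : ℝ) = (a : ℝ) * (pv k c ((n₀ + t : ℕ) : ℤ) : ℝ) / q := by
      ring
    rw [h4, hval]
    congr 1
    push_cast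
    rfl
  rw [sum_congr rfl h3, ma_sum_range (fun x => G ((n₀ : ZMod q) + x))]
  exact Fintype.sum_equiv (Equiv.addLeft (n₀ : ZMod q)) _ _ (fun x => rfl)

/-- variation of the polynomial in a block -/
theorem ma_var (k : ℕ) (c : ℕ → ℤ) (Y q : ℕ) (B : ℝ) (hB : ∀ j ≤ k, |(c j : ℝ)| ≤ B) (n n₀ : ℕ)
    (h0 : Y < n₀) (hn₀ : n₀ ≤ n) (hn : n ≤ 2 * Y) (hnq : n ≤ n₀ + q) :
    |(pv k c (n : ℤ) : ℝ) - (pv k c (n₀ : ℤ) : ℝ)| ≤ q * (k * (k + 1) * B * (2 * Y) ^ (k - 1)) := by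
  have hB0 : 0 ≤ B := (abs_nonneg _).trans (hB 0 (Nat.zero_le _))
  have hY1 : (1 : ℝ) ≤ 2 * Y := by
    have : 1 ≤ 2 * Y := by omega
    exact_mod_cast this
  unfold pv
  push_cast
  rw [← sum_sub_distrib]
  refine (abs_sum_le_sum_abs _ _).trans ?_
  have hterm : ∀ j ∈ range (k + 1), |(c j : ℝ) * (n : ℝ) ^ j - (c j : ℝ) * (n₀ : ℝ) ^ j| ≤
      q * (k * B * (2 * Y) ^ (k - 1)) := by
    intro j hj
    have hjk : j ≤ k := by
      have := mem_range.mp hj
      omega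
    rcases Nat.eq_zero_or_pos j with h | h
    · subst h
      simp only [pow_zero, sub_self, abs_zero]
      positivity
    rw [← mul_sub, abs_mul]
    have h1 := abs_pow_sub_pow_le (n : ℝ) (n₀ : ℝ) j
    have h2 : |(n : ℝ) - n₀| ≤ q := by
      have h3 : (n₀ : ℝ) ≤ n := by exact_mod_cast hn₀
      have h4 : (n : ℝ) ≤ n₀ + q := by exact_mod_cast hnq
      rw [abs_of_nonneg (by linarith)]
      linarith
    have h5 : max |(n : ℝ)| |(n₀ : ℝ)| ≤ 2 * Y := by
      rw [abs_of_nonneg (by positivity), abs_of_nonneg (by positivity)]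
      refine max_le (by exact_mod_cast hn) ?_
      exact_mod_cast hn₀.trans hn
    have h6 : max |(n : ℝ)| |(n₀ : ℝ)| ^ (j - 1) ≤ (2 * (Y : ℝ)) ^ (k - 1) := by
      refine (pow_le_pow_left₀ (le_max_of_le_left (abs_nonneg _)) h5 _).trans ?_
      exact pow_le_pow_right₀ hY1 (by omega)
    have h7 : (j : ℝ) ≤ k := by exact_mod_cast hjk
    have h8 : |(n : ℝ) ^ j - (n₀ : ℝ) ^ j| ≤ q * k * (2 * (Y : ℝ)) ^ (k - 1) := by
      refine h1.trans ?_
      refine mul_le_mul (mul_le_mul h2 h7 (by positivity) (by positivity)) h6 (by positivity) (by positivity)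
    calc |(c j : ℝ)| * |(n : ℝ) ^ j - (n₀ : ℝ) ^ j| ≤ B * (q * k * (2 * (Y : ℝ)) ^ (k - 1)) :=
          mul_le_mul (hB j hjk) h8 (abs_nonneg _) hB0
      _ = q * (k * B * (2 * Y) ^ (k - 1)) := by ring
  refine (sum_le_sum hterm).trans (le_of_eq ?_)
  rw [sum_const, card_range, nsmul_eq_mul]
  push_cast
  ring

/-- incomplete sums near a rational number -/
theorem major_approx (k : ℕ) (hk : 1 ≤ k) (c : ℕ → ℤ) (Y q : ℕ) (a : ℤ) (B θ τ : ℝ)
    (hq : 1 ≤ q) (hB : ∀ j ≤ k, |(c j : ℝ)| ≤ B) (hτ : |θ - a / q| ≤ τ) :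
    ‖∑ n ∈ Ioc Y (2 * Y), ee (θ * (pv k c n : ℝ))‖ ≤
      Y * ‖cs k c q a‖ + q + 7 * τ * Y * (q * (k * (k + 1) * B * (2 * Y) ^ (k - 1))) := by
  have hτ0 : 0 ≤ τ := (abs_nonneg _).trans hτ
  have hB0 : 0 ≤ B := (abs_nonneg _).trans (hB 0 (Nat.zero_le _))
  set V : ℝ := q * (k * (k + 1) * B * (2 * Y) ^ (k - 1)) with hV
  have hV0 : 0 ≤ V := by positivity
  set m := Y / q with hm
  have hmY : m * q + Y % q = Y := by
    rw [hm, mul_comm]
    exact Nat.div_add_mod Y q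
  have hrem : Y % q < q := Nat.mod_lt _ (by omega)
  -- reindex
  have h1 : ∑ n ∈ Ioc Y (2 * Y), ee (θ * (pv k c n : ℝ)) =
      ∑ j ∈ range Y, ee (θ * (pv k c ((Y + 1 + j : ℕ) : ℤ) : ℝ)) := by
    have h2 : Ioc Y (2 * Y) = Ico (Y + 1) (2 * Y + 1) := by
      ext x
      simp only [mem_Ioc, mem_Ico]
      omega
    rw [h2, sum_Ico_eq_sum_range]
    have h3 : 2 * Y + 1 - (Y + 1) = Y := by omega
    rw [h3]
  rw [h1]
  set F : ℕ → ℂ := fun j => ee (θ * (pv k c ((Y + 1 + j : ℕ) : ℤ) : ℝ)) with hF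
  have h4 : ∑ j ∈ range Y, F j = ∑ j ∈ range (m * q), F j + ∑ t ∈ range (Y % q), F (m * q + t) := by
    conv_lhs => rw [← hmY]
    rw [sum_range_add]
  have h5 : ∑ j ∈ range (m * q), F j = ∑ i ∈ range m, ∑ t ∈ range q, F (i * q + t) := by
    induction m with
    | zero => simp
    | succ m ih => rw [Nat.succ_mul, sum_range_add, ih, sum_range_succ]
  have h6 : ‖∑ t ∈ range (Y % q), F (m * q + t)‖ ≤ q := by
    refine (norm_sum_le _ _).trans ?_
    have : ∀ t ∈ range (Y % q), ‖F (m * q + t)‖ ≤ 1 := fun t _ => by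
      simp only [hF]
      rw [ma_norm_ee]
    refine (sum_le_sum this).trans ?_
    rw [sum_const, card_range, nsmul_eq_mul, mul_one]
    exact_mod_cast hrem.le
  have h7 : ∀ i ∈ range m, ‖∑ t ∈ range q, F (i * q + t)‖ ≤ q * ‖cs k c q a‖ + q * (7 * τ * V) := by
    intro i hi
    have him : i < m := mem_range.mp hi
    have hiq : (i + 1) * q ≤ Y := by
      calc (i + 1) * q ≤ m * q := Nat.mul_le_mul_right _ him
        _ ≤ Y := by omega
    have hexp : (i + 1) * q = i * q + q := by ring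
    set n₀ : ℕ := Y + 1 + i * q with hn₀
    set β : ℝ := θ - a / q with hβ
    have e1 : ∀ t ∈ range q, F (i * q + t) =
        ee (β * (pv k c (n₀ : ℤ) : ℝ)) * ee ((a : ℝ) / q * (pv k c ((n₀ + t : ℕ) : ℤ) : ℝ)) +
        (ee (β * (pv k c ((n₀ + t : ℕ) : ℤ) : ℝ)) - ee (β * (pv k c (n₀ : ℤ) : ℝ))) *
          ee ((a : ℝ) / q * (pv k c ((n₀ + t : ℕ) : ℤ) : ℝ)) := by
      intro t _
      have e2 : F (i * q + t) = ee (β * (pv k c ((n₀ + t : ℕ) : ℤ) : ℝ)) *
          ee ((a : ℝ) / q * (pv k c ((n₀ + t : ℕ) : ℤ) : ℝ)) := by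
        rw [← ma_ee_add]
        simp only [hF]
        have e3 : Y + 1 + (i * q + t) = n₀ + t := by
          rw [hn₀]
          ring
        rw [e3]
        congr 1
        rw [hβ]
        ring
      rw [e2]
      ring
    rw [sum_congr rfl e1, sum_add_distrib, ← mul_sum, ma_block k c q hq a n₀]
    refine (norm_add_le _ _).trans (add_le_add ?_ ?_)
    · rw [norm_mul, ma_norm_ee, one_mul, norm_mul, Complex.norm_natCast]
    · refine (norm_sum_le _ _).trans ?_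
      have e4 : ∀ t ∈ range q, ‖(ee (β * (pv k c ((n₀ + t : ℕ) : ℤ) : ℝ)) - ee (β * (pv k c (n₀ : ℤ) : ℝ))) *
          ee ((a : ℝ) / q * (pv k c ((n₀ + t : ℕ) : ℤ) : ℝ))‖ ≤ 7 * τ * V := by
        intro t ht
        have htq : t < q := mem_range.mp ht
        rw [norm_mul, ma_norm_ee, mul_one]
        refine (ma_ee_lip _ _).trans ?_
        rw [← mul_sub, abs_mul, mul_assoc 7]
        refine mul_le_mul_of_nonneg_left ?_ (by norm_num)
        refine mul_le_mul hτ ?_ (abs_nonneg _) hτ0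
        rw [hV]
        exact ma_var k c Y q B hB (n₀ + t) n₀ (by omega) (by omega) (by omega) (by omega)
      refine (sum_le_sum e4).trans ?_
      rw [sum_const, card_range, nsmul_eq_mul]
  rw [h4, h5]
  refine (norm_add_le _ _).trans ?_
  have h8 : ‖∑ i ∈ range m, ∑ t ∈ range q, F (i * q + t)‖ ≤ Y * ‖cs k c q a‖ + 7 * τ * Y * V := by
    refine (norm_sum_le _ _).trans ((sum_le_sum h7).trans ?_)
    rw [sum_const, card_range, nsmul_eq_mul]
    have h9 : (m : ℝ) * q ≤ Y := by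
      have : m * q ≤ Y := by omega
      exact_mod_cast this
    have h10 : 0 ≤ ‖cs k c q a‖ + 7 * τ * V := by positivity
    calc (m : ℝ) * (q * ‖cs k c q a‖ + q * (7 * τ * V)) = (m * q) * (‖cs k c q a‖ + 7 * τ * V) := by ring
      _ ≤ Y * (‖cs k c q a‖ + 7 * τ * V) := mul_le_mul_of_nonneg_right h9 h10
      _ = Y * ‖cs k c q a‖ + 7 * τ * Y * V := by ring
  linarith

end Vale.Agent.P042.GS
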