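import Vale.Agent.P042.GS.WDefs

namespace Vale.Agent.P042.GS

open Finset Polynomial

variable {p : ℕ} [Fact p.Prime]

theorem ms_mkM_aux (r : ℕ) (c : Fin r → ZMod p) :
    (mkM r c).Monic ∧ (mkM r c).natDegree = r := by
  have h := Polynomial.degree_sum_fin_lt c
  unfold mkM
  refine ⟨Polynomial.monic_X_pow_add h, ?_⟩
  have h1 : (X ^ r + ∑ i, C (c i) * X ^ (i : ℕ) : (ZMod p)[X]).degree = r := by
    rw [Polynomial.degree_add_eq_left_of_degree_lt]
    · exact Polynomial.degree_X_pow r
    · rw [Polynomial.degree_X_pow]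
      exact h
  exact Polynomial.natDegree_eq_of_degree_eq_some h1

theorem mem_Mset (r : ℕ) (g : (ZMod p)[X]) : g ∈ Mset p r ↔ g.Monic ∧ g.natDegree = r := by
  classical
  unfold Mset
  rw [mem_image]
  constructor
  · rintro ⟨c, _, rfl⟩
    exact ms_mkM_aux r c
  · rintro ⟨hg, hr⟩
    refine ⟨fun i => g.coeff i, mem_univ _, ?_⟩
    have h1 := hg.as_sum
    rw [hr] at h1
    unfold mkM
    conv_rhs => rw [h1]
    rw [Finset.sum_range (fun i => C (g.coeff i) * X ^ i)]

/-- the root sum is in the prime field -/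
theorem rootSum_mem (f g : (ZMod p)[X]) :
    ∃ t : ZMod p, algebraMap (ZMod p) (AlgebraicClosure (ZMod p)) t = rootSum f g := by
  have h := (InfiniteGalois.mem_range_algebraMap_iff_fixed (k := ZMod p)
    (K := AlgebraicClosure (ZMod p)) (rootSum f g)).2 ?_
  · obtain ⟨t, ht⟩ := h
    exact ⟨t, ht⟩
  · intro σ
    unfold rootSum
    set G := g.map (algebraMap (ZMod p) (AlgebraicClosure (ZMod p))) with hG
    have hsp : G.Splits := IsAlgClosed.splits G
    have h1 : G.map ((σ : AlgebraicClosure (ZMod p) →ₐ[ZMod p] AlgebraicClosure (ZMod p)) :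
        AlgebraicClosure (ZMod p) →+* AlgebraicClosure (ZMod p)) = G := by
      rw [hG, Polynomial.map_map]
      congr 1
      ext x
      simp
    have h2 : G.roots.map (σ : AlgebraicClosure (ZMod p) → AlgebraicClosure (ZMod p)) =
        G.roots := by
      have h3 := hsp.roots_map ((σ : AlgebraicClosure (ZMod p) →ₐ[ZMod p]
        AlgebraicClosure (ZMod p)) : AlgebraicClosure (ZMod p) →+* AlgebraicClosure (ZMod p))
      rw [h1] at h3
      exact h3.symm
    rw [map_multiset_sum, Multiset.map_map]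
    have h4 : (G.roots.map ((σ : AlgebraicClosure (ZMod p) → AlgebraicClosure (ZMod p)) ∘
        fun x => aeval x f)) = (G.roots.map
          (σ : AlgebraicClosure (ZMod p) → AlgebraicClosure (ZMod p))).map
            (fun x => aeval x f) := by
      rw [Multiset.map_map]
      apply Multiset.map_congr rfl
      intro x _
      simp only [Function.comp]
      exact (Polynomial.aeval_algHom_apply
        (σ : AlgebraicClosure (ZMod p) →ₐ[ZMod p] AlgebraicClosure (ZMod p)) x f).symm
    rw [h4, h2]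

theorem lamf_eq (f g : (ZMod p)[X]) (t : ZMod p)
    (h : algebraMap (ZMod p) (AlgebraicClosure (ZMod p)) t = rootSum f g) :
    lamf f g = (ZMod.stdAddChar t : ℂ) := by
  have hex : ∃ t : ZMod p, algebraMap (ZMod p) (AlgebraicClosure (ZMod p)) t = rootSum f g :=
    ⟨t, h⟩
  unfold lamf
  rw [dif_pos hex]
  have h1 := hex.choose_spec
  have h2 : hex.choose = t :=
    (algebraMap (ZMod p) (AlgebraicClosure (ZMod p))).injective (h1.trans h.symm)
  rw [h2]

theorem lamf_one (f : (ZMod p)[X]) : lamf f 1 = 1 := by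
  rw [lamf_eq f 1 0]
  · exact AddChar.map_zero_eq_one _
  · unfold rootSum
    rw [map_zero, Polynomial.map_one, Polynomial.roots_one]
    simp

theorem lamf_mul (f g h : (ZMod p)[X]) (hg : g.Monic) (hh : h.Monic) :
    lamf f (g * h) = lamf f g * lamf f h := by
  obtain ⟨t, ht⟩ := rootSum_mem f g
  obtain ⟨s, hs⟩ := rootSum_mem f h
  rw [lamf_eq f g t ht, lamf_eq f h s hs, lamf_eq f (g * h) (t + s), AddChar.map_add_eq_mul]
  rw [map_add, ht, hs]
  unfold rootSum
  rw [Polynomial.map_mul, Polynomial.roots_mul, Multiset.map_add, Multiset.sum_add]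
  exact mul_ne_zero (hg.map _).ne_zero (hh.map _).ne_zero

/-! ### Newton -/

section newton

variable {K : Type} [Field K]

/-- power sum of a multiset -/
def msP (j : ℕ) (s : Multiset K) : K := (s.map (fun x => x ^ j)).sum

theorem ms_newton (s : Multiset K) (j : ℕ) (hj : 0 < j) :
    msP j s = (-1) ^ (j + 1) * j * s.esymm j -
      ∑ a ∈ antidiagonal j with a.1 ∈ Set.Ioo 0 j, (-1) ^ a.1 * s.esymm a.1 * msP a.2 s := by
  set x : Fin s.toList.length → K := s.toList.get with hx
  have hs : (univ.val.map x : Multiset K) = s := by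
    rw [Fin.univ_val_map, hx, List.ofFn_get, Multiset.coe_toList]
  have h1 := congrArg (MvPolynomial.aeval x)
    (MvPolynomial.psum_eq_mul_esymm_sub_sum (Fin s.toList.length) K j hj)
  have hp : ∀ n, MvPolynomial.aeval x (MvPolynomial.psum (Fin s.toList.length) K n) =
      msP n s := by
    intro n
    have h2 : msP n s = ∑ i, x i ^ n := by
      unfold msP
      conv_lhs => rw [← hs]
      rw [Multiset.map_map]
      rfl
    rw [h2]
    unfold MvPolynomial.psum
    rw [map_sum]
    simp only [map_pow, MvPolynomial.aeval_X]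
  have he : ∀ n, MvPolynomial.aeval x (MvPolynomial.esymm (Fin s.toList.length) K n) =
      s.esymm n := by
    intro n
    rw [MvPolynomial.aeval_esymm_eq_multiset_esymm, hs]
  rw [hp, map_sub, map_mul, map_mul, map_pow, map_neg, map_one, map_natCast, he, map_sum] at h1
  rw [h1]
  congr 1
  apply Finset.sum_congr rfl
  intro a _
  rw [map_mul, map_mul, map_pow, map_neg, map_one, he, hp]

theorem ms_newton_eq (s s' : Multiset K) (k : ℕ) (hk : 0 < k)
    (h : ∀ a, a < k → s.esymm a = s'.esymm a) :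
    (∀ j, 0 < j → j < k → msP j s = msP j s') ∧
      msP k s' = msP k s + (-1) ^ (k + 1) * k * (s'.esymm k - s.esymm k) := by
  have h1 : ∀ j, 0 < j → j < k → msP j s = msP j s' := by
    intro j
    induction j using Nat.strong_induction_on with
    | _ j ih =>
      intro hj hjk
      rw [ms_newton s j hj, ms_newton s' j hj, h j hjk]
      congr 1
      apply Finset.sum_congr rfl
      intro a ha
      rw [mem_filter, HasAntidiagonal.mem_antidiagonal, Set.mem_Ioo] at ha
      rw [h a.1 (by omega), ih a.2 (by omega) (by omega) (by omega)]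
  refine ⟨h1, ?_⟩
  rw [ms_newton s k hk, ms_newton s' k hk]
  have h2 : ∑ a ∈ antidiagonal k with a.1 ∈ Set.Ioo 0 k, (-1) ^ a.1 * s.esymm a.1 * msP a.2 s =
      ∑ a ∈ antidiagonal k with a.1 ∈ Set.Ioo 0 k, (-1) ^ a.1 * s'.esymm a.1 * msP a.2 s' := by
    apply Finset.sum_congr rfl
    intro a ha
    rw [mem_filter, HasAntidiagonal.mem_antidiagonal, Set.mem_Ioo] at ha
    rw [h a.1 (by omega), h1 a.2 (by omega) (by omega)]
  rw [h2]
  ring

end newton

/-- elementary symmetric functions of the roots -/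
theorem ms_esymm (g : (ZMod p)[X]) (hg : g.Monic) (r : ℕ) (hr : g.natDegree = r) (a : ℕ)
    (ha : a ≤ r) :
    (g.map (algebraMap (ZMod p) (AlgebraicClosure (ZMod p)))).roots.esymm a =
      (-1) ^ a * algebraMap (ZMod p) (AlgebraicClosure (ZMod p)) (g.coeff (r - a)) := by
  set G := g.map (algebraMap (ZMod p) (AlgebraicClosure (ZMod p))) with hG
  have hdeg : G.natDegree = r := by
    rw [hG, Polynomial.natDegree_map, hr]
  have h1 := Polynomial.coeff_eq_esymm_roots_of_splits (IsAlgClosed.splits G)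
    (k := r - a) (by omega)
  have h2 : G.leadingCoeff = 1 := hg.map _
  have h3 : r - (r - a) = a := by omega
  rw [h2, one_mul, hdeg, h3, hG, Polynomial.coeff_map, ← hG] at h1
  rw [h1, ← mul_assoc, ← pow_add, Even.neg_one_pow ⟨a, rfl⟩, one_mul]

theorem ms_sum_sum {K : Type} [Field K] (t : Finset ℕ) (F : ℕ → K → K) (s : Multiset K) :
    (s.map (fun x => ∑ j ∈ t, F j x)).sum = ∑ j ∈ t, (s.map (F j)).sum := by
  induction s using Multiset.induction_on with
  | empty => simp
  | cons a s ih =>
    rw [Multiset.map_cons, Multiset.sum_cons, ih, ← Finset.sum_add_distrib]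
    apply Finset.sum_congr rfl
    intro j _
    rw [Multiset.map_cons, Multiset.sum_cons]

/-- the root sum as a combination of power sums -/
theorem ms_rootSum (f g : (ZMod p)[X]) (k : ℕ) (hf : f.natDegree = k) :
    rootSum f g = ∑ j ∈ range (k + 1),
      algebraMap (ZMod p) (AlgebraicClosure (ZMod p)) (f.coeff j) *
        msP j (g.map (algebraMap (ZMod p) (AlgebraicClosure (ZMod p)))).roots := by
  unfold rootSum msP
  have h1 : ∀ x : AlgebraicClosure (ZMod p), aeval x f = ∑ j ∈ range (k + 1),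
      algebraMap (ZMod p) (AlgebraicClosure (ZMod p)) (f.coeff j) * x ^ j := by
    intro x
    rw [Polynomial.aeval_eq_sum_range, hf]
    apply Finset.sum_congr rfl
    intro j _
    rw [Algebra.smul_def]
  rw [Multiset.map_congr rfl (fun x _ => h1 x), ms_sum_sum]
  apply Finset.sum_congr rfl
  intro j _
  rw [Multiset.sum_map_mul_left]

/-- changing one coefficient -/
theorem ms_shift (f : (ZMod p)[X]) (k : ℕ) (hk : 1 ≤ k) (hf : f.natDegree = k)
    (r : ℕ) (hr : k ≤ r) (δ : ZMod p) (g : (ZMod p)[X]) (hg : g.Monic) (hgr : g.natDegree = r) :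
    (g + C δ * X ^ (r - k)).Monic ∧ (g + C δ * X ^ (r - k)).natDegree = r ∧
      rootSum f (g + C δ * X ^ (r - k)) = rootSum f g +
        algebraMap (ZMod p) (AlgebraicClosure (ZMod p)) (-(k : ZMod p) * f.coeff k * δ) := by
  have hlt : (C δ * X ^ (r - k) : (ZMod p)[X]).degree < g.degree := by
    rw [Polynomial.degree_eq_natDegree hg.ne_zero, hgr]
    refine lt_of_le_of_lt (Polynomial.degree_C_mul_X_pow_le _ _) ?_
    exact_mod_cast (by omega : r - k < r)
  have hmon : (g + C δ * X ^ (r - k)).Monic := hg.add_of_left hlt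
  have hdeg : (g + C δ * X ^ (r - k)).natDegree = r := by
    rw [Polynomial.natDegree_add_eq_left_of_degree_lt hlt, hgr]
  refine ⟨hmon, hdeg, ?_⟩
  set s := (g.map (algebraMap (ZMod p) (AlgebraicClosure (ZMod p)))).roots with hs
  set s' := ((g + C δ * X ^ (r - k)).map
    (algebraMap (ZMod p) (AlgebraicClosure (ZMod p)))).roots with hs'
  have he : ∀ a, a < k → s.esymm a = s'.esymm a := by
    intro a ha
    rw [hs, hs', ms_esymm g hg r hgr a (by omega), ms_esymm _ hmon r hdeg a (by omega),
      Polynomial.coeff_add, Polynomial.coeff_C_mul_X_pow, if_neg (by omega), add_zero]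
  have hek : s'.esymm k - s.esymm k =
      (-1) ^ k * algebraMap (ZMod p) (AlgebraicClosure (ZMod p)) δ := by
    rw [hs, hs', ms_esymm g hg r hgr k hr, ms_esymm _ hmon r hdeg k hr,
      Polynomial.coeff_add, Polynomial.coeff_C_mul_X_pow, if_pos rfl, map_add]
    ring
  obtain ⟨h1, h2⟩ := ms_newton_eq s s' k hk he
  have hcard : s.card = s'.card := by
    have e1 : s.card = r := by
      rw [hs, ← Polynomial.Splits.natDegree_eq_card_roots (IsAlgClosed.splits _),
        Polynomial.natDegree_map, hgr]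
    have e2 : s'.card = r := by
      rw [hs', ← Polynomial.Splits.natDegree_eq_card_roots (IsAlgClosed.splits _),
        Polynomial.natDegree_map, hdeg]
    rw [e1, e2]
  rw [ms_rootSum f g k hf, ms_rootSum f _ k hf, ← hs, ← hs', Finset.sum_range_succ,
    Finset.sum_range_succ, h2, hek]
  have h3 : ∀ j ∈ range k, algebraMap (ZMod p) (AlgebraicClosure (ZMod p)) (f.coeff j) *
      msP j s' = algebraMap (ZMod p) (AlgebraicClosure (ZMod p)) (f.coeff j) * msP j s := by
    intro j hj
    rw [mem_range] at hj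
    rcases Nat.eq_zero_or_pos j with h | h
    · subst h
      unfold msP
      simp [hcard]
    · rw [h1 j h hj]
  rw [Finset.sum_congr rfl h3]
  have h4 : ((-1 : AlgebraicClosure (ZMod p)) ^ (k + 1)) * (-1) ^ k = -1 := by
    rw [← pow_add]
    exact Odd.neg_one_pow ⟨k, by ring⟩
  have h5 : algebraMap (ZMod p) (AlgebraicClosure (ZMod p)) (-(k : ZMod p) * f.coeff k * δ) =
      -(k : AlgebraicClosure (ZMod p)) *
        algebraMap (ZMod p) (AlgebraicClosure (ZMod p)) (f.coeff k) *
          algebraMap (ZMod p) (AlgebraicClosure (ZMod p)) δ := by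
    rw [map_mul, map_mul, map_neg, map_natCast]
  rw [h5]
  have h6 : (-1 : AlgebraicClosure (ZMod p)) ^ (k + 1) * k *
      ((-1) ^ k * algebraMap (ZMod p) (AlgebraicClosure (ZMod p)) δ) =
        -(k : AlgebraicClosure (ZMod p)) * algebraMap (ZMod p) (AlgebraicClosure (ZMod p)) δ := by
    calc _ = ((-1 : AlgebraicClosure (ZMod p)) ^ (k + 1) * (-1) ^ k) * k *
        algebraMap (ZMod p) (AlgebraicClosure (ZMod p)) δ := by ring
      _ = _ := by rw [h4]; ring
  rw [h6]
  ring

/-- cancellation in the sum over monic polynomials -/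
theorem sum_Mset_zero (f : (ZMod p)[X]) (k : ℕ) (hk : 1 ≤ k) (hf : f.natDegree = k)
    (hpk : ¬ p ∣ k) (r : ℕ) (hr : k ≤ r) : ∑ g ∈ Mset p r, lamf f g = 0 := by
  have hkz : (k : ZMod p) ≠ 0 := by
    intro h
    exact hpk ((ZMod.natCast_eq_zero_iff k p).1 h)
  have hf0 : f.coeff k ≠ 0 := by
    rw [← hf, Polynomial.coeff_natDegree, Polynomial.leadingCoeff_ne_zero]
    intro h
    rw [h, Polynomial.natDegree_zero] at hf
    omega
  set δ : ZMod p := -((k : ZMod p) * f.coeff k)⁻¹ with hδ
  have hδ1 : -(k : ZMod p) * f.coeff k * δ = 1 := by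
    rw [hδ]
    field_simp
  have hchar : (ZMod.stdAddChar (1 : ZMod p) : ℂ) ≠ 1 := by
    intro h
    have h1 : (1 : ZMod p) = 0 := by
      apply ZMod.injective_stdAddChar
      rw [h, AddChar.map_zero_eq_one]
    exact one_ne_zero h1
  have hbij : ∑ g ∈ Mset p r, lamf f g = ∑ g ∈ Mset p r, lamf f (g + C δ * X ^ (r - k)) := by
    symm
    refine Finset.sum_bij' (fun g _ => g + C δ * X ^ (r - k)) (fun g _ => g - C δ * X ^ (r - k))
      ?_ ?_ ?_ ?_ ?_
    · intro g hg
      rw [mem_Mset] at hg ⊢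
      obtain ⟨h1, h2, _⟩ := ms_shift f k hk hf r hr δ g hg.1 hg.2
      exact ⟨h1, h2⟩
    · intro g hg
      rw [mem_Mset] at hg ⊢
      obtain ⟨h1, h2, _⟩ := ms_shift f k hk hf r hr (-δ) g hg.1 hg.2
      have e : g - C δ * X ^ (r - k) = g + C (-δ) * X ^ (r - k) := by
        rw [map_neg C δ, neg_mul, ← sub_eq_add_neg]
      rw [e]
      exact ⟨h1, h2⟩
    · intro g _
      ring
    · intro g _
      ring
    · intro g _
      rfl
  have hval : ∀ g ∈ Mset p r, lamf f (g + C δ * X ^ (r - k)) =
      (ZMod.stdAddChar (1 : ZMod p) : ℂ) * lamf f g := by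
    intro g hg
    rw [mem_Mset] at hg
    obtain ⟨_, _, h3⟩ := ms_shift f k hk hf r hr δ g hg.1 hg.2
    obtain ⟨t, ht⟩ := rootSum_mem f g
    rw [lamf_eq f g t ht, lamf_eq f _ (1 + t), AddChar.map_add_eq_mul]
    rw [h3, hδ1, map_add, ht]
    ring
  rw [Finset.sum_congr rfl hval, ← Finset.mul_sum] at hbij
  have h : (1 - (ZMod.stdAddChar (1 : ZMod p) : ℂ)) * ∑ g ∈ Mset p r, lamf f g = 0 := by
    rw [sub_mul, one_mul]
    exact sub_eq_zero.2 hbij
  rcases mul_eq_zero.1 h with h | h
  · exact absurd (sub_eq_zero.1 h).symm hchar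
  · exact h

end Vale.Agent.P042.GS
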