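import Vale.Agent.P042.GS.Step2
import Vale.Agent.P042.FS.OneStep

namespace Vale.Agent.P042.GS

open Finset Vale.Agent.P042.FS

theorem os2_Q_le_PM (C' C G L : ℕ) : Qi C G (2 * L + 4) ≤ PM C' C G L := by
  unfold PM
  calc Qi C G (2 * L + 4) = 1 * Qi C G (2 * L + 4) := by ring
    _ ≤ _ := Nat.mul_le_mul_right _ (Nat.one_le_ceil_iff.2 (Real.exp_pos _))

theorem os2_two_pow_le_Q (C G L : ℕ) (hG : 1 ≤ G) :
    2 ^ (C * (2 * L + 4 + 1)) ≤ Qi C G (2 * L + 4) := by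
  unfold Qi
  calc 2 ^ (C * (2 * L + 4 + 1)) = 1 * 2 ^ (C * (2 * L + 4 + 1)) := by ring
    _ ≤ _ := Nat.mul_le_mul_right _ hG

theorem os2_PM_le_PB (C' C G L : ℕ) (hG : 1 ≤ G) : PM C' C G L ≤ PB C' C G L := by
  unfold PB
  calc PM C' C G L = PM C' C G L * 1 := by ring
    _ ≤ _ := Nat.mul_le_mul_left _ (Nat.one_le_pow _ _ (by
      have := os_Q_pos C G (2 * L + 4) hG
      omega))

theorem os2_pow_le_PM (C' C G L : ℕ) (hC : 8 ≤ C) (hG : 1 ≤ G) : 2 ^ (L + 1) ≤ PM C' C G L := by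
  refine le_trans ?_ (os2_Q_le_PM C' C G L)
  refine le_trans ?_ (os2_two_pow_le_Q C G L hG)
  apply Nat.pow_le_pow_right (by norm_num)
  calc L + 1 = 1 * (L + 1) := by ring
    _ ≤ C * (2 * L + 4 + 1) := Nat.mul_le_mul (by omega) (by omega)

/-- sizes -/
theorem os2_sizes (k Cc n₀ a d P B K E : ℕ) (hk : 1 ≤ k) (hP : 2 ≤ P) (hPB : P ≤ B) (hd : 1 ≤ d)
    (ha : a ≤ Cc * d ^ k) (hK : K = n₀ + 16 * k ^ 2 + Cc ^ 2 + 1) (hKB : K ≤ B)
    (hE : E = 2 * k ^ 2 + 4 * k + 19) :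
    a * 2 ^ (k + 4) * (K * d ^ (2 * k) * B) ^ k ≤ (d * B) ^ E ∧
      1503 * 2 ^ (2 * k + 7) * P ^ (k + 1) ≤ (d * B) ^ E := by
  have hB : 2 ≤ B := by omega
  have hexp : (d * B) ^ E = d ^ E * B ^ E := mul_pow _ _ _
  have hCcB : Cc ≤ B := by
    refine le_trans ?_ hKB
    have : Cc ≤ Cc ^ 2 := by
      rcases Nat.eq_zero_or_pos Cc with h | h
      · subst h; simp
      · calc Cc = Cc ^ 1 := (pow_one _).symm
          _ ≤ Cc ^ 2 := Nat.pow_le_pow_right h (by norm_num)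
    omega
  have hk2 : k + 2 * k * k ≤ E := by
    have : 2 * k * k = 2 * k ^ 2 := by ring
    omega
  have hkk : k ≤ k ^ 2 := by
    calc k = k ^ 1 := (pow_one _).symm
      _ ≤ k ^ 2 := Nat.pow_le_pow_right hk (by norm_num)
  refine ⟨?_, ?_⟩
  · rw [hexp]
    calc a * 2 ^ (k + 4) * (K * d ^ (2 * k) * B) ^ k
        ≤ (B * d ^ k) * B ^ (k + 4) * (B * d ^ (2 * k) * B) ^ k := by
          have h1 : a ≤ B * d ^ k := ha.trans (Nat.mul_le_mul_right _ hCcB)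
          gcongr
      _ = d ^ (k + 2 * k * k) * B ^ (k + 5 + 2 * k) := by ring
      _ ≤ d ^ E * B ^ E :=
        Nat.mul_le_mul (Nat.pow_le_pow_right hd hk2) (Nat.pow_le_pow_right (by omega) (by omega))
  · rw [hexp]
    calc 1503 * 2 ^ (2 * k + 7) * P ^ (k + 1)
        ≤ 2 ^ 11 * 2 ^ (2 * k + 7) * P ^ (k + 1) := by gcongr; norm_num
      _ ≤ B ^ 11 * B ^ (2 * k + 7) * B ^ (k + 1) := by gcongr
      _ = 1 * B ^ (3 * k + 19) := by ring
      _ ≤ d ^ E * B ^ E :=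
        Nat.mul_le_mul (Nat.one_le_pow _ _ hd) (Nat.pow_le_pow_right (by omega) (by omega))

/-- density increment with moduli of size `exp(O(L))` -/
theorem one_step2 (k C : ℕ) (hk : 1 ≤ k) (hC : 8 ≤ C) (hW : WeylC k C) :
    ∃ C' E : ℕ, 1 ≤ C' ∧ 1 ≤ E ∧ ∀ (G Cc n₀ : ℕ) (_ : 1 ≤ G) (sys : Sys k G Cc),
    ∃ L₀ : ℕ, 1 ≤ L₀ ∧ ∀ L : ℕ, L₀ ≤ L → ∀ (d N : ℕ) (_ : 1 ≤ d) (A : Finset ℤ) (α : ℝ),
      (∀ x ∈ A, 0 ≤ x ∧ x < N) → Avoid k (sys.c d) n₀ A → Real.exp (-(L : ℝ)) ≤ α →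
      (A.card : ℝ) = α * N → (d * PB C' C G L) ^ E ≤ N →
      ∃ (q N' : ℕ) (A' : Finset ℤ), 1 ≤ q ∧ q ≤ PM C' C G L ∧ 1 ≤ N' ∧
        N ≤ N' * (PM C' C G L) ^ E ∧
        (∀ x ∈ A', 0 ≤ x ∧ x < N') ∧ Avoid k (sys.c (d * q)) n₀ A' ∧
        (1 + 1 / 3000) * α * N' ≤ A'.card := by
  classical
  obtain ⟨C', hC', hstep⟩ := step_contra2 k C hk hC hW
  obtain ⟨E, hE⟩ : ∃ E, E = 2 * k ^ 2 + 4 * k + 19 := ⟨_, rfl⟩
  refine ⟨C', E, hC', by omega, ?_⟩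
  intro G Cc n₀ hG sys
  obtain ⟨L₀, hL₀, hstep⟩ := hstep G hG
  obtain ⟨K, hK⟩ : ∃ K, K = n₀ + 16 * k ^ 2 + Cc ^ 2 + 1 := ⟨_, rfl⟩
  refine ⟨L₀ + K, by omega, ?_⟩
  intro L hL d N hd A α hA hav hαL hα hN
  have hstepL := hstep L (by omega)
  obtain ⟨P, hP⟩ : ∃ P, P = PM C' C G L := ⟨_, rfl⟩
  obtain ⟨B, hB⟩ : ∃ B, B = PB C' C G L := ⟨_, rfl⟩
  have hPB : P ≤ B := by rw [hP, hB]; exact os2_PM_le_PB C' C G L hG
  have hLP : 2 ^ (L + 1) ≤ P := by rw [hP]; exact os2_pow_le_PM C' C G L hC hG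
  have hKP : K ≤ P := by
    refine le_trans ?_ hLP
    calc K ≤ 2 ^ K := Nat.lt_two_pow_self.le
      _ ≤ 2 ^ (L + 1) := Nat.pow_le_pow_right (by norm_num) (by omega)
  have hP2 : 2 ≤ P := by
    refine le_trans ?_ hLP
    calc 2 = 2 ^ 1 := by norm_num
      _ ≤ 2 ^ (L + 1) := Nat.pow_le_pow_right (by norm_num) (by omega)
  have hα0 : 0 < α := lt_of_lt_of_le (Real.exp_pos _) hαL
  obtain ⟨a, ha⟩ : ∃ a, a = (sys.c d k).toNat := ⟨_, rfl⟩
  have hlead := sys.lead d hd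
  have haz : (a : ℤ) = sys.c d k := by rw [ha]; exact Int.toNat_of_nonneg hlead.le
  have ha1 : 1 ≤ a := by omega
  have haC : a ≤ Cc * d ^ k := by
    have h1 := sys.bd d hd k le_rfl
    rw [abs_of_pos hlead, ← haz] at h1
    exact_mod_cast h1
  rw [← hB] at hN
  obtain ⟨hs1, hs2⟩ := os2_sizes k Cc n₀ a d P B K E hk hP2 hPB hd haC hK (by omega) hE
  have hK1 : 1 ≤ K := by omega
  obtain ⟨Y, hY0, hY1, hY2⟩ := os_scale k (a * 2 ^ (k + 4)) N (K * d ^ (2 * k) * B) hk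
    (Nat.mul_pos ha1 (by positivity))
    (Nat.mul_pos (Nat.mul_pos hK1 (by positivity)) (by omega)) (le_trans hs1 hN)
  have hd1 : 1 ≤ d ^ (2 * k) := Nat.one_le_pow _ _ hd
  have hB1 : 1 ≤ B := by omega
  have hKY : K ≤ Y := by
    refine le_trans ?_ hY0
    calc K = K * 1 * 1 := by ring
      _ ≤ K * d ^ (2 * k) * B := by gcongr
  have hBY : B ≤ Y := by
    refine le_trans ?_ hY0
    calc B = 1 * 1 * B := by ring
      _ ≤ K * d ^ (2 * k) * B := by gcongr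
  have hcY : (Cc * d ^ k) ^ 2 ≤ Y := by
    refine le_trans ?_ hY0
    calc (Cc * d ^ k) ^ 2 = Cc ^ 2 * d ^ (2 * k) * 1 := by ring
      _ ≤ K * d ^ (2 * k) * B := by
        gcongr
        omega
  obtain ⟨H, hH⟩ : ∃ H, H = Hi C k (sys.c d) Y (2 * L + 4) := ⟨_, rfl⟩
  -- failure of `NIp`
  have hfail : ∃ (q : ℕ) (u z : ℤ), 1 ≤ q ∧ q ≤ P ∧ ((1 + 1 / 1000) * α) * H / q <
      ((A.filter (fun x => u ≤ x ∧ x < u + H ∧ x ≡ z [ZMOD q])).card : ℝ) := by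
    by_contra hcon
    push Not at hcon
    refine hstepL (sys.c d) hlead (sys.cont d hd) N Y n₀ A α hA hα hαL hav (by omega) ?_ (by omega)
      ?_ (by rw [← hB]; exact hBY) ?_
    · intro j hj
      have h1 := sys.bd d hd j hj
      have h2 : (sys.c d j) ^ 2 ≤ ((Cc : ℤ) * (d : ℤ) ^ k) ^ 2 := by
        rw [← sq_abs]
        exact pow_le_pow_left₀ (abs_nonneg _) h1 2
      have h3 : (((Cc * d ^ k) ^ 2 : ℕ) : ℤ) ≤ (Y : ℤ) := by exact_mod_cast hcY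
      push_cast at h3
      linarith
    · have h2 : ((a * 2 ^ (k + 4) * Y ^ k : ℕ) : ℤ) ≤ (N : ℤ) := by exact_mod_cast hY1
      push_cast at h2
      rw [haz] at h2
      exact h2
    · intro M hM1 hM2 u z
      rw [← hH]
      exact hcon M u z hM1 (by rw [hP]; exact hM2)
  obtain ⟨q, u, z, hq1, hqP, hfail⟩ := hfail
  obtain ⟨lam, hlam⟩ : ∃ lam, lam = sys.lam q := ⟨_, rfl⟩
  have hlam1 : 1 ≤ lam := hlam ▸ sys.lam_pos q hq1
  have hlamP : lam ≤ P ^ k := by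
    rw [hlam]
    exact le_trans (sys.lam_le q hq1) (Nat.pow_le_pow_left hqP k)
  have hdvd : q ∣ lam := hlam ▸ sys.dvd_lam q hq1
  -- size of the window
  have hHY : a * Y ^ k < (H + 1) * (8 * P) := by
    have h2 : 2 ^ (C * (2 * L + 4 + 1)) ≤ P := by
      rw [hP]
      exact le_trans (os2_two_pow_le_Q C G L hG) (os2_Q_le_PM C' C G L)
    have h3 : a * Y ^ k < (H + 1) * (8 * 2 ^ (C * (2 * L + 4 + 1))) := by
      rw [hH]
      unfold Hi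
      rw [← ha]
      have hpos : 0 < 8 * 2 ^ (C * (2 * L + 4 + 1)) := by positivity
      have h4 := Nat.lt_div_mul_add (a := a * Y ^ k) hpos
      calc a * Y ^ k < a * Y ^ k / (8 * 2 ^ (C * (2 * L + 4 + 1))) *
            (8 * 2 ^ (C * (2 * L + 4 + 1))) + 8 * 2 ^ (C * (2 * L + 4 + 1)) := h4
        _ = _ := by ring
    refine lt_of_lt_of_le h3 ?_
    gcongr
  have hNH : N < (H + 1) * (2 ^ (2 * k + 7) * P) := by
    calc N < a * 2 ^ (k + 4) * (2 ^ k * Y ^ k) := hY2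
      _ = a * Y ^ k * 2 ^ (2 * k + 4) := by ring
      _ ≤ (H + 1) * (8 * P) * 2 ^ (2 * k + 4) := by gcongr
      _ = (H + 1) * (2 ^ (2 * k + 7) * P) := by ring
  have hHbig : 1503 * P ^ k < H + 1 := by
    have h1 : 1503 * 2 ^ (2 * k + 7) * P ^ (k + 1) < (H + 1) * (2 ^ (2 * k + 7) * P) :=
      lt_of_le_of_lt (le_trans hs2 hN) hNH
    have h2 : 1503 * 2 ^ (2 * k + 7) * P ^ (k + 1) = 1503 * P ^ k * (2 ^ (2 * k + 7) * P) := by
      ring
    rw [h2] at h1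
    exact lt_of_mul_lt_mul_right h1 (by positivity)
  have hHlam : 1502 * lam ≤ H := by
    calc 1502 * lam ≤ 1502 * P ^ k := by gcongr
      _ ≤ H := by omega
  -- the dense class
  obtain ⟨D, hD⟩ : ∃ D, D = A.filter (fun x => u ≤ x ∧ x < u + H ∧ x ≡ z [ZMOD q]) := ⟨_, rfl⟩
  rw [← hD] at hfail
  have hDA : ∀ x ∈ D, x ∈ A := by
    intro x hx
    rw [hD] at hx
    exact mem_of_mem_filter x hx
  obtain ⟨z', hz'⟩ := os_class q lam hq1 hlam1 hdvd D z (by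
    intro x hx
    rw [hD, mem_filter] at hx
    exact hx.2.2.2)
  obtain ⟨x₀, A', hcard, hrange, hback⟩ := os_rescale lam H hlam1 D u z' (by
    intro x hx
    rw [hD, mem_filter] at hx
    exact ⟨hx.2.1, hx.2.2.1⟩)
  rw [← hcard] at hz'
  refine ⟨q, H / lam + 1, A', hq1, hP ▸ hqP, Nat.le_add_left 1 _, ?_, ?_, ?_, ?_⟩
  · rw [← hP]
    have h1 : H + 1 ≤ (H / lam + 1) * lam := by
      have := Nat.lt_div_mul_add (a := H) (b := lam) hlam1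
      have e : (H / lam + 1) * lam = H / lam * lam + lam := by ring
      omega
    calc N ≤ (H + 1) * (2 ^ (2 * k + 7) * P) := hNH.le
      _ ≤ (H / lam + 1) * lam * (2 ^ (2 * k + 7) * P) := by gcongr
      _ ≤ (H / lam + 1) * P ^ k * (P ^ (2 * k + 7) * P) := by gcongr
      _ = (H / lam + 1) * P ^ (3 * k + 8) := by ring
      _ ≤ (H / lam + 1) * P ^ E := by
        apply Nat.mul_le_mul_left
        exact Nat.pow_le_pow_right (by omega) (by omega)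
  · intro x hx
    exact hrange x hx
  · exact os_avoid k G Cc n₀ d q sys hd hq1 A A' x₀ hav (fun m hm => by
      rw [← hlam]
      exact hDA _ (hback m hm))
  · refine os_density α q lam H D.card A'.card 0 hα0.le hq1 hlam1 hHlam ?_ hz'
    rw [pow_zero, one_mul]
    exact hfail

end Vale.Agent.P042.GS
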