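import Mathlib

namespace Vale.Agent.P042.GS

open Finset

/-- Chebyshev type bound -/
theorem prime_sqrt_sum (X : ℕ) :
    ∑ p ∈ (range (X + 1)).filter Nat.Prime, Real.log p / Real.sqrt p ≤
      20 * Real.sqrt X := by
  induction X using Nat.strong_induction_on with
  | _ X ih =>
    rcases Nat.eq_zero_or_pos X with h0 | h0
    · subst h0
      have : (range (0 + 1)).filter Nat.Prime = ∅ := by
        ext p
        simp only [mem_filter, mem_range, notMem_empty, iff_false, not_and]
        intro hp hp'
        have := hp'.two_le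
        omega
      rw [this]
      simp
    · have ih' := ih (X / 4) (by omega)
      have hX : (0 : ℝ) < X := by exact_mod_cast h0
      have hsX : 0 < Real.sqrt X := Real.sqrt_pos.2 hX
      have hsub : (range (X / 4 + 1)).filter Nat.Prime ⊆ (range (X + 1)).filter Nat.Prime := by
        intro p hp
        rw [mem_filter, mem_range] at hp ⊢
        exact ⟨by omega, hp.2⟩
      rw [← sum_sdiff hsub]
      have h1 : ∑ p ∈ (range (X + 1)).filter Nat.Prime \ (range (X / 4 + 1)).filter Nat.Prime,
          Real.log p / Real.sqrt p ≤ 2 * Real.log 4 * Real.sqrt X := by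
        have h2 : ∀ p ∈ (range (X + 1)).filter Nat.Prime \ (range (X / 4 + 1)).filter Nat.Prime,
            Real.log p / Real.sqrt p ≤ Real.log p * (2 / Real.sqrt X) := by
          intro p hp
          rw [mem_sdiff, mem_filter, mem_filter, mem_range, mem_range] at hp
          have hp1 : X / 4 + 1 ≤ p := by
            by_contra h
            exact hp.2 ⟨by omega, hp.1.2⟩
          have hp2 : X ≤ 4 * p := by omega
          have hp3 : (X : ℝ) ≤ 4 * p := by exact_mod_cast hp2
          have hp4 : Real.sqrt X ≤ 2 * Real.sqrt p := by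
            rw [show (2 : ℝ) = Real.sqrt 4 by
              rw [show (4 : ℝ) = 2 ^ 2 by norm_num, Real.sqrt_sq (by norm_num)],
              ← Real.sqrt_mul (by norm_num)]
            exact Real.sqrt_le_sqrt hp3
          have hl : 0 ≤ Real.log p := Real.log_natCast_nonneg p
          rw [div_eq_mul_inv]
          refine mul_le_mul_of_nonneg_left ?_ hl
          have hsp : 0 < Real.sqrt p := by linarith
          rw [inv_eq_one_div, div_le_div_iff₀ hsp hsX]
          linarith
        have h3 : ∑ p ∈ (range (X + 1)).filter Nat.Prime \ (range (X / 4 + 1)).filter Nat.Prime,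
            Real.log p * (2 / Real.sqrt X) ≤
            ∑ p ∈ (range (X + 1)).filter Nat.Prime, Real.log p * (2 / Real.sqrt X) := by
          refine sum_le_sum_of_subset_of_nonneg sdiff_subset fun p _ _ => ?_
          have hl : 0 ≤ Real.log p := Real.log_natCast_nonneg p
          positivity
        have h4 : ∑ p ∈ (range (X + 1)).filter Nat.Prime, Real.log p ≤ Real.log 4 * X := by
          have := Chebyshev.theta_le_log4_mul_x (x := (X : ℝ)) hX.le
          refine le_trans (le_of_eq ?_) this
          unfold Chebyshev.theta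
          rw [Nat.floor_natCast]
          refine sum_congr ?_ fun _ _ => rfl
          ext p
          simp only [mem_filter, mem_range, mem_Ioc]
          constructor
          · rintro ⟨a, b⟩
            exact ⟨⟨b.pos, by omega⟩, b⟩
          · rintro ⟨⟨a, b⟩, c⟩
            exact ⟨by omega, c⟩
        refine (sum_le_sum h2).trans (h3.trans ?_)
        rw [← sum_mul]
        have h5 : (∑ p ∈ (range (X + 1)).filter Nat.Prime, Real.log p) * (2 / Real.sqrt X) ≤
            Real.log 4 * X * (2 / Real.sqrt X) :=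
          mul_le_mul_of_nonneg_right h4 (by positivity)
        refine h5.trans (le_of_eq ?_)
        rw [mul_div_assoc', div_eq_iff hsX.ne']
        have := Real.mul_self_sqrt hX.le
        calc Real.log 4 * X * 2 = 2 * Real.log 4 * X := by ring
          _ = 2 * Real.log 4 * (Real.sqrt X * Real.sqrt X) := by rw [this]
          _ = 2 * Real.log 4 * Real.sqrt X * Real.sqrt X := by ring
      have h6 : Real.sqrt ((X / 4 : ℕ) : ℝ) ≤ Real.sqrt X / 2 := by
        have h7 : ((X / 4 : ℕ) : ℝ) ≤ X / 4 := by exact_mod_cast Nat.cast_div_le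
        have h8 : Real.sqrt ((X : ℝ) / 4) = Real.sqrt X / 2 := by
          rw [Real.sqrt_div hX.le, show (4 : ℝ) = 2 ^ 2 by norm_num, Real.sqrt_sq (by norm_num)]
        rw [← h8]
        exact Real.sqrt_le_sqrt h7
      have h9 : Real.log 4 ≤ 2 := by
        rw [show (4 : ℝ) = 2 ^ 2 by norm_num, Real.log_pow]
        have := Real.log_two_lt_d9
        push_cast
        linarith
      have h10 : 2 * Real.log 4 * Real.sqrt X ≤ 4 * Real.sqrt X := by nlinarith
      linarith

theorem factorial_card_le_prod (s : Finset ℕ) (hs : ∀ x ∈ s, 1 ≤ x) :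
    s.card.factorial ≤ ∏ x ∈ s, x := by
  induction s using Finset.induction_on_max with
  | empty => simp
  | insert a s ha ih =>
    have hna : a ∉ s := fun h => lt_irrefl _ (ha a h)
    rw [card_insert_of_notMem hna, prod_insert hna, Nat.factorial_succ]
    refine Nat.mul_le_mul ?_ (ih fun x hx => hs x (mem_insert_of_mem hx))
    have h1 : insert a s ⊆ Icc 1 a := by
      intro x hx
      rw [mem_Icc]
      refine ⟨hs x hx, ?_⟩
      rcases mem_insert.1 hx with h | h
      · exact h.le
      · exact (ha x h).le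
    have := card_le_card h1
    rw [card_insert_of_notMem hna, Nat.card_Icc] at this
    omega

theorem omega_log_le (q : ℕ) (hq : 1 ≤ q) :
    (q.primeFactors.card : ℝ) * (Real.log q.primeFactors.card - 1) ≤ Real.log q := by
  set w := q.primeFactors.card with hw
  have h1 : w.factorial ≤ q := by
    refine (factorial_card_le_prod _ fun x hx => (Nat.prime_of_mem_primeFactors hx).pos).trans ?_
    exact Nat.le_of_dvd hq (Nat.prod_primeFactors_dvd q)
  have h2 : Real.log w.factorial ≤ Real.log q :=
    Real.log_le_log (by exact_mod_cast w.factorial_pos) (by exact_mod_cast h1)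
  refine le_trans ?_ h2
  rcases Nat.eq_zero_or_pos w with h0 | h0
  · rw [h0]; simp
  have hw0 : (0 : ℝ) < w := by exact_mod_cast h0
  have h3 := Real.pow_div_factorial_le_exp (w : ℝ) hw0.le w
  have hf : (0 : ℝ) < w.factorial := by exact_mod_cast w.factorial_pos
  have h4 : Real.log ((w : ℝ) ^ w / w.factorial) ≤ w := by
    have h5 := Real.log_le_log (div_pos (pow_pos hw0 w) hf) h3
    rwa [Real.log_exp] at h5
  rw [Real.log_div (pow_pos hw0 w).ne' hf.ne', Real.log_pow] at h4
  linarith

/-- number of prime factors -/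
theorem omega_bound (C₁ A : ℝ) (hC₁ : 0 < C₁) (hA : 0 < A) : ∃ C₃ : ℝ, 0 < C₃ ∧
    ∀ B₀ B₁ : ℝ, ∃ L₀ : ℕ, ∀ L : ℕ, L₀ ≤ L → ∀ q : ℕ, 1 ≤ q →
      Real.log q ≤ C₁ * L + B₁ →
      (q.primeFactors.card : ℝ) * (A * Real.log L + B₀) ≤ C₃ * L := by
  refine ⟨16 * A * C₁ + 1, by positivity, fun B₀ B₁ => ?_⟩
  have tl : Filter.Tendsto (fun L : ℕ => Real.log (L : ℝ)) Filter.atTop Filter.atTop :=
    Real.tendsto_log_atTop.comp tendsto_natCast_atTop_atTop
  have e1 : ∀ᶠ L : ℕ in Filter.atTop, 4 ≤ Real.log (L : ℝ) := tl.eventually_ge_atTop 4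
  have e2 : ∀ᶠ L : ℕ in Filter.atTop, |B₀| / A ≤ Real.log (L : ℝ) := tl.eventually_ge_atTop _
  have e3 : ∀ᶠ L : ℕ in Filter.atTop, B₁ / C₁ ≤ (L : ℝ) :=
    tendsto_natCast_atTop_atTop.eventually_ge_atTop _
  have e4 : ∀ᶠ L : ℕ in Filter.atTop, 2 * A * Real.log (L : ℝ) ≤ Real.sqrt L := by
    have h1 : (fun x : ℝ => Real.log x) =o[Filter.atTop] fun x : ℝ => x ^ (1 / 2 : ℝ) :=
      isLittleO_log_rpow_atTop (by norm_num)
    have h2 := h1.def (c := 1 / (2 * A)) (by positivity)
    have h3 := tendsto_natCast_atTop_atTop (R := ℝ) |>.eventually h2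
    filter_upwards [h3, e1] with L hL hL1
    rw [Real.norm_eq_abs, Real.norm_eq_abs, abs_of_nonneg (by linarith),
      abs_of_nonneg (by positivity), ← Real.sqrt_eq_rpow] at hL
    rw [one_div, inv_mul_eq_div, le_div_iff₀ (by positivity)] at hL
    linarith
  obtain ⟨L₀, h⟩ := Filter.eventually_atTop.1 (e1.and (e2.and (e3.and e4)))
  refine ⟨L₀, fun L hL q hq hlog => ?_⟩
  obtain ⟨h1, h2, h3, h4⟩ := h L hL
  have hL0 : (0 : ℝ) < L := by
    rcases Nat.eq_zero_or_pos L with h0 | h0
    · rw [h0] at h1; simp at h1; linarith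
    · exact_mod_cast h0
  have ho := omega_log_le q hq
  set w : ℝ := (q.primeFactors.card : ℝ) with hw
  have hw0 : 0 ≤ w := by positivity
  rw [div_le_iff₀ hA] at h2
  rw [div_le_iff₀ hC₁] at h3
  have hB : B₀ ≤ A * Real.log L := by
    have := le_abs_self B₀
    linarith
  have b1 : A * Real.log L + B₀ ≤ 2 * A * Real.log L := by linarith
  have b2 : w * (A * Real.log L + B₀) ≤ w * (2 * A * Real.log L) :=
    mul_le_mul_of_nonneg_left b1 hw0
  refine b2.trans ?_
  have hs := Real.mul_self_sqrt hL0.le
  have hs0 : 0 < Real.sqrt L := Real.sqrt_pos.2 hL0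
  rcases le_or_gt w (Real.sqrt L) with hc | hc
  · have : w * (2 * A * Real.log L) ≤ Real.sqrt L * Real.sqrt L :=
      mul_le_mul hc h4 (by positivity) hs0.le
    rw [hs] at this
    have : 0 ≤ 16 * A * C₁ * L := by positivity
    linarith
  · have hw1 : 0 < w := by linarith
    have hlw : Real.log L / 2 ≤ Real.log w := by
      rw [← Real.log_sqrt hL0.le]
      exact Real.log_le_log hs0 hc.le
    have c1 : w * (Real.log L / 4) ≤ w * (Real.log w - 1) :=
      mul_le_mul_of_nonneg_left (by linarith) hw0
    have c2 : w * (Real.log L / 4) ≤ 2 * C₁ * L := by linarith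
    have c3 : w * (2 * A * Real.log L) = 8 * A * (w * (Real.log L / 4)) := by ring
    rw [c3]
    have c4 : 8 * A * (w * (Real.log L / 4)) ≤ 8 * A * (2 * C₁ * L) :=
      mul_le_mul_of_nonneg_left c2 (by positivity)
    linarith

end Vale.Agent.P042.GS
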