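import Vale.Agent.P042.GS.Defs

namespace Vale.Agent.P042.GS

open Finset Vale.Agent.P042.FS

/-- exponent at `p` of a choice of exponents on `S` -/
def pe (S : Finset ℕ) (J : ℕ → ℕ) (x : (p : S) → Fin (J p + 1)) (p : ℕ) : ℕ :=
  if h : p ∈ S then (x ⟨p, h⟩ : ℕ) else 0

/-- the integer with these exponents -/
def praw (S : Finset ℕ) (J : ℕ → ℕ) (x : (p : S) → Fin (J p + 1)) : ℕ :=
  ∏ p ∈ S, p ^ pe S J x p

theorem pe_sum (S : Finset ℕ) (J : ℕ → ℕ) (G : ℕ → ℕ → ℝ) :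
    ∑ x : (p : S) → Fin (J p + 1), ∏ p ∈ S, G p (pe S J x p) =
      ∏ p ∈ S, ∑ j ∈ range (J p + 1), G p j := by
  have h1 : ∀ x : (p : S) → Fin (J p + 1), ∏ p ∈ S, G p (pe S J x p) =
      ∏ p : S, G p (x p : ℕ) := by
    intro x
    rw [← Finset.prod_coe_sort S]
    apply Finset.prod_congr rfl
    intro p _
    have : pe S J x p = (x p : ℕ) := by
      unfold pe
      rw [dif_pos p.2]
    rw [this]
  have h2 : ∏ p ∈ S, ∑ j ∈ range (J p + 1), G p j =
      ∏ p : S, ∑ j : Fin (J p + 1), G p (j : ℕ) := by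
    rw [← Finset.prod_coe_sort S]
    apply Finset.prod_congr rfl
    intro p _
    rw [Fin.sum_univ_eq_sum_range (fun j => G p j)]
  rw [Finset.sum_congr rfl (fun x _ => h1 x), h2,
    Finset.prod_univ_sum (fun p : S => (Finset.univ : Finset (Fin (J p + 1))))
      (fun (p : S) (j : Fin (J p + 1)) => G p (j : ℕ)), Fintype.piFinset_univ]

theorem praw_pos (S : Finset ℕ) (hS : ∀ p ∈ S, p.Prime) (J : ℕ → ℕ)
    (x : (p : S) → Fin (J p + 1)) : 1 ≤ praw S J x := by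
  unfold praw
  exact Finset.prod_pos fun p hp => pow_pos (hS p hp).pos _

theorem praw_fact (S : Finset ℕ) (hS : ∀ p ∈ S, p.Prime) (J : ℕ → ℕ)
    (x : (p : S) → Fin (J p + 1)) (q : ℕ) : (praw S J x).factorization q = pe S J x q := by
  unfold praw
  rw [Nat.factorization_prod (fun p hp => pow_ne_zero _ (hS p hp).ne_zero)]
  rw [Finsupp.finsetSum_apply]
  have h1 : ∀ p ∈ S, (p ^ pe S J x p).factorization q = if p = q then pe S J x p else 0 := by
    intro p hp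
    rw [(hS p hp).factorization_pow, Finsupp.single_apply]
  rw [Finset.sum_congr rfl h1, Finset.sum_ite_eq' S q]
  by_cases hq : q ∈ S
  · rw [if_pos hq]
  · rw [if_neg hq]
    unfold pe
    rw [dif_neg hq]

theorem praw_log (S : Finset ℕ) (hS : ∀ p ∈ S, p.Prime) (J : ℕ → ℕ)
    (x : (p : S) → Fin (J p + 1)) :
    Real.log (praw S J x) = ∑ p ∈ S, (pe S J x p : ℝ) * Real.log p := by
  unfold praw
  push_cast
  rw [Real.log_prod (fun p hp => by
    have := (hS p hp).pos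
    positivity)]
  apply Finset.sum_congr rfl
  intro p _
  rw [Real.log_pow]

theorem pe_le (S : Finset ℕ) (J : ℕ → ℕ) (x : (p : S) → Fin (J p + 1)) (p : ℕ) :
    pe S J x p ≤ J p := by
  unfold pe
  split_ifs with h
  · exact Nat.lt_succ_iff.mp (x ⟨p, h⟩).2
  · exact Nat.zero_le _

theorem pe_prodU (S U : Finset ℕ) (hU : U ⊆ S) (g : ℕ → ℝ) :
    ∏ p ∈ U, g p = ∏ p ∈ S, (if p ∈ U then g p else 1) := by
  rw [Finset.prod_ite_mem, Finset.inter_eq_right.mpr hU]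

theorem pe_mean (S : Finset ℕ) (J : ℕ → ℕ) (μ : ℕ → ℕ → ℝ)
    (hμ1 : ∀ p ∈ S, ∑ j ∈ range (J p + 1), μ p j = 1) (U : Finset ℕ) (F : ℕ → ℕ → ℝ) :
    ∀ p ∈ S, ∑ j ∈ range (J p + 1), μ p j * (if p ∈ U then F p j else 1) =
        if p ∈ U then ∑ j ∈ range (J p + 1), μ p j * F p j else 1 := by
  intro p hp
  split_ifs
  · rfl
  · simp [hμ1 p hp]

theorem pe_A1 (S : Finset ℕ) (J : ℕ → ℕ) (μ : ℕ → ℕ → ℝ)
    (hμ1 : ∀ p ∈ S, ∑ j ∈ range (J p + 1), μ p j = 1) (U : Finset ℕ) (hU : U ⊆ S)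
    (F : ℕ → ℕ → ℝ) :
    ∑ x : (p : S) → Fin (J p + 1), (∏ p ∈ S, μ p (pe S J x p)) * ∏ p ∈ U, F p (pe S J x p) =
      ∏ p ∈ U, ∑ j ∈ range (J p + 1), μ p j * F p j := by
  let G : ℕ → ℕ → ℝ := fun p j => μ p j * (if p ∈ U then F p j else 1)
  calc _ = ∑ x : (p : S) → Fin (J p + 1), ∏ p ∈ S, G p (pe S J x p) := by
        apply Finset.sum_congr rfl
        intro x _
        rw [pe_prodU S U hU (fun p => F p (pe S J x p)), ← Finset.prod_mul_distrib]
    _ = ∏ p ∈ S, ∑ j ∈ range (J p + 1), G p j := pe_sum S J G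
    _ = ∏ p ∈ S, (if p ∈ U then ∑ j ∈ range (J p + 1), μ p j * F p j else 1) :=
        Finset.prod_congr rfl (pe_mean S J μ hμ1 U F)
    _ = _ := (pe_prodU S U hU _).symm

theorem pe_A2 (S : Finset ℕ) (J : ℕ → ℕ) (μ : ℕ → ℕ → ℝ)
    (hμ1 : ∀ p ∈ S, ∑ j ∈ range (J p + 1), μ p j = 1) (U : Finset ℕ) (hU : U ⊆ S)
    (F : ℕ → ℕ → ℝ) (q : ℕ) (hqS : q ∈ S) (hqU : q ∉ U) :
    ∑ x : (p : S) → Fin (J p + 1), (∏ p ∈ S, μ p (pe S J x p)) *
        ((pe S J x q : ℝ) * ∏ p ∈ U, F p (pe S J x p)) =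
      (∑ j ∈ range (J q + 1), μ q j * j) * ∏ p ∈ U, ∑ j ∈ range (J p + 1), μ p j * F p j := by
  let G : ℕ → ℕ → ℝ := fun p j => μ p j * (if p ∈ U then F p j else 1) *
    (if p = q then (j : ℝ) else 1)
  have e3 : ∀ p ∈ S, ∑ j ∈ range (J p + 1), G p j =
      (if p ∈ U then ∑ j ∈ range (J p + 1), μ p j * F p j else 1) *
        (if p = q then ∑ j ∈ range (J q + 1), μ q j * j else 1) := by
    intro p hp
    simp only [G]
    by_cases h : p = q
    · subst h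
      simp [hqU]
    · simp only [h, if_false, mul_one]
      exact pe_mean S J μ hμ1 U F p hp
  calc _ = ∑ x : (p : S) → Fin (J p + 1), ∏ p ∈ S, G p (pe S J x p) := by
        apply Finset.sum_congr rfl
        intro x _
        have e2 : (pe S J x q : ℝ) = ∏ p ∈ S, (if p = q then (pe S J x p : ℝ) else 1) := by
          rw [Finset.prod_ite_eq' S q, if_pos hqS]
        rw [e2, pe_prodU S U hU (fun p => F p (pe S J x p)), ← Finset.prod_mul_distrib,
          ← Finset.prod_mul_distrib]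
        apply Finset.prod_congr rfl
        intro p _
        simp only [G]
        ring
    _ = ∏ p ∈ S, ∑ j ∈ range (J p + 1), G p j := pe_sum S J G
    _ = ∏ p ∈ S, ((if p ∈ U then ∑ j ∈ range (J p + 1), μ p j * F p j else 1) *
        (if p = q then ∑ j ∈ range (J q + 1), μ q j * j else 1)) := Finset.prod_congr rfl e3
    _ = (∏ p ∈ S, (if p ∈ U then ∑ j ∈ range (J p + 1), μ p j * F p j else 1)) *
        (∑ j ∈ range (J q + 1), μ q j * j) := by
        rw [Finset.prod_mul_distrib, Finset.prod_ite_eq' S q, if_pos hqS]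
    _ = _ := by
        rw [← pe_prodU S U hU (fun p => ∑ j ∈ range (J p + 1), μ p j * F p j), mul_comm]

/-- pointwise lower bound of the truncated weight -/
theorem pe_pt (S : Finset ℕ) (hS : ∀ p ∈ S, p.Prime) (J : ℕ → ℕ)
    (μ : ℕ → ℕ → ℝ) (hμ0 : ∀ p j, 0 ≤ μ p j) (E₀ W : ℝ) (hE₀ : 0 < E₀)
    (U : Finset ℕ) (hU : U ⊆ S) (hUW : ∑ p ∈ U, (J p : ℝ) * Real.log p ≤ W)
    (F : ℕ → ℕ → ℝ) (hF : ∀ p j, 0 ≤ F p j) (x : (p : S) → Fin (J p + 1)) :
    (∏ p ∈ S, μ p (pe S J x p)) * ∏ p ∈ U, F p (pe S J x p) -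
        (1 / (2 * E₀)) * ∑ q ∈ S \ U, Real.log q * ((∏ p ∈ S, μ p (pe S J x p)) *
          ((pe S J x q : ℝ) * ∏ p ∈ U, F p (pe S J x p))) ≤
      (if (praw S J x : ℝ) ≤ Real.exp (W + 2 * E₀) then ∏ p ∈ S, μ p (pe S J x p) else 0) *
        ∏ p ∈ U, F p ((if (praw S J x : ℝ) ≤ Real.exp (W + 2 * E₀) then praw S J x
          else 1).factorization p) := by
  have hlog : ∀ p ∈ S, 0 ≤ Real.log p := fun p hp =>
    Real.log_nonneg (by exact_mod_cast (hS p hp).one_lt.le)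
  set m := ∏ p ∈ S, μ p (pe S J x p) with hm
  set f := ∏ p ∈ U, F p (pe S J x p) with hf
  have hm0 : 0 ≤ m := Finset.prod_nonneg fun p _ => hμ0 _ _
  have hf0 : 0 ≤ f := Finset.prod_nonneg fun p _ => hF _ _
  have e1 : ∑ q ∈ S \ U, Real.log q * (m * ((pe S J x q : ℝ) * f)) =
      (∑ q ∈ S \ U, (pe S J x q : ℝ) * Real.log q) * (m * f) := by
    rw [Finset.sum_mul]
    apply Finset.sum_congr rfl
    intro q _
    ring
  rw [e1]
  have hY0 : 0 ≤ ∑ q ∈ S \ U, (pe S J x q : ℝ) * Real.log q :=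
    Finset.sum_nonneg fun q hq => mul_nonneg (by positivity)
      (hlog q (Finset.mem_sdiff.mp hq).1)
  split_ifs with h
  · simp only [praw_fact S hS]
    have : 0 ≤ (1 / (2 * E₀)) * ((∑ q ∈ S \ U, (pe S J x q : ℝ) * Real.log q) * (m * f)) := by
      positivity
    linarith
  · rw [zero_mul]
    have hY : 2 * E₀ < ∑ q ∈ S \ U, (pe S J x q : ℝ) * Real.log q := by
      by_contra hcon
      push Not at hcon
      apply h
      have hpos : (0 : ℝ) < praw S J x := by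
        exact_mod_cast praw_pos S hS J x
      rw [← Real.log_le_iff_le_exp hpos, praw_log S hS, ← Finset.sum_sdiff hU]
      have h2 : ∑ p ∈ U, (pe S J x p : ℝ) * Real.log p ≤ W := by
        refine le_trans (Finset.sum_le_sum ?_) hUW
        intro p hp
        apply mul_le_mul_of_nonneg_right _ (hlog p (hU hp))
        exact_mod_cast pe_le S J x p
      linarith
    have h3 : 1 ≤ (1 / (2 * E₀)) * ∑ q ∈ S \ U, (pe S J x q : ℝ) * Real.log q := by
      rw [one_div, inv_mul_eq_div, le_div_iff₀ (by positivity)]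
      linarith
    have h4 : 0 ≤ m * f := mul_nonneg hm0 hf0
    nlinarith

theorem pe_final (S : Finset ℕ) (hS : ∀ p ∈ S, p.Prime) (J : ℕ → ℕ)
    (μ : ℕ → ℕ → ℝ) (hμ0 : ∀ p j, 0 ≤ μ p j)
    (hμ1 : ∀ p ∈ S, ∑ j ∈ range (J p + 1), μ p j = 1) (E₀ W : ℝ) (hE₀ : 0 < E₀)
    (hE : ∑ p ∈ S, (∑ j ∈ range (J p + 1), μ p j * j) * Real.log p ≤ E₀)
    (U : Finset ℕ) (hU : U ⊆ S) (hUW : ∑ p ∈ U, (J p : ℝ) * Real.log p ≤ W)
    (F : ℕ → ℕ → ℝ) (hF : ∀ p j, 0 ≤ F p j) :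
    ∏ p ∈ U, ∑ j ∈ range (J p + 1), μ p j * F p j ≤
      2 * ∑ x : (p : S) → Fin (J p + 1),
      (if (praw S J x : ℝ) ≤ Real.exp (W + 2 * E₀) then ∏ p ∈ S, μ p (pe S J x p) else 0) *
        ∏ p ∈ U, F p ((if (praw S J x : ℝ) ≤ Real.exp (W + 2 * E₀) then praw S J x
          else 1).factorization p) := by
  have hlog : ∀ p ∈ S, 0 ≤ Real.log p := fun p hp =>
    Real.log_nonneg (by exact_mod_cast (hS p hp).one_lt.le)
  have hsum := Finset.sum_le_sum (s := Finset.univ)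
    (fun x _ => pe_pt S hS J μ hμ0 E₀ W hE₀ U hU hUW F hF x)
  rw [Finset.sum_sub_distrib, pe_A1 S J μ hμ1 U hU F, ← Finset.mul_sum, Finset.sum_comm] at hsum
  have hA2 := pe_A2 S J μ hμ1 U hU F
  have hA0 : 0 ≤ ∏ p ∈ U, ∑ j ∈ range (J p + 1), μ p j * F p j :=
    Finset.prod_nonneg fun p _ => Finset.sum_nonneg fun j _ => mul_nonneg (hμ0 _ _) (hF _ _)
  set A : ℝ := ∏ p ∈ U, ∑ j ∈ range (J p + 1), μ p j * F p j with hA
  have hB : ∑ q ∈ S \ U, ∑ x : (p : S) → Fin (J p + 1), Real.log q *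
      ((∏ p ∈ S, μ p (pe S J x p)) * ((pe S J x q : ℝ) * ∏ p ∈ U, F p (pe S J x p))) ≤
      E₀ * A := by
    have e1 : ∀ q ∈ S \ U, ∑ x : (p : S) → Fin (J p + 1), Real.log q *
        ((∏ p ∈ S, μ p (pe S J x p)) * ((pe S J x q : ℝ) * ∏ p ∈ U, F p (pe S J x p))) =
        (∑ j ∈ range (J q + 1), μ q j * j) * Real.log q * A := by
      intro q hq
      rw [Finset.mem_sdiff] at hq
      rw [← Finset.mul_sum, hA2 q hq.1 hq.2]
      ring
    rw [Finset.sum_congr rfl e1, ← Finset.sum_mul]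
    apply mul_le_mul_of_nonneg_right _ hA0
    refine le_trans (Finset.sum_le_sum_of_subset_of_nonneg Finset.sdiff_subset ?_) hE
    intro q hq _
    apply mul_nonneg _ (hlog q hq)
    exact Finset.sum_nonneg fun j _ => mul_nonneg (hμ0 _ _) (by positivity)
  have hC : (1 / (2 * E₀)) * ∑ q ∈ S \ U, ∑ x : (p : S) → Fin (J p + 1), Real.log q *
      ((∏ p ∈ S, μ p (pe S J x p)) * ((pe S J x q : ℝ) * ∏ p ∈ U, F p (pe S J x p))) ≤
      A / 2 := by
    calc _ ≤ (1 / (2 * E₀)) * (E₀ * A) := mul_le_mul_of_nonneg_left hB (by positivity)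
      _ = A / 2 := by field_simp
  linarith

/-- random moduli with independent prime parts -/
theorem product_modulus (S : Finset ℕ) (hS : ∀ p ∈ S, p.Prime) (J : ℕ → ℕ)
    (μ : ℕ → ℕ → ℝ) (hμ0 : ∀ p j, 0 ≤ μ p j)
    (hμ1 : ∀ p ∈ S, ∑ j ∈ range (J p + 1), μ p j = 1) (E₀ W : ℝ) (hE₀ : 0 < E₀) (hW : 0 ≤ W)
    (hE : ∑ p ∈ S, (∑ j ∈ range (J p + 1), μ p j * j) * Real.log p ≤ E₀) :
    ∃ (κ : Type) (_ : Fintype κ) (md : κ → ℕ) (P : κ → ℝ),
      (∀ x, 1 ≤ md x ∧ (md x : ℝ) ≤ Real.exp (W + 2 * E₀)) ∧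
      (∀ x p, p.Prime → p ∉ S → (md x).factorization p = 0) ∧
      (∀ x, 0 ≤ P x) ∧ ∑ x, P x ≤ 1 ∧
      ∀ U : Finset ℕ, U ⊆ S → ∑ p ∈ U, (J p : ℝ) * Real.log p ≤ W →
        ∀ F : ℕ → ℕ → ℝ, (∀ p j, 0 ≤ F p j) →
        ∏ p ∈ U, ∑ j ∈ range (J p + 1), μ p j * F p j ≤
          2 * ∑ x, P x * ∏ p ∈ U, F p ((md x).factorization p) := by
  classical
  refine ⟨(p : S) → Fin (J p + 1), inferInstance,
    fun x => if (praw S J x : ℝ) ≤ Real.exp (W + 2 * E₀) then praw S J x else 1,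
    fun x => if (praw S J x : ℝ) ≤ Real.exp (W + 2 * E₀) then ∏ p ∈ S, μ p (pe S J x p) else 0,
    ?_, ?_, ?_, ?_, ?_⟩
  · intro x
    simp only
    split_ifs with h
    · exact ⟨praw_pos S hS J x, h⟩
    · refine ⟨le_rfl, ?_⟩
      rw [Nat.cast_one]
      exact Real.one_le_exp (by positivity)
  · intro x p _ hpS
    simp only
    split_ifs with h
    · rw [praw_fact S hS]
      unfold pe
      rw [dif_neg hpS]
    · simp
  · intro x
    simp only
    split_ifs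
    · exact Finset.prod_nonneg fun p _ => hμ0 _ _
    · exact le_rfl
  · calc _ ≤ ∑ x : (p : S) → Fin (J p + 1), ∏ p ∈ S, μ p (pe S J x p) := by
          apply Finset.sum_le_sum
          intro x _
          split_ifs
          · exact le_rfl
          · exact Finset.prod_nonneg fun p _ => hμ0 _ _
      _ = 1 := by
          rw [pe_sum S J μ]
          exact Finset.prod_eq_one hμ1
  · intro U hU hUW F hF
    exact pe_final S hS J μ hμ0 hμ1 E₀ W hE₀ hE U hU hUW F hF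

end Vale.Agent.P042.GS
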