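import Vale.Agent.P042.GS.ProdMod
import Vale.Agent.P042.GS.PrimeSum

namespace Vale.Agent.P042.GS

open Finset Vale.Agent.P042.FS

lemma l0_pos (C : ℕ) : 0 < l0 C := Real.rpow_pos_of_pos (by norm_num) _

lemma l0_lt (C : ℕ) (hC : 1 ≤ C) : l0 C < 1 := by
  have : (0 : ℝ) < C := by exact_mod_cast hC
  exact Real.rpow_lt_one_of_one_lt_of_neg (by norm_num) (by
    rw [neg_lt_zero]; positivity)

noncomputable def bb (C : ℕ) : ℝ := 48 * 10 ^ 5 / (1 - l0 C)

lemma one_le_bb (C : ℕ) (hC : 1 ≤ C) : 1 ≤ bb C := by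
  have h1 := l0_pos C
  have h2 := l0_lt C hC
  rw [bb, le_div_iff₀ (by linarith)]
  linarith

lemma kap_eq (C L : ℕ) : kap C L = 1 / (bb C * L) := by
  rw [kap, bb]
  rw [one_div, one_div, mul_inv, inv_div]
  ring

noncomputable def TT (k C L : ℕ) : ℕ := (k * ⌈bb C * L⌉₊) ^ 2

noncomputable def ZZ (k C G L : ℕ) : ℕ := (2 * k * G * ⌈bb C * L⌉₊) ^ (2 * C)

section

variable {k C G L p v : ℕ}

lemma BL_ge (hC : 1 ≤ C) (hL : 1 ≤ L) : 1 ≤ bb C * L := by
  have h1 := one_le_bb C hC
  have h2 : (1 : ℝ) ≤ L := by exact_mod_cast hL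
  nlinarith

lemma kap_pos (hC : 1 ≤ C) (hL : 1 ≤ L) : 0 < kap C L := by
  have := BL_ge hC hL
  rw [kap_eq]
  positivity

lemma kap_le_one (hC : 1 ≤ C) (hL : 1 ≤ L) : kap C L ≤ 1 := by
  have := BL_ge hC hL
  rw [kap_eq, div_le_one (by linarith)]
  exact this

lemma lamC_prime (hp : p.Prime) : lamC C p = (p : ℝ) ^ (-(1 / (2 * C : ℝ))) := by
  rw [lamC, if_pos hp.two_le]

lemma lamC_nonneg (C p : ℕ) : 0 ≤ lamC C p := by
  unfold lamC
  split_ifs
  · positivity
  · exact le_refl 0

lemma lamC_le_one (C p : ℕ) : lamC C p ≤ 1 := by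
  unfold lamC
  split_ifs with h
  · apply Real.rpow_le_one_of_one_le_of_nonpos
    · exact_mod_cast (by omega : 1 ≤ p)
    · rw [neg_nonpos]; positivity
  · exact zero_le_one

lemma key1 (hk : 1 ≤ k) (hC : 1 ≤ C) (hG : 1 ≤ G) (hL : 1 ≤ L) (hp : p.Prime)
    (hZ : ZZ k C G L < p ^ v) :
    2 * ((G : ℝ) / (p : ℝ) ^ v) ^ (1 / (C : ℝ)) ≤ kap C L * lamC C p ^ (v - 1) := by
  have hCR : (0 : ℝ) < C := by exact_mod_cast hC
  have hGR : (1 : ℝ) ≤ G := by exact_mod_cast hG
  have hkR : (1 : ℝ) ≤ k := by exact_mod_cast hk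
  have hp1 : (1 : ℝ) < p := by exact_mod_cast hp.one_lt
  have hp0 : (0 : ℝ) < p := by linarith
  have hB := BL_ge hC hL
  rw [kap_eq]
  unfold ZZ at hZ
  set B := bb C * L with hBdef
  set n : ℝ := (p : ℝ) ^ v with hn
  have hn0 : 0 < n := by positivity
  set w : ℝ := n ^ (1 / (2 * C : ℝ)) with hw
  have hw0 : 0 < w := Real.rpow_pos_of_pos hn0 _
  have hw1 : (2 * k * G * ⌈B⌉₊ : ℝ) ≤ w := by
    have h1 : ((2 * k * G * ⌈B⌉₊ : ℝ)) ^ (2 * C) ≤ n := by
      have : (((2 * k * G * ⌈B⌉₊) ^ (2 * C) : ℕ) : ℝ) ≤ ((p ^ v : ℕ) : ℝ) := by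
        exact_mod_cast hZ.le
      push_cast at this
      exact this
    calc (2 * k * G * ⌈B⌉₊ : ℝ) = ((2 * k * G * ⌈B⌉₊ : ℝ) ^ (2 * C)) ^ (1 / (2 * C : ℝ)) := by
          rw [← Real.rpow_natCast, ← Real.rpow_mul (by positivity)]
          push_cast
          rw [mul_one_div_cancel (by positivity), Real.rpow_one]
      _ ≤ w := Real.rpow_le_rpow (by positivity) h1 (by positivity)
  have hw2 : 2 * G * B ≤ w := by
    refine le_trans ?_ hw1
    have h1 : B ≤ (⌈B⌉₊ : ℝ) := Nat.le_ceil B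
    have h2 : 2 * (G : ℝ) * B ≤ 2 * G * ⌈B⌉₊ := mul_le_mul_of_nonneg_left h1 (by positivity)
    have h3 : 2 * (G : ℝ) * ⌈B⌉₊ ≤ k * (2 * (G : ℝ) * ⌈B⌉₊) :=
      le_mul_of_one_le_left (by positivity) hkR
    linarith
  have hG1 : (G : ℝ) ^ (1 / (C : ℝ)) ≤ G := by
    calc (G : ℝ) ^ (1 / (C : ℝ)) ≤ (G : ℝ) ^ (1 : ℝ) := by
          apply Real.rpow_le_rpow_of_exponent_le hGR
          rw [div_le_one hCR]
          exact_mod_cast hC
      _ = G := Real.rpow_one _
  have hG0 : (0 : ℝ) ≤ (G : ℝ) ^ (1 / (C : ℝ)) := by positivity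
  have e1 : ((G : ℝ) / n) ^ (1 / (C : ℝ)) = (G : ℝ) ^ (1 / (C : ℝ)) / (w * w) := by
    rw [Real.div_rpow (by positivity) hn0.le]
    congr 1
    rw [hw, ← Real.rpow_add hn0]
    congr 1
    field_simp
    norm_num
  have e2 : 1 / w ≤ lamC C p ^ (v - 1) := by
    calc 1 / w = lamC C p ^ v := by
          rw [lamC_prime hp, ← Real.rpow_natCast, ← Real.rpow_mul hp0.le, hw, hn,
            ← Real.rpow_natCast, ← Real.rpow_mul hp0.le, one_div, ← Real.rpow_neg hp0.le]
          congr 1
          ring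
      _ ≤ lamC C p ^ (v - 1) :=
          pow_le_pow_of_le_one (lamC_nonneg C p) (lamC_le_one C p) (Nat.sub_le _ _)
  calc 2 * ((G : ℝ) / n) ^ (1 / (C : ℝ)) = 2 * (G : ℝ) ^ (1 / (C : ℝ)) / (w * w) := by
        rw [e1]; ring
    _ ≤ 1 / B * (1 / w) := by
        rw [div_mul_div_comm, div_le_div_iff₀ (by positivity) (by positivity)]
        have h1 : 2 * (G : ℝ) ^ (1 / (C : ℝ)) * B ≤ w := by
          refine le_trans ?_ hw2
          have : 2 * (G : ℝ) ^ (1 / (C : ℝ)) ≤ 2 * G := by linarith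
          exact mul_le_mul_of_nonneg_right this (by linarith)
        nlinarith [mul_le_mul_of_nonneg_right h1 hw0.le]
    _ ≤ 1 / B * lamC C p ^ (v - 1) := mul_le_mul_of_nonneg_left e2 (by positivity)

lemma key2 (hC : 1 ≤ C) (hL : 1 ≤ L) (hp : p.Prime) (hT : TT k C L ≤ p) :
    (k : ℝ) / Real.sqrt p ≤ kap C L := by
  have hp0 : (0 : ℝ) < p := by exact_mod_cast hp.pos
  have hB := BL_ge hC hL
  rw [kap_eq]
  unfold TT at hT
  set B := bb C * L with hBdef
  have h1 : (k : ℝ) * B ≤ Real.sqrt p := by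
    apply Real.le_sqrt_of_sq_le
    have h2 : (k : ℝ) * B ≤ k * ⌈B⌉₊ := mul_le_mul_of_nonneg_left (Nat.le_ceil B) (by positivity)
    have h3 : ((k : ℝ) * ⌈B⌉₊) ^ 2 ≤ p := by exact_mod_cast hT
    refine le_trans ?_ h3
    exact pow_le_pow_left₀ (by positivity) h2 2
  have hs : 0 < Real.sqrt p := Real.sqrt_pos.mpr hp0
  rw [div_le_div_iff₀ hs (by linarith)]
  linarith

lemma TT_le_ZZ (hC : 1 ≤ C) (hG : 1 ≤ G) : TT k C L ≤ ZZ k C G L := by
  unfold TT ZZ
  rcases Nat.eq_zero_or_pos (k * ⌈bb C * L⌉₊) with h | h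
  · rw [h]; simp
  · calc (k * ⌈bb C * L⌉₊) ^ 2 ≤ (2 * k * G * ⌈bb C * L⌉₊) ^ 2 := by
          apply Nat.pow_le_pow_left
          nlinarith
      _ ≤ (2 * k * G * ⌈bb C * L⌉₊) ^ (2 * C) := by
          apply Nat.pow_le_pow_right
          · nlinarith
          · omega

lemma gp_le_of_large (hk : 1 ≤ k) (hC : 1 ≤ C) (hG : 1 ≤ G) (hL : 1 ≤ L) (hp : p.Prime)
    (hZ : ZZ k C G L < p ^ v) : gp k C G p v ≤ kap C L * lamC C p ^ (v - 1) := by
  have h1 := key1 hk hC hG hL hp hZ
  unfold gp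
  split_ifs with h h'
  · exact (min_le_right _ _).trans h1
  · subst h'
    rw [Nat.sub_self, pow_zero, mul_one]
    refine (min_le_right _ _).trans (key2 hC hL hp ?_)
    rw [pow_one] at hZ
    exact (TT_le_ZZ hC hG).trans hZ.le
  · exact (min_le_right _ _).trans h1

lemma gp_nonneg (k C G p j : ℕ) : 0 ≤ gp k C G p j := by
  unfold gp
  split_ifs
  · exact le_min zero_le_one (by positivity)
  · exact le_min zero_le_one (by positivity)
  · exact le_min (by positivity) (by positivity)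

/-- tail probability at 1 -/
noncomputable def t1 (k C L p : ℕ) : ℝ :=
  if p < TT k C L then min 1 ((k : ℝ) / Real.sqrt p) else (k : ℝ) / p

/-- distribution of the exponent of `p` -/
noncomputable def mu (k C G L p j : ℕ) : ℝ :=
  if p ≤ k ∨ p ≤ G then (if j = Nat.log p (ZZ k C G L) then 1 else 0)
  else (if j = 0 then 1 - t1 k C L p else 0) + (if j = 1 then t1 k C L p - (k : ℝ) / p else 0) +
    (if j = Nat.log p (ZZ k C G L) then (k : ℝ) / p else 0)

lemma t1_le_one (hk : k < p) : t1 k C L p ≤ 1 := by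
  unfold t1
  split_ifs
  · exact min_le_left _ _
  · have h : (k : ℝ) < p := by exact_mod_cast hk
    have : (0 : ℝ) < p := lt_of_le_of_lt (Nat.cast_nonneg k) h
    rw [div_le_one this]
    exact h.le

lemma le_t1 (hk : k < p) : (k : ℝ) / p ≤ t1 k C L p := by
  have h : (k : ℝ) < p := by exact_mod_cast hk
  have h0 : (0 : ℝ) < p := lt_of_le_of_lt (Nat.cast_nonneg k) h
  have h1 : (1 : ℝ) ≤ p := by exact_mod_cast (by omega : 1 ≤ p)
  unfold t1
  split_ifs
  · refine le_min ?_ ?_
    · rw [div_le_one h0]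
      exact h.le
    · refine div_le_div_of_nonneg_left (by positivity) (Real.sqrt_pos.mpr h0) ?_
      exact Real.sqrt_le_iff.mpr ⟨h0.le, by nlinarith⟩
  · exact le_refl _

lemma mu_nonneg (k C G L p j : ℕ) : 0 ≤ mu k C G L p j := by
  unfold mu
  split_ifs with h
  all_goals try positivity
  all_goals
    push Not at h
    have h1 := t1_le_one (C := C) (L := L) h.1
    have h2 := le_t1 (C := C) (L := L) h.1
    have h3 : (0 : ℝ) ≤ (k : ℝ) / p := by positivity
    linarith

lemma sum_mu (f : ℕ → ℝ) (hJ : 1 ≤ Nat.log p (ZZ k C G L)) :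
    ∑ j ∈ range (Nat.log p (ZZ k C G L) + 1), mu k C G L p j * f j =
      if p ≤ k ∨ p ≤ G then f (Nat.log p (ZZ k C G L)) else
        (1 - t1 k C L p) * f 0 + (t1 k C L p - (k : ℝ) / p) * f 1 +
          (k : ℝ) / p * f (Nat.log p (ZZ k C G L)) := by
  unfold mu
  split_ifs with h
  · simp only [ite_mul, one_mul, zero_mul]
    rw [Finset.sum_ite_eq' (range _) (Nat.log p (ZZ k C G L)) (fun j => f j)]
    rw [if_pos (mem_range.mpr (Nat.lt_succ_self _))]
  · simp only [add_mul, ite_mul, zero_mul, sum_add_distrib]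
    rw [Finset.sum_ite_eq' (range _) 0 (fun j => (1 - t1 k C L p) * f j),
      Finset.sum_ite_eq' (range _) 1 (fun j => (t1 k C L p - (k : ℝ) / p) * f j),
      Finset.sum_ite_eq' (range _) (Nat.log p (ZZ k C G L)) (fun j => (k : ℝ) / p * f j),
      if_pos (mem_range.mpr (by omega)), if_pos (mem_range.mpr (by omega)),
      if_pos (mem_range.mpr (by omega))]

/-- the weight of one prime -/
noncomputable def Fp (C L p v i : ℕ) : ℝ :=
  if v ≤ i then 1 else kap C L * lamC C p ^ (v - i - 1)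

lemma Fp_nonneg (hC : 1 ≤ C) (hL : 1 ≤ L) (p v i : ℕ) : 0 ≤ Fp C L p v i := by
  unfold Fp
  split_ifs
  · exact zero_le_one
  · exact mul_nonneg (kap_pos hC hL).le (pow_nonneg (lamC_nonneg C p) _)

lemma LB (hk : 1 ≤ k) (hC : 1 ≤ C) (hG : 1 ≤ G) (hL : 1 ≤ L) (hp : p.Prime) (hv : 1 ≤ v)
    (hpZ : p ≤ ZZ k C G L) :
    gp k C G p v ≤ ∑ j ∈ range (Nat.log p (ZZ k C G L) + 1), mu k C G L p j * Fp C L p v j := by
  have hJ : 1 ≤ Nat.log p (ZZ k C G L) := Nat.log_pos hp.one_lt hpZ
  have hkap := kap_pos hC hL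
  have hkap1 := kap_le_one hC hL
  by_cases hvJ : v ≤ Nat.log p (ZZ k C G L)
  · rw [sum_mu _ hJ]
    have hFJ : Fp C L p v (Nat.log p (ZZ k C G L)) = 1 := by rw [Fp, if_pos hvJ]
    rw [hFJ]
    split_ifs with h
    · unfold gp
      rw [if_pos h]
      exact min_le_left _ _
    · have h' := h
      push Not at h'
      have h1 := t1_le_one (C := C) (L := L) h'.1
      have h2 := le_t1 (C := C) (L := L) h'.1
      unfold gp
      rw [if_neg h]
      by_cases hv1 : v = 1
      · subst hv1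
        have hF0 : Fp C L p 1 0 = kap C L := by
          rw [Fp, if_neg (by omega)]
          simp
        have hF1 : Fp C L p 1 1 = 1 := by rw [Fp, if_pos (le_refl 1)]
        rw [if_pos rfl, hF0, hF1]
        have h3 : min 1 ((k : ℝ) / Real.sqrt p) ≤ (1 - t1 k C L p) * kap C L + t1 k C L p := by
          by_cases hT : p < TT k C L
          · have : t1 k C L p = min 1 ((k : ℝ) / Real.sqrt p) := by rw [t1, if_pos hT]
            rw [← this]
            nlinarith
          · have h4 := key2 hC hL hp (not_lt.mp hT)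
            refine (min_le_right _ _).trans (h4.trans ?_)
            have h5 : 0 ≤ t1 k C L p := le_trans (by positivity) h2
            nlinarith
        linarith
      · rw [if_neg hv1]
        refine (min_le_left _ _).trans ?_
        have h3 := mul_nonneg (sub_nonneg.mpr h1) (Fp_nonneg hC hL p v 0)
        have h4 := mul_nonneg (sub_nonneg.mpr h2) (Fp_nonneg hC hL p v 1)
        linarith
  · push Not at hvJ
    have hZ : ZZ k C G L < p ^ v := Nat.lt_pow_of_log_lt hp.one_lt hvJ
    refine (gp_le_of_large hk hC hG hL hp hZ).trans ?_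
    calc kap C L * lamC C p ^ (v - 1)
        = ∑ j ∈ range (Nat.log p (ZZ k C G L) + 1), mu k C G L p j *
            (kap C L * lamC C p ^ (v - 1)) := by
          rw [sum_mu _ hJ]
          split_ifs
          · rfl
          · ring
      _ ≤ _ := by
          refine Finset.sum_le_sum fun j hj => mul_le_mul_of_nonneg_left ?_ (mu_nonneg _ _ _ _ _ _)
          have hj' := mem_range.mp hj
          rw [Fp, if_neg (by omega)]
          exact mul_le_mul_of_nonneg_left
            (pow_le_pow_of_le_one (lamC_nonneg C p) (lamC_le_one C p) (by omega)) hkap.le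

lemma log_mul_le {p Z : ℕ} (hp : p.Prime) (hZ : p ≤ Z) :
    (Nat.log p Z : ℝ) * Real.log p ≤ Real.log Z := by
  have hp0 : (0 : ℝ) < p := by exact_mod_cast hp.pos
  rw [← Real.log_pow]
  apply Real.log_le_log (by positivity)
  have := Nat.pow_log_le_self p (x := Z) (by have := hp.pos; omega)
  exact_mod_cast this

lemma E_one (hp : p.Prime) (hpZ : p ≤ ZZ k C G L) :
    (∑ j ∈ range (Nat.log p (ZZ k C G L) + 1), mu k C G L p j * j) * Real.log p ≤
      (if p ≤ k ∨ p ≤ G then Real.log (ZZ k C G L) else 0) +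
      (if p < TT k C L then (k : ℝ) * (Real.log p / Real.sqrt p) else 0) +
      2 * k * Real.log (ZZ k C G L) * (p : ℝ)⁻¹ := by
  have hJ : 1 ≤ Nat.log p (ZZ k C G L) := Nat.log_pos hp.one_lt hpZ
  have hp0 : (0 : ℝ) < p := by exact_mod_cast hp.pos
  have hp1 : (1 : ℝ) ≤ p := by exact_mod_cast hp.one_lt.le
  have hlog0 : 0 ≤ Real.log p := Real.log_nonneg hp1
  have hlogp : Real.log p ≤ Real.log (ZZ k C G L) :=
    Real.log_le_log hp0 (by exact_mod_cast hpZ)
  have hlogZ : 0 ≤ Real.log (ZZ k C G L) := hlog0.trans hlogp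
  have hJl := log_mul_le hp hpZ
  have h3 : 0 ≤ 2 * (k : ℝ) * Real.log (ZZ k C G L) * (p : ℝ)⁻¹ := by positivity
  have h4 : 0 ≤ (if p < TT k C L then (k : ℝ) * (Real.log p / Real.sqrt p) else 0) := by
    split_ifs
    · positivity
    · exact le_refl 0
  rw [sum_mu _ hJ]
  by_cases h : p ≤ k ∨ p ≤ G
  · rw [if_pos h, if_pos h]
    linarith
  · rw [if_neg h, if_neg h, zero_add]
    have ht1 : t1 k C L p * Real.log p ≤
        (if p < TT k C L then (k : ℝ) * (Real.log p / Real.sqrt p) else 0) +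
          k * Real.log (ZZ k C G L) * (p : ℝ)⁻¹ := by
      unfold t1
      split_ifs
      · have h5 : min 1 ((k : ℝ) / Real.sqrt p) * Real.log p ≤
            (k : ℝ) / Real.sqrt p * Real.log p :=
          mul_le_mul_of_nonneg_right (min_le_right _ _) hlog0
        have h6 : (k : ℝ) / Real.sqrt p * Real.log p = k * (Real.log p / Real.sqrt p) := by ring
        have h7 : 0 ≤ (k : ℝ) * Real.log (ZZ k C G L) * (p : ℝ)⁻¹ := by positivity
        linarith
      · rw [zero_add]
        have : (k : ℝ) / p * Real.log p = k * Real.log p * (p : ℝ)⁻¹ := by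
          rw [div_eq_mul_inv]; ring
        rw [this]
        refine mul_le_mul_of_nonneg_right ?_ (by positivity)
        exact mul_le_mul_of_nonneg_left hlogp (by positivity)
    have h8 : (k : ℝ) / p * (Nat.log p (ZZ k C G L) : ℝ) * Real.log p ≤
        k * Real.log (ZZ k C G L) * (p : ℝ)⁻¹ := by
      have : (k : ℝ) / p * (Nat.log p (ZZ k C G L) : ℝ) * Real.log p =
          (k : ℝ) * ((Nat.log p (ZZ k C G L) : ℝ) * Real.log p) * (p : ℝ)⁻¹ := by
        rw [div_eq_mul_inv]; ring
      rw [this]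
      refine mul_le_mul_of_nonneg_right ?_ (by positivity)
      exact mul_le_mul_of_nonneg_left hJl (by positivity)
    have h9 : (0 : ℝ) ≤ (k : ℝ) / p * Real.log p := by positivity
    have e : ((1 - t1 k C L p) * ((0 : ℕ) : ℝ) + (t1 k C L p - (k : ℝ) / p) * ((1 : ℕ) : ℝ) +
        (k : ℝ) / p * (Nat.log p (ZZ k C G L) : ℝ)) * Real.log p =
        t1 k C L p * Real.log p - (k : ℝ) / p * Real.log p +
          (k : ℝ) / p * (Nat.log p (ZZ k C G L) : ℝ) * Real.log p := by
      push_cast; ring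
    rw [e]
    linarith

lemma E_sum (hk : 1 ≤ k) (hC : 1 ≤ C) (hG : 1 ≤ G) (hL : 1 ≤ L) :
    ∑ p ∈ (range (ZZ k C G L + 1)).filter Nat.Prime,
      (∑ j ∈ range (Nat.log p (ZZ k C G L) + 1), mu k C G L p j * j) * Real.log p ≤
    (k + G + 2) * Real.log (ZZ k C G L) + 20 * k ^ 2 * (bb C * L + 1) +
      2 * k * Real.log (ZZ k C G L) * (1 + Real.log (ZZ k C G L)) := by
  have hB := BL_ge hC hL
  have hZ1 : 1 ≤ ZZ k C G L := by
    unfold ZZ
    apply Nat.one_le_pow
    have : 1 ≤ ⌈bb C * L⌉₊ := Nat.one_le_ceil_iff.mpr (by linarith)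
    have h2 : 1 ≤ k * G := Nat.mul_le_mul hk hG
    nlinarith
  have hlogZ : 0 ≤ Real.log (ZZ k C G L) := Real.log_nonneg (by exact_mod_cast hZ1)
  calc _ ≤ ∑ p ∈ (range (ZZ k C G L + 1)).filter Nat.Prime,
        ((if p ≤ k ∨ p ≤ G then Real.log (ZZ k C G L) else 0) +
        (if p < TT k C L then (k : ℝ) * (Real.log p / Real.sqrt p) else 0) +
        2 * k * Real.log (ZZ k C G L) * (p : ℝ)⁻¹) := by
        refine Finset.sum_le_sum fun p hp => ?_
        rw [mem_filter, mem_range] at hp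
        exact E_one hp.2 (by omega)
    _ ≤ _ := by
        rw [sum_add_distrib, sum_add_distrib]
        refine add_le_add (add_le_add ?_ ?_) ?_
        · rw [← sum_filter, sum_const, nsmul_eq_mul]
          refine mul_le_mul_of_nonneg_right ?_ hlogZ
          have h1 : (((range (ZZ k C G L + 1)).filter Nat.Prime).filter
              (fun p => p ≤ k ∨ p ≤ G)) ⊆ range (k + 1) ∪ range (G + 1) := by
            intro p hp
            simp only [mem_filter, mem_union, mem_range] at hp ⊢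
            omega
          have h2 := (card_le_card h1).trans (card_union_le _ _)
          rw [card_range, card_range] at h2
          have h3 : ((((range (ZZ k C G L + 1)).filter Nat.Prime).filter
              (fun p => p ≤ k ∨ p ≤ G)).card : ℝ) ≤ ((k + 1 + (G + 1) : ℕ) : ℝ) := by
            exact_mod_cast h2
          push_cast at h3
          linarith
        · rw [← sum_filter, ← mul_sum]
          have h1 : ((range (ZZ k C G L + 1)).filter Nat.Prime).filter
              (fun p => p < TT k C L) ⊆ (range (TT k C L + 1)).filter Nat.Prime := by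
            intro p hp
            simp only [mem_filter, mem_range] at hp ⊢
            exact ⟨by omega, hp.1.2⟩
          have h2 : ∑ p ∈ ((range (ZZ k C G L + 1)).filter Nat.Prime).filter
              (fun p => p < TT k C L), Real.log p / Real.sqrt p ≤
              ∑ p ∈ (range (TT k C L + 1)).filter Nat.Prime, Real.log p / Real.sqrt p := by
            refine Finset.sum_le_sum_of_subset_of_nonneg h1 fun p hp _ => ?_
            have : (1 : ℝ) ≤ p := by exact_mod_cast (mem_filter.mp hp).2.one_lt.le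
            exact div_nonneg (Real.log_nonneg this) (Real.sqrt_nonneg _)
          have h3 := prime_sqrt_sum (TT k C L)
          have h4 : Real.sqrt (TT k C L) ≤ k * (bb C * L + 1) := by
            unfold TT
            push_cast
            rw [Real.sqrt_sq (by positivity)]
            refine mul_le_mul_of_nonneg_left ?_ (by positivity)
            exact (Nat.ceil_lt_add_one (by linarith)).le
          have hk0 : (0 : ℝ) ≤ k := by positivity
          calc (k : ℝ) * ∑ p ∈ ((range (ZZ k C G L + 1)).filter Nat.Prime).filter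
                  (fun p => p < TT k C L), Real.log p / Real.sqrt p
              ≤ k * (20 * (k * (bb C * L + 1))) :=
                mul_le_mul_of_nonneg_left (h2.trans (h3.trans (by linarith))) hk0
            _ = 20 * k ^ 2 * (bb C * L + 1) := by ring
        · rw [← mul_sum]
          refine mul_le_mul_of_nonneg_left ?_ (by positivity)
          have h1 : (range (ZZ k C G L + 1)).filter Nat.Prime ⊆ Icc 1 (ZZ k C G L) := by
            intro p hp
            simp only [mem_filter, mem_range, mem_Icc] at hp ⊢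
            have := hp.2.pos
            omega
          have h2 : ∑ p ∈ (range (ZZ k C G L + 1)).filter Nat.Prime, (p : ℝ)⁻¹ ≤
              ∑ p ∈ Icc 1 (ZZ k C G L), (p : ℝ)⁻¹ :=
            Finset.sum_le_sum_of_subset_of_nonneg h1 fun p _ _ => by positivity
          refine h2.trans ?_
          have h3 := harmonic_le_one_add_log (ZZ k C G L)
          rw [harmonic_eq_sum_Icc] at h3
          push_cast at h3
          exact h3

lemma log_ZZ_le (hk : 1 ≤ k) (hC : 1 ≤ C) (hG : 1 ≤ G) (hL : 1 ≤ L) :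
    Real.log (ZZ k C G L) ≤ 2 * C * Real.log L + 2 * C * Real.log (4 * k * G * bb C) := by
  have hB := BL_ge hC hL
  have hb := one_le_bb C hC
  have hLR : (1 : ℝ) ≤ L := by exact_mod_cast hL
  have hkR : (1 : ℝ) ≤ k := by exact_mod_cast hk
  have hGR : (1 : ℝ) ≤ G := by exact_mod_cast hG
  unfold ZZ
  push_cast
  rw [Real.log_pow]
  push_cast
  rw [← mul_add]
  refine mul_le_mul_of_nonneg_left ?_ (by positivity)
  rw [← Real.log_mul (by positivity) (by positivity)]
  have hc1 : (1 : ℝ) ≤ ⌈bb C * L⌉₊ := hB.trans (Nat.le_ceil _)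
  apply Real.log_le_log (by positivity)
  have h1 : (⌈bb C * L⌉₊ : ℝ) ≤ 2 * (bb C * L) := by
    have := (Nat.ceil_lt_add_one (by linarith : 0 ≤ bb C * L)).le
    linarith
  calc 2 * (k : ℝ) * G * ⌈bb C * L⌉₊ ≤ 2 * k * G * (2 * (bb C * L)) :=
        mul_le_mul_of_nonneg_left h1 (by positivity)
    _ = L * (4 * k * G * bb C) := by ring

lemma eventually_small (c0 c1 c2 c3 B : ℝ) (_hc1 : 0 ≤ c1) : ∃ L₀ : ℕ, ∀ L : ℕ, L₀ ≤ L →
    c0 + c1 * (c3 * Real.log L + B) + c2 * (c3 * Real.log L + B) * (1 + (c3 * Real.log L + B)) ≤ L := by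
  have h0 : (fun _ : ℝ => (1 : ℝ)) =o[Filter.atTop] (id : ℝ → ℝ) :=
    Asymptotics.isLittleO_const_id_atTop 1
  have h1 : (fun x : ℝ => Real.log x) =o[Filter.atTop] (id : ℝ → ℝ) := Real.isLittleO_log_id_atTop
  have h2 : (fun x : ℝ => Real.log x ^ 2) =o[Filter.atTop] (id : ℝ → ℝ) :=
    Real.isLittleO_pow_log_id_atTop
  have h3 : (fun x : ℝ => (c0 + c1 * B + c2 * B * (1 + B)) * 1 +
      (c1 * c3 + c2 * c3 * (1 + B) + c2 * B * c3) * Real.log x + (c2 * c3 ^ 2) * Real.log x ^ 2)
      =o[Filter.atTop] (id : ℝ → ℝ) :=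
    ((h0.const_mul_left _).add (h1.const_mul_left _)).add (h2.const_mul_left _)
  have h4 := h3.bound (by norm_num : (0 : ℝ) < 1)
  rw [Filter.eventually_atTop] at h4
  obtain ⟨M, hM⟩ := h4
  refine ⟨⌈max M 0⌉₊, fun L hL => ?_⟩
  have hL' : max M 0 ≤ (L : ℝ) := (Nat.le_ceil _).trans (by exact_mod_cast hL)
  have h5 := hM L ((le_max_left _ _).trans hL')
  rw [one_mul, id, Real.norm_eq_abs, Real.norm_eq_abs,
    abs_of_nonneg ((le_max_right _ _).trans hL')] at h5
  refine le_trans (le_of_eq ?_) ((le_abs_self _).trans h5)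
  ring

end

/-- random moduli of size `exp(O(L))` dominate the complete sums -/
theorem random_modulus (k C : ℕ) (hk : 1 ≤ k) (hC : 1 ≤ C) : ∃ C' : ℕ, 1 ≤ C' ∧
    ∀ G : ℕ, 1 ≤ G → ∃ L₀ : ℕ, ∀ L : ℕ, L₀ ≤ L →
    ∃ (κ : Type) (_ : Fintype κ) (md : κ → ℕ) (P : κ → ℝ),
      (∀ x, 1 ≤ md x ∧ (md x : ℝ) ≤ Real.exp (C' * L)) ∧ (∀ x, 0 ≤ P x) ∧ ∑ x, P x ≤ 1 ∧
      ∀ q : ℕ, 1 ≤ q → q ≤ Qi C G (2 * L + 4) →
        gq k C G q ≤ 2 * ∑ x, P x * vq (kap C L) (lamC C) (md x) q := by
  have hCR : (1 : ℝ) ≤ C := by exact_mod_cast hC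
  have hkR : (1 : ℝ) ≤ k := by exact_mod_cast hk
  have hb := one_le_bb C hC
  obtain ⟨C₃, hC₃, hom⟩ := omega_bound (2 * C) (2 * C) (by positivity) (by positivity)
  refine ⟨⌈C₃ + 2 * (20 * (k : ℝ) ^ 2 * bb C + 1)⌉₊ + 1, by omega, ?_⟩
  intro G hG
  have hGR : (1 : ℝ) ≤ G := by exact_mod_cast hG
  set B₀ : ℝ := 2 * C * Real.log (4 * k * G * bb C) with hB₀
  have hB₀0 : 0 ≤ B₀ := by
    rw [hB₀]
    refine mul_nonneg (by positivity) (Real.log_nonneg ?_)
    have h1 : (1 : ℝ) ≤ k * G := by nlinarith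
    nlinarith
  obtain ⟨L₁, hL₁⟩ := hom B₀ (Real.log G + 5 * C)
  obtain ⟨L₂, hL₂⟩ := eventually_small (20 * (k : ℝ) ^ 2) (k + G + 2) (2 * k) (2 * C) B₀
    (by positivity)
  refine ⟨max (max L₁ L₂) 1, fun L hLL => ?_⟩
  have hL1 : L₁ ≤ L := (le_max_left _ _).trans ((le_max_left _ _).trans hLL)
  have hL2 : L₂ ≤ L := (le_max_right _ _).trans ((le_max_left _ _).trans hLL)
  have hL : 1 ≤ L := (le_max_right _ _).trans hLL
  have hLR : (1 : ℝ) ≤ L := by exact_mod_cast hL
  have hlogL : 0 ≤ Real.log L := Real.log_nonneg hLR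
  have hB := BL_ge hC hL
  have hZ1 : 1 ≤ ZZ k C G L := by
    unfold ZZ
    apply Nat.one_le_pow
    have : 1 ≤ ⌈bb C * L⌉₊ := Nat.one_le_ceil_iff.mpr (by linarith)
    have h2 : 1 ≤ k * G := Nat.mul_le_mul hk hG
    nlinarith
  have hlogZ : 0 ≤ Real.log (ZZ k C G L) := Real.log_nonneg (by exact_mod_cast hZ1)
  have hlogZ' := log_ZZ_le hk hC hG hL
  rw [← hB₀] at hlogZ'
  set S := (range (ZZ k C G L + 1)).filter Nat.Prime with hS
  have hE : ∑ p ∈ S, (∑ j ∈ range (Nat.log p (ZZ k C G L) + 1), mu k C G L p j * j) *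
      Real.log p ≤ (20 * (k : ℝ) ^ 2 * bb C + 1) * L := by
    refine (E_sum hk hC hG hL).trans ?_
    have h1 := hL₂ L hL2
    have h2 : ((k : ℝ) + G + 2) * Real.log (ZZ k C G L) ≤
        (k + G + 2) * (2 * C * Real.log L + B₀) :=
      mul_le_mul_of_nonneg_left hlogZ' (by positivity)
    have h3 : 2 * (k : ℝ) * Real.log (ZZ k C G L) * (1 + Real.log (ZZ k C G L)) ≤
        2 * k * (2 * C * Real.log L + B₀) * (1 + (2 * C * Real.log L + B₀)) := by
      refine mul_le_mul (mul_le_mul_of_nonneg_left hlogZ' (by positivity)) (by linarith)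
        (by positivity) (by positivity)
    have h4 : 20 * (k : ℝ) ^ 2 * (bb C * L + 1) = 20 * k ^ 2 * bb C * L + 20 * k ^ 2 := by ring
    rw [h4]
    linarith
  obtain ⟨κ, hκ, md, P, hmd, hmdS, hP0, hP1, hprod⟩ := product_modulus S
    (fun p hp => (mem_filter.mp hp).2) (fun p => Nat.log p (ZZ k C G L))
    (fun p j => mu k C G L p j) (fun p j => mu_nonneg _ _ _ _ _ _)
    (by
      intro p hp
      rw [hS, mem_filter, mem_range] at hp
      have hJ : 1 ≤ Nat.log p (ZZ k C G L) := Nat.log_pos hp.2.one_lt (by omega)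
      have := sum_mu (k := k) (C := C) (G := G) (L := L) (p := p) (fun _ => 1) hJ
      simp only [mul_one] at this
      rw [this]
      split_ifs
      · rfl
      · ring)
    ((20 * (k : ℝ) ^ 2 * bb C + 1) * L) (C₃ * L) (by positivity) (by positivity) hE
  refine ⟨κ, hκ, md, P, ?_, hP0, hP1, ?_⟩
  · intro x
    refine ⟨(hmd x).1, (hmd x).2.trans (Real.exp_le_exp.mpr ?_)⟩
    have h1 : C₃ + 2 * (20 * (k : ℝ) ^ 2 * bb C + 1) ≤
        (⌈C₃ + 2 * (20 * (k : ℝ) ^ 2 * bb C + 1)⌉₊ : ℝ) := Nat.le_ceil _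
    push_cast
    nlinarith
  · intro q hq1 hqQ
    have hq0 : q ≠ 0 := by omega
    have hqR : (0 : ℝ) < q := by exact_mod_cast hq1
    set v := fun p => q.factorization p with hv
    have hv1 : ∀ p ∈ q.primeFactors, 1 ≤ q.factorization p := by
      intro p hp
      exact (Nat.prime_of_mem_primeFactors hp).factorization_pos_of_dvd hq0
        (Nat.dvd_of_mem_primeFactors hp)
    have hlogq : Real.log q ≤ 2 * C * L + (Real.log G + 5 * C) := by
      have h1 : (q : ℝ) ≤ G * 2 ^ (C * (2 * L + 4 + 1)) := by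
        have : ((q : ℕ) : ℝ) ≤ ((Qi C G (2 * L + 4) : ℕ) : ℝ) := by exact_mod_cast hqQ
        unfold Qi at this
        push_cast at this
        exact this
      have h2 := Real.log_le_log hqR h1
      rw [Real.log_mul (by positivity) (by positivity), Real.log_pow] at h2
      push_cast at h2
      have h3 : Real.log 2 ≤ 1 := by linarith [Real.log_two_lt_d9]
      have h4 : 0 ≤ (C : ℝ) * (2 * L + 4 + 1) := by positivity
      nlinarith [mul_le_mul_of_nonneg_left h3 h4]
    have homq := hL₁ L hL1 q hq1 hlogq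
    set U := q.primeFactors.filter (fun p => p ≤ ZZ k C G L) with hU
    have hUS : U ⊆ S := by
      intro p hp
      rw [hU, mem_filter] at hp
      rw [hS, mem_filter, mem_range]
      exact ⟨by omega, Nat.prime_of_mem_primeFactors hp.1⟩
    have hUW : ∑ p ∈ U, (Nat.log p (ZZ k C G L) : ℝ) * Real.log p ≤ C₃ * L := by
      calc ∑ p ∈ U, (Nat.log p (ZZ k C G L) : ℝ) * Real.log p
          ≤ ∑ p ∈ U, Real.log (ZZ k C G L) := by
            refine Finset.sum_le_sum fun p hp => ?_
            rw [hU, mem_filter] at hp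
            exact log_mul_le (Nat.prime_of_mem_primeFactors hp.1) hp.2
        _ = U.card * Real.log (ZZ k C G L) := by rw [sum_const, nsmul_eq_mul]
        _ ≤ q.primeFactors.card * Real.log (ZZ k C G L) := by
            refine mul_le_mul_of_nonneg_right ?_ hlogZ
            exact_mod_cast card_filter_le _ _
        _ ≤ q.primeFactors.card * (2 * C * Real.log L + B₀) :=
            mul_le_mul_of_nonneg_left hlogZ' (by positivity)
        _ ≤ C₃ * L := homq
    have hmain := hprod U hUS hUW (fun p j => Fp C L p (q.factorization p) j)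
      (fun p j => Fp_nonneg hC hL _ _ _)
    have hvq : ∀ x, vq (kap C L) (lamC C) (md x) q =
        (∏ p ∈ U, Fp C L p (q.factorization p) ((md x).factorization p)) *
        ∏ p ∈ q.primeFactors.filter (fun p => ¬ p ≤ ZZ k C G L), Fp C L p (q.factorization p) 0 := by
      intro x
      have h1 : vq (kap C L) (lamC C) (md x) q =
          ∏ p ∈ q.primeFactors, Fp C L p (q.factorization p) ((md x).factorization p) := by
        unfold vq
        rw [prod_filter]
        refine Finset.prod_congr rfl fun p _ => ?_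
        unfold Fp
        by_cases h : q.factorization p ≤ (md x).factorization p
        · rw [if_neg (by omega), if_pos h]
        · rw [if_pos (by omega), if_neg h]
      rw [h1, ← Finset.prod_filter_mul_prod_filter_not q.primeFactors (fun p => p ≤ ZZ k C G L)]
      congr 1
      refine Finset.prod_congr rfl fun p hp => ?_
      rw [mem_filter] at hp
      rw [hmdS x p (Nat.prime_of_mem_primeFactors hp.1) (by
        rw [hS, mem_filter, mem_range]
        intro h
        exact hp.2 (by omega))]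
    have hgq : gq k C G q = (∏ p ∈ U, gp k C G p (q.factorization p)) *
        ∏ p ∈ q.primeFactors.filter (fun p => ¬ p ≤ ZZ k C G L), gp k C G p (q.factorization p) := by
      unfold gq
      rw [← Finset.prod_filter_mul_prod_filter_not q.primeFactors (fun p => p ≤ ZZ k C G L)]
    set Dd := ∏ p ∈ q.primeFactors.filter (fun p => ¬ p ≤ ZZ k C G L),
      Fp C L p (q.factorization p) 0 with hDd
    have hDd0 : 0 ≤ Dd := Finset.prod_nonneg fun p _ => Fp_nonneg hC hL _ _ _
    have h1 : ∏ p ∈ U, gp k C G p (q.factorization p) ≤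
        ∏ p ∈ U, ∑ j ∈ range (Nat.log p (ZZ k C G L) + 1), mu k C G L p j *
          Fp C L p (q.factorization p) j := by
      refine Finset.prod_le_prod (fun p _ => gp_nonneg _ _ _ _ _) fun p hp => ?_
      rw [hU, mem_filter] at hp
      exact LB hk hC hG hL (Nat.prime_of_mem_primeFactors hp.1) (hv1 p hp.1) hp.2
    have h2 : ∏ p ∈ q.primeFactors.filter (fun p => ¬ p ≤ ZZ k C G L),
        gp k C G p (q.factorization p) ≤ Dd := by
      refine Finset.prod_le_prod (fun p _ => gp_nonneg _ _ _ _ _) fun p hp => ?_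
      rw [mem_filter] at hp
      have hpp := Nat.prime_of_mem_primeFactors hp.1
      have hvp := hv1 p hp.1
      rw [Fp, if_neg (by omega), Nat.sub_zero]
      refine gp_le_of_large hk hC hG hL hpp ?_
      have h3 : ZZ k C G L < p := not_le.mp hp.2
      exact h3.trans_le (Nat.le_self_pow (by omega) p)
    rw [hgq]
    calc _ ≤ (∏ p ∈ U, ∑ j ∈ range (Nat.log p (ZZ k C G L) + 1), mu k C G L p j *
          Fp C L p (q.factorization p) j) * Dd :=
          mul_le_mul h1 h2 (Finset.prod_nonneg fun p _ => gp_nonneg _ _ _ _ _)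
            (le_trans (Finset.prod_nonneg fun p _ => gp_nonneg _ _ _ _ _) h1)
      _ ≤ (2 * ∑ x, P x * ∏ p ∈ U, Fp C L p (q.factorization p) ((md x).factorization p)) * Dd :=
          mul_le_mul_of_nonneg_right hmain hDd0
      _ = 2 * ∑ x, P x * vq (kap C L) (lamC C) (md x) q := by
          rw [mul_assoc, sum_mul]
          congr 1
          refine Finset.sum_congr rfl fun x _ => ?_
          rw [hvq x]
          ring

end Vale.Agent.P042.GS
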