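import Vale.Agent.P042.FS.Step
import Vale.Agent.P042.GS.CsBound
import Vale.Agent.P042.GS.MajorApprox

namespace Vale.Agent.P042.GS

open Finset Vale.Agent.P042.FS

/-- size of the window -/
theorem Hi_lower2 (C' C G L k : ℕ) (hC : 8 ≤ C) (hG : 1 ≤ G) (hL : 1 ≤ L) (hk : 1 ≤ k)
    (c : ℕ → ℤ) (hck : 0 < c k) (Y : ℕ) (hbig : PB C' C G L ≤ Y) :
    PM C' C G L * (2 * Qi C G (2 * L + 4)) ^ (8 * L + 18) ≤ Hi C k c Y (2 * L + 4) := by
  unfold Hi
  rw [Nat.le_div_iff_mul_le (by positivity)]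
  have hQ := Qi_big C G L hC hG hL
  have h1 : 8 * 2 ^ (C * (2 * L + 4 + 1)) ≤ (2 * Qi C G (2 * L + 4)) ^ 2 := by
    have e1 : 2 ^ (C * (2 * L + 4 + 1)) ≤ Qi C G (2 * L + 4) := two_pow_le_Qi C G _ hG
    nlinarith
  have h2 : 1 ≤ (c k).toNat := by omega
  have hY1 : 1 ≤ Y := by
    refine le_trans ?_ hbig
    unfold PB PM
    have h3 : 1 ≤ ⌈Real.exp ((C' : ℝ) * L)⌉₊ := Nat.one_le_ceil_iff.mpr (Real.exp_pos _)
    exact Nat.mul_pos (Nat.mul_pos h3 (by omega)) (by positivity)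
  calc PM C' C G L * (2 * Qi C G (2 * L + 4)) ^ (8 * L + 18) * (8 * 2 ^ (C * (2 * L + 4 + 1)))
      ≤ PM C' C G L * (2 * Qi C G (2 * L + 4)) ^ (8 * L + 18) * (2 * Qi C G (2 * L + 4)) ^ 2 :=
        Nat.mul_le_mul_left _ h1
    _ = PB C' C G L := by unfold PB; ring
    _ ≤ Y := hbig
    _ = Y ^ 1 := by ring
    _ ≤ Y ^ k := Nat.pow_le_pow_right hY1 hk
    _ = 1 * Y ^ k := by ring
    _ ≤ (c k).toNat * Y ^ k := Nat.mul_le_mul_right _ h2

/-- lower bound in terms of the leading term -/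
theorem Hi_lower3 (C k : ℕ) (c : ℕ → ℤ) (hck : 0 < c k) (Y i : ℕ) (hH : 1 ≤ Hi C k c Y i) :
    (c k : ℝ) * (Y : ℝ) ^ k ≤ 16 * 2 ^ (C * (i + 1)) * (Hi C k c Y i : ℝ) := by
  have h2 : (((c k).toNat : ℕ) : ℤ) = c k := Int.toNat_of_nonneg hck.le
  have h2' : (((c k).toNat : ℕ) : ℝ) = (c k : ℝ) := by
    exact_mod_cast congrArg (Int.cast (R := ℝ)) h2
  have h1 : (c k).toNat * Y ^ k ≤ 2 * (8 * 2 ^ (C * (i + 1))) * Hi C k c Y i := by
    unfold Hi at *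
    set n := (c k).toNat * Y ^ k with hn
    set d := 8 * 2 ^ (C * (i + 1)) with hd
    have hd0 : 0 < d := by positivity
    have := Nat.lt_div_mul_add (a := n) hd0
    nlinarith
  have h3 : (((c k).toNat * Y ^ k : ℕ) : ℝ) ≤
      ((2 * (8 * 2 ^ (C * (i + 1))) * Hi C k c Y i : ℕ) : ℝ) := by exact_mod_cast h1
  push_cast at h3
  rw [h2'] at h3
  linarith

/-- elementary size comparison -/
theorem size_cmp (k L : ℕ) (hL : 3 * k + 10 ≤ L) (Q : ℕ) (hQ : 2 ^ (8 * L) ≤ Q) :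
    8 * (k * (k + 1) * 2 ^ k) ≤ Q := by
  have h1 : k ≤ 2 ^ k := Nat.lt_two_pow_self.le
  have h2 : k + 1 ≤ 2 ^ (k + 1) := Nat.lt_two_pow_self.le
  calc 8 * (k * (k + 1) * 2 ^ k) ≤ 8 * (2 ^ k * 2 ^ (k + 1) * 2 ^ k) := by
        apply Nat.mul_le_mul_left
        apply Nat.mul_le_mul_right
        exact Nat.mul_le_mul h1 h2
    _ = 2 ^ (3 * k + 4) := by
        rw [show (8 : ℕ) = 2 ^ 3 by norm_num, ← pow_add, ← pow_add, ← pow_add]
        congr 1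
        ring
    _ ≤ 2 ^ (8 * L) := Nat.pow_le_pow_right (by norm_num) (by omega)
    _ ≤ Q := hQ

/-- first error bound -/
theorem err_one (k : ℕ) (hk : 1 ≤ k) (c Y d Q t : ℝ) (hY : 0 < Y) (hc : 1 ≤ c) (ht : t ≤ Q)
    (ht0 : 0 ≤ t) (hd : d ≤ Q) (hd0 : 0 ≤ d) (hs : 8 * ((k : ℝ) * (k + 1) * 2 ^ k) ≤ Q) :
    7 * (t / (c * Y ^ k)) * Y * (d * (k * (k + 1) * Real.sqrt Y * (2 * Y) ^ (k - 1))) ≤
      Q ^ 3 * Real.sqrt Y := by
  obtain ⟨k', rfl⟩ : ∃ k', k = k' + 1 := ⟨k - 1, by omega⟩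
  have e1 : k' + 1 - 1 = k' := by omega
  rw [e1]
  set κ : ℝ := ((k' + 1 : ℕ) : ℝ) with hκ
  have hκ0 : 0 ≤ κ := Nat.cast_nonneg _
  have hsq0 : 0 < Real.sqrt Y := Real.sqrt_pos.mpr hY
  have hc0 : c ≠ 0 := by positivity
  have hY0 : Y ≠ 0 := hY.ne'
  have e2 : 7 * (t / (c * Y ^ (k' + 1))) * Y * (d * (κ * (κ + 1) * Real.sqrt Y * (2 * Y) ^ k')) =
      7 * (t / c) * d * (κ * (κ + 1) * 2 ^ k') * Real.sqrt Y := by
    have hYk : Y ^ (k' + 1) = Y * Y ^ k' := by ring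
    rw [mul_pow, hYk]
    field_simp
  rw [e2]
  have e3 : t / c ≤ Q := by
    rw [div_le_iff₀ (by linarith)]
    nlinarith
  have e4 : κ * (κ + 1) * 2 ^ k' ≤ Q / 16 := by
    have : (2 : ℝ) ^ (k' + 1) = 2 * 2 ^ k' := by ring
    rw [this] at hs
    linarith
  have e5 : 0 ≤ t / c := by positivity
  have hQ0 : 0 ≤ Q := le_trans ht0 ht
  have e6 : 0 ≤ κ * (κ + 1) * 2 ^ k' := by positivity
  have e7 : 7 * (t / c) * d ≤ 7 * Q * Q := by
    apply mul_le_mul _ hd hd0 (by positivity)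
    linarith
  have e8 : 7 * (t / c) * d * (κ * (κ + 1) * 2 ^ k') ≤ 7 * Q * Q * (Q / 16) :=
    mul_le_mul e7 e4 e6 (by positivity)
  calc _ ≤ 7 * Q * Q * (Q / 16) * Real.sqrt Y := mul_le_mul_of_nonneg_right e8 hsq0.le
    _ ≤ Q ^ 3 * Real.sqrt Y := by
        apply mul_le_mul_of_nonneg_right _ hsq0.le
        have : (0 : ℝ) ≤ Q ^ 3 := by positivity
        nlinarith

/-- second error bound -/
theorem err_two (Q Y : ℝ) (hQ : 2 ≤ Q) (hY : 0 < Y) (hQ14 : Q ^ 14 ≤ Real.sqrt Y) :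
    Q ^ 3 * Real.sqrt Y + Q ≤ 1 / Q ^ 10 * Y := by
  have hsq : Real.sqrt Y * Real.sqrt Y = Y := Real.mul_self_sqrt hY.le
  have hsq0 : 0 < Real.sqrt Y := Real.sqrt_pos.mpr hY
  have hQ0 : (0 : ℝ) < Q := by linarith
  have e1 : Q ≤ Q ^ 3 * Real.sqrt Y := by
    have : (1 : ℝ) ≤ Real.sqrt Y := by
      refine le_trans ?_ hQ14
      exact one_le_pow₀ (by linarith)
    have h3 : Q ≤ Q ^ 3 := by
      calc Q = Q ^ 1 := by ring
        _ ≤ Q ^ 3 := pow_le_pow_right₀ (by linarith) (by norm_num)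
    nlinarith
  have e2 : 2 * Q ^ 3 * Q ^ 10 ≤ Real.sqrt Y := by
    refine le_trans ?_ hQ14
    have : Q ^ 14 = Q * (Q ^ 3 * Q ^ 10) := by ring
    rw [this]
    have : (0 : ℝ) ≤ Q ^ 3 * Q ^ 10 := by positivity
    nlinarith
  have e3 : 2 * Q ^ 3 ≤ 1 / Q ^ 10 * Real.sqrt Y := by
    rw [one_div, ← div_eq_inv_mul, le_div_iff₀ (by positivity)]
    exact e2
  calc Q ^ 3 * Real.sqrt Y + Q ≤ (2 * Q ^ 3) * Real.sqrt Y := by linarith
    _ ≤ (1 / Q ^ 10 * Real.sqrt Y) * Real.sqrt Y := mul_le_mul_of_nonneg_right e3 hsq0.le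
    _ = 1 / Q ^ 10 * Y := by rw [mul_assoc, hsq]

/-- the reduced fraction mod 1 is in the Farey set -/
theorem fract_mem_farey (Q : ℕ) (r : ℚ) (h : r.den ≤ Q) : Int.fract r ∈ farey Q := by
  rw [farey, Finset.mem_biUnion]
  have hden : (Int.fract r).den = r.den := Rat.den_intFract r
  refine ⟨(Int.fract r).den, ?_, ?_⟩
  · rw [Finset.mem_Icc, hden]
    exact ⟨r.den_pos, h⟩
  · rw [Finset.mem_image]
    have h0 : 0 ≤ Int.fract r := Int.fract_nonneg r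
    have h1 : Int.fract r < 1 := Int.fract_lt_one r
    have hnum : 0 ≤ (Int.fract r).num := Rat.num_nonneg.mpr h0
    have hnd : ((Int.fract r).num : ℚ) / (Int.fract r).den = Int.fract r := Rat.num_div_den _
    refine ⟨(Int.fract r).num.toNat, ?_, ?_⟩
    · rw [Finset.mem_range]
      have h2 : (Int.fract r).num < (Int.fract r).den := by
        have h3 : (0 : ℚ) < (Int.fract r).den := by
          exact_mod_cast (Int.fract r).den_pos
        rw [← hnd, div_lt_one h3] at h1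
        exact_mod_cast h1
      omega
    · have h4 : (((Int.fract r).num.toNat : ℕ) : ℤ) = (Int.fract r).num :=
        Int.toNat_of_nonneg hnum
      have h5 : (((Int.fract r).num.toNat : ℕ) : ℚ) = ((Int.fract r).num : ℚ) := by
        exact_mod_cast congrArg (Int.cast (R := ℚ)) h4
      rw [h5]
      exact hnd

/-- coverage with weights -/
theorem cov_step2 (k C G : ℕ) (hk : 1 ≤ k) (hC : 8 ≤ C) (hG : 1 ≤ G) (hW : WeylC k C) (C' L : ℕ)
    (hL : 3 * k + 10 ≤ L) (c : ℕ → ℤ) (hck : 0 < c k)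
    (hcont : ∀ B : ℕ, (∀ j, 1 ≤ j → j ≤ k → (B : ℤ) ∣ c j) → B ≤ G) (Y : ℕ)
    (hYc : ∀ j ≤ k, (c j) ^ 2 ≤ (Y : ℤ)) (hbig : PB C' C G L ≤ Y) (θ α : ℝ)
    (hα : (1 / 2 : ℝ) ^ (2 * L + 5) ≤ α / 16)
    (hsum : α / 16 * ((Ioc Y (2 * Y)).card : ℝ) ≤
      ‖∑ n ∈ Ioc Y (2 * Y), ee (θ * ((pv k c n : ℤ) : ℝ))‖) :
    ∃ θ₀ ∈ farey (Qi C G (2 * L + 4)), ∃ b : ℤ,
      |θ - (θ₀ : ℝ) - b| ≤ 1 / (8 * (Hi C k c Y (2 * L + 4) : ℝ)) ∧
      ‖∑ n ∈ Ioc Y (2 * Y), ee (θ * ((pv k c n : ℤ) : ℝ))‖ ≤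
        (gq k C G θ₀.den + 1 / (Qi C G (2 * L + 4) : ℝ) ^ 10) * ((Ioc Y (2 * Y)).card : ℝ) := by
  have hL1 : 1 ≤ L := by omega
  have hQ := Qi_big C G L hC hG hL1
  have h2Q : 2 ^ (C * (2 * L + 4 + 1)) ≤ Qi C G (2 * L + 4) := two_pow_le_Qi C G _ hG
  have hHl := Hi_lower2 C' C G L k hC hG hL1 hk c hck Y hbig
  have hPM1 : 1 ≤ PM C' C G L := by
    unfold PM
    have h3 : 1 ≤ ⌈Real.exp ((C' : ℝ) * L)⌉₊ := Nat.one_le_ceil_iff.mpr (Real.exp_pos _)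
    exact Nat.mul_pos h3 (by omega)
  have hH1 : 1 ≤ Hi C k c Y (2 * L + 4) := by
    refine le_trans ?_ hHl
    exact Nat.mul_pos hPM1 (by positivity)
  have hHl3 := Hi_lower3 C k c hck Y (2 * L + 4) hH1
  have hHu := Hi_upper C k c hck Y (2 * L + 4)
  have hQY : (Qi C G (2 * L + 4)) ^ 28 ≤ Y := by
    refine le_trans ?_ hbig
    unfold PB
    calc (Qi C G (2 * L + 4)) ^ 28 = 1 * (Qi C G (2 * L + 4)) ^ 28 := by ring
      _ ≤ PM C' C G L * (2 * Qi C G (2 * L + 4)) ^ (8 * L + 20) := by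
          apply Nat.mul_le_mul hPM1
          calc (Qi C G (2 * L + 4)) ^ 28 ≤ (2 * Qi C G (2 * L + 4)) ^ 28 :=
                Nat.pow_le_pow_left (by omega) _
            _ ≤ (2 * Qi C G (2 * L + 4)) ^ (8 * L + 20) :=
                Nat.pow_le_pow_right (by omega) (by omega)
  have h8L : 2 ^ (8 * L) ≤ Qi C G (2 * L + 4) := by
    refine le_trans ?_ h2Q
    apply Nat.pow_le_pow_right (by norm_num)
    nlinarith
  have hsize := size_cmp k L hL _ h8L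
  set Q := Qi C G (2 * L + 4) with hQdef
  set H := Hi C k c Y (2 * L + 4) with hHdef
  have hQ1 : 1 ≤ Q := by omega
  have hY1 : 1 ≤ Y := le_trans (Nat.one_le_pow _ _ hQ1) hQY
  have hYR : (0 : ℝ) < Y := by exact_mod_cast hY1
  have hQR : (2 : ℝ) ≤ Q := by
    have : 2 ≤ Q := le_trans (by norm_num) hQ
    exact_mod_cast this
  have hHR : (0 : ℝ) < H := by exact_mod_cast hH1
  have hckR : (1 : ℝ) ≤ c k := by exact_mod_cast hck
  have hcard : ((Ioc Y (2 * Y)).card : ℝ) = Y := by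
    rw [Nat.card_Ioc]
    have : 2 * Y - Y = Y := by omega
    rw [this]
  rw [hcard] at hsum ⊢
  -- the Weyl inverse property
  have hδ : (1 / ((1 / 2 : ℝ) ^ (2 * L + 5))) ^ C = 2 ^ (C * (2 * L + 4 + 1)) := by
    have e : (1 / ((1 / 2 : ℝ) ^ (2 * L + 5))) = 2 ^ (2 * L + 5) := by
      rw [one_div_pow, one_div_one_div]
    rw [e, ← pow_mul]
    congr 1
    ring
  have h2Y : 2 ^ (C * (2 * L + 4 + 1)) ≤ Y := by
    refine le_trans h2Q (le_trans ?_ hQY)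
    calc Q = Q ^ 1 := by ring
      _ ≤ Q ^ 28 := Nat.pow_le_pow_right hQ1 (by norm_num)
  obtain ⟨q, a, hq1, hq2, hq3⟩ := hW c G Y ((1 / 2 : ℝ) ^ (2 * L + 5)) θ hY1 hck hcont
    (fun j _ hj => hYc j hj) (by positivity)
    (by
      calc (1 / 2 : ℝ) ^ (2 * L + 5) ≤ (1 / 2 : ℝ) ^ 1 :=
            pow_le_pow_of_le_one (by norm_num) (by norm_num) (by omega)
        _ = 1 / 2 := by ring)
    (by rw [hδ]; exact_mod_cast h2Y)
    (by
      refine le_trans ?_ hsum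
      exact mul_le_mul_of_nonneg_right hα hYR.le)
  rw [hδ] at hq2 hq3
  have hqQ : q ≤ Q := by
    rw [hQdef]
    unfold Qi
    exact_mod_cast hq2
  -- reduced fraction
  set r : ℚ := (a : ℚ) / q with hr
  have hrR : (r : ℝ) = (a : ℝ) / q := by rw [hr]; push_cast; rfl
  have hrden : r.den ≤ Q := by
    refine le_trans ?_ hqQ
    have h1 : (r.den : ℤ) ∣ (q : ℤ) := by
      rw [hr]
      have := Rat.den_dvd a q
      exact_mod_cast this
    have h2 : r.den ∣ q := by exact_mod_cast h1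
    exact Nat.le_of_dvd (by omega) h2
  have hτ : |θ - (r.num : ℝ) / (r.den : ℕ)| ≤ 2 ^ (C * (2 * L + 4 + 1)) /
      ((c k : ℝ) * (Y : ℝ) ^ k) := by
    have : (r.num : ℝ) / (r.den : ℕ) = (a : ℝ) / q := by
      rw [← hrR]
      exact_mod_cast (Rat.num_div_den r)
    rw [this]
    exact hq3
  have hmaj := major_approx k hk c Y r.den r.num (Real.sqrt Y) θ _ r.den_pos
    (fun j hj => by
      apply Real.abs_le_sqrt
      exact_mod_cast hYc j hj) hτ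
  have hcs := cs_bound k C hk (by omega) hW c G hG hck hcont r.den r.den_pos r.num
    (by
      rw [Int.isCoprime_iff_gcd_eq_one]
      exact r.reduced)
  -- the fraction mod 1
  refine ⟨Int.fract r, ?_, ⌊r⌋, ?_, ?_⟩
  · exact fract_mem_farey Q r hrden
  · have e1 : ((Int.fract r : ℚ) : ℝ) + (⌊r⌋ : ℝ) = (r : ℝ) := by
      have := Int.fract_add_floor r
      exact_mod_cast congrArg (Rat.cast (K := ℝ)) this
    have e2 : θ - ((Int.fract r : ℚ) : ℝ) - (⌊r⌋ : ℝ) = θ - (a : ℝ) / q := by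
      rw [← hrR, ← e1]; ring
    rw [e2]
    refine le_trans hq3 ?_
    have h3 : (0 : ℝ) < (c k : ℝ) * (Y : ℝ) ^ k := by positivity
    rw [div_le_div_iff₀ h3 (by positivity)]
    linarith
  · have hden : (Int.fract r).den = r.den := Rat.den_intFract r
    rw [hden]
    refine le_trans hmaj ?_
    have hQ14 : (Q : ℝ) ^ 14 ≤ Real.sqrt Y := by
      apply Real.le_sqrt_of_sq_le
      rw [← pow_mul]
      exact_mod_cast hQY
    have hsq0 : 0 < Real.sqrt Y := Real.sqrt_pos.mpr hYR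
    have hsizeR : 8 * ((k : ℝ) * (k + 1) * 2 ^ k) ≤ Q := by exact_mod_cast hsize
    have hrdR : (r.den : ℝ) ≤ Q := by exact_mod_cast hrden
    have hrd0 : (0 : ℝ) ≤ r.den := Nat.cast_nonneg _
    have h2QR : (2 : ℝ) ^ (C * (2 * L + 4 + 1)) ≤ Q := by exact_mod_cast h2Q
    have herr := err_one k hk (c k) Y r.den Q (2 ^ (C * (2 * L + 4 + 1))) hYR hckR h2QR
      (by positivity) hrdR hrd0 hsizeR
    have hQ3 := err_two Q Y hQR hYR hQ14
    have hcsY : (Y : ℝ) * ‖cs k c r.den r.num‖ ≤ gq k C G r.den * Y := by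
      rw [mul_comm]
      exact mul_le_mul_of_nonneg_right hcs hYR.le
    calc _ ≤ gq k C G r.den * Y + Q + (Q : ℝ) ^ 3 * Real.sqrt Y := by
          linarith
      _ ≤ gq k C G r.den * Y + 1 / (Q : ℝ) ^ 10 * Y := by linarith
      _ = _ := by ring

end Vale.Agent.P042.GS
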