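import Vale.Agent.P042.GS.Step2A
import Vale.Agent.P042.GS.Step2B
import Vale.Agent.P042.GS.Circle2
import Vale.Agent.P042.GS.RandMod

namespace Vale.Agent.P042.GS

open Finset Vale.Agent.P042.FS

/-- `exp(-L)` against powers of two -/
theorem exp_quarter (L : ℕ) : (1 / 4 : ℝ) ^ L ≤ Real.exp (-(L : ℝ)) := by
  have : Real.exp (-(L : ℝ)) = Real.exp (-1) ^ L := by
    rw [← Real.exp_nat_mul]
    congr 1
    ring
  rw [this]
  apply pow_le_pow_left₀ (by norm_num)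
  rw [Real.exp_neg, one_div]
  apply inv_anti₀ (Real.exp_pos _)
  have := Real.exp_one_lt_d9
  linarith

theorem delta_small (L : ℕ) (α : ℝ) (hαL : Real.exp (-(L : ℝ)) ≤ α) :
    (1 / 2 : ℝ) ^ (2 * L + 5) ≤ α / 16 := by
  have e1 := exp_quarter L
  have e2 : (1 / 2 : ℝ) ^ (2 * L + 5) = (1 / 4) ^ L * (1 / 32) := by
    rw [pow_add, pow_mul]
    norm_num
  rw [e2]
  have e3 : (0 : ℝ) ≤ (1 / 4) ^ L := by positivity
  linarith

theorem balf_abs (A : Finset ℤ) (α : ℝ) (h0 : 0 ≤ α) (h1 : α ≤ 1) (N : ℕ) (x : ℤ) :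
    |balf A α N x| ≤ 1 := by
  unfold balf
  rw [abs_le]
  split_ifs <;> constructor <;> linarith

theorem farey_card (Q : ℕ) : (farey Q).card ≤ Q ^ 2 := by
  unfold farey
  calc _ ≤ ∑ q ∈ Icc 1 Q, ((range q).image (fun a : ℕ => (a : ℚ) / q)).card :=
        Finset.card_biUnion_le
    _ ≤ ∑ q ∈ Icc 1 Q, Q := by
        apply Finset.sum_le_sum
        intro q hq
        rw [Finset.mem_Icc] at hq
        refine le_trans Finset.card_image_le ?_
        rw [Finset.card_range]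
        exact hq.2
    _ = Q ^ 2 := by
        rw [Finset.sum_const, Nat.card_Icc, smul_eq_mul]
        simp
        ring

/-- trivial bound for the window energy -/
theorem energy_trivial (A : Finset ℤ) (α : ℝ) (h0 : 0 ≤ α) (h1 : α ≤ 1) (N H : ℕ)
    (hH : 1 ≤ H) (hHN : H ≤ N) (θ : ℚ) :
    4 / (H : ℝ) ^ 2 * ∑ y ∈ Ico (-(H : ℤ)) N,
        ‖∑ x ∈ Ico y (y + H), (balf A α N x : ℂ) * ee (-(x * (θ : ℝ)))‖ ^ 2 ≤ 8 * N := by
  have hHR : (0 : ℝ) < H := by exact_mod_cast hH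
  have e1 : ∀ y : ℤ, ‖∑ x ∈ Ico y (y + H), (balf A α N x : ℂ) * ee (-(x * (θ : ℝ)))‖ ^ 2 ≤
      (H : ℝ) ^ 2 := by
    intro y
    apply pow_le_pow_left₀ (norm_nonneg _)
    calc _ ≤ ∑ x ∈ Ico y (y + H), ‖(balf A α N x : ℂ) * ee (-(x * (θ : ℝ)))‖ := norm_sum_le _ _
      _ ≤ ∑ x ∈ Ico y (y + H), (1 : ℝ) := by
          apply Finset.sum_le_sum
          intro x _
          rw [norm_mul, norm_ee, mul_one, Complex.norm_real]
          exact balf_abs A α h0 h1 N x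
      _ = H := by
          rw [Finset.sum_const, Int.card_Ico, nsmul_eq_mul, mul_one]
          have : (y + (H : ℤ) - y).toNat = H := by omega
          rw [this]
  calc _ ≤ 4 / (H : ℝ) ^ 2 * ∑ y ∈ Ico (-(H : ℤ)) N, (H : ℝ) ^ 2 := by
        apply mul_le_mul_of_nonneg_left _ (by positivity)
        exact Finset.sum_le_sum fun y _ => e1 y
    _ = 4 * (((N : ℤ) - (-(H : ℤ))).toNat : ℝ) := by
        rw [Finset.sum_const, Int.card_Ico, nsmul_eq_mul]
        field_simp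
    _ ≤ 8 * N := by
        have : ((N : ℤ) - (-(H : ℤ))).toNat ≤ 2 * N := by omega
        have h2 : (((N : ℤ) - (-(H : ℤ))).toNat : ℝ) ≤ 2 * N := by exact_mod_cast this
        linarith

/-- conclusion from the weighted energy -/
theorem energy_sum (C L Q H N G k : ℕ) (hC : 1 ≤ C) (hL : 1 ≤ L) (hQ : 2 ^ (8 * L) ≤ Q)
    (hQ56 : 2 ^ 56 ≤ Q) (hQi : Q ≤ Qi C G (2 * L + 4)) (A : Finset ℤ) (α : ℝ)
    (hA : ∀ x ∈ A, 0 ≤ x ∧ x < N) (hN : 1 ≤ N)
    (hα : (A.card : ℝ) = α * N) (hα1 : α ≤ 1) (hαL : Real.exp (-(L : ℝ)) ≤ α) (P₁ : ℝ)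
    (hHM : P₁ * (2 * Q) ^ (8 * L + 18) ≤ H) (hHN : 65536 * H ≤ N) (hH : 1 ≤ H)
    (Pm : ℕ) (hPm : P₁ * Q ≤ Pm) (hNI : NIp Pm H ((1 + 1 / 1000) * α) A)
    (κ : Type) [Fintype κ] (md : κ → ℕ) (P : κ → ℝ)
    (hmd : ∀ x, 1 ≤ md x ∧ (md x : ℝ) ≤ P₁) (hP : ∀ x, 0 ≤ P x) (hP1 : ∑ x, P x ≤ 1)
    (hg : ∀ q : ℕ, 1 ≤ q → q ≤ Qi C G (2 * L + 4) →
        gq k C G q ≤ 2 * ∑ x, P x * vq (kap C L) (lamC C) (md x) q)
    (hE : 3 / 16 * α ^ 2 * N ≤ ∑ θ ∈ farey Q, (gq k C G θ.den + 1 / (Q : ℝ) ^ 10) *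
      (4 / (H : ℝ) ^ 2 * ∑ y ∈ Ico (-(H : ℤ)) N,
        ‖∑ x ∈ Ico y (y + H), (balf A α N x : ℂ) * ee (-(x * (θ : ℝ)))‖ ^ 2)) : False := by
  have hα0 : 0 < α := lt_of_lt_of_le (Real.exp_pos _) hαL
  have hNR : (0 : ℝ) < N := by exact_mod_cast hN
  have hQR : (2 : ℝ) ^ 56 ≤ Q := by exact_mod_cast hQ56
  have hQ0 : (0 : ℝ) < Q := by
    refine lt_of_lt_of_le ?_ hQR
    positivity
  set E : ℚ → ℝ := fun θ => 4 / (H : ℝ) ^ 2 * ∑ y ∈ Ico (-(H : ℤ)) N,
        ‖∑ x ∈ Ico y (y + H), (balf A α N x : ℂ) * ee (-(x * (θ : ℝ)))‖ ^ 2 with hEdef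
  have hE0 : ∀ θ, 0 ≤ E θ := fun θ => by
    rw [hEdef]
    simp only
    positivity
  have hE8 : ∀ θ, E θ ≤ 8 * N := fun θ => energy_trivial A α hα0.le hα1 N H hH (by omega) θ
  have hden : ∀ θ ∈ farey Q, θ.den ≤ Q := by
    intro θ hθ
    rw [farey, Finset.mem_biUnion] at hθ
    obtain ⟨q, hq, h2⟩ := hθ
    rw [Finset.mem_image] at h2
    obtain ⟨a, ha, rfl⟩ := h2
    rw [Finset.mem_Icc] at hq
    have h1 := Rat.den_dvd (a : ℤ) (q : ℤ)
    simp only [Rat.divInt_eq_div, Int.cast_natCast] at h1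
    have h2 := Int.natCast_dvd_natCast.mp h1
    exact le_trans (Nat.le_of_dvd (by omega) h2) hq.2
  -- main part
  have hmain : ∑ θ ∈ farey Q, gq k C G θ.den * E θ ≤ 2 * (α ^ 2 * N * (11 / 1000)) := by
    calc ∑ θ ∈ farey Q, gq k C G θ.den * E θ ≤
        ∑ θ ∈ farey Q, (2 * ∑ x, P x * vq (kap C L) (lamC C) (md x) θ.den) * E θ := by
          apply Finset.sum_le_sum
          intro θ hθ
          apply mul_le_mul_of_nonneg_right _ (hE0 θ)
          exact hg θ.den θ.den_pos (le_trans (hden θ hθ) hQi)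
      _ = 2 * ∑ x, P x * ∑ θ ∈ farey Q, vq (kap C L) (lamC C) (md x) θ.den * E θ := by
          rw [Finset.mul_sum]
          simp only [Finset.mul_sum, Finset.sum_mul]
          rw [Finset.sum_comm]
          apply Finset.sum_congr rfl
          intro x _
          apply Finset.sum_congr rfl
          intro θ _
          ring
      _ ≤ 2 * ∑ x, P x * (α ^ 2 * N * (11 / 1000)) := by
          apply mul_le_mul_of_nonneg_left _ (by norm_num)
          apply Finset.sum_le_sum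
          intro x _
          apply mul_le_mul_of_nonneg_left _ (hP x)
          obtain ⟨hm1, hm2⟩ := hmd x
          have hmR : (1 : ℝ) ≤ md x := by exact_mod_cast hm1
          refine modulus_bound C L Q (md x) H N hC hL (by omega) hm1 A α hA hα hαL ?_ hHN ?_
          · refine le_trans ?_ hHM
            exact mul_le_mul_of_nonneg_right hm2 (by positivity)
          · apply nip_mono Pm _ H _ A _ hNI
            have : ((md x * Q : ℕ) : ℝ) ≤ Pm := by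
              push_cast
              refine le_trans ?_ hPm
              exact mul_le_mul_of_nonneg_right hm2 hQ0.le
            exact_mod_cast this
      _ = 2 * ((∑ x, P x) * (α ^ 2 * N * (11 / 1000))) := by rw [Finset.sum_mul]
      _ ≤ 2 * (1 * (α ^ 2 * N * (11 / 1000))) := by
          apply mul_le_mul_of_nonneg_left _ (by norm_num)
          exact mul_le_mul_of_nonneg_right hP1 (by positivity)
      _ = _ := by ring
  -- error part
  have herr : ∑ θ ∈ farey Q, 1 / (Q : ℝ) ^ 10 * E θ ≤ α ^ 2 * N * (1 / 1000) := by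
    have h1 : ∑ θ ∈ farey Q, 1 / (Q : ℝ) ^ 10 * E θ ≤ (Q : ℝ) ^ 2 * (1 / (Q : ℝ) ^ 10 * (8 * N)) := by
      calc _ ≤ ∑ θ ∈ farey Q, 1 / (Q : ℝ) ^ 10 * (8 * N) := by
            apply Finset.sum_le_sum
            intro θ _
            exact mul_le_mul_of_nonneg_left (hE8 θ) (by positivity)
        _ = ((farey Q).card : ℝ) * (1 / (Q : ℝ) ^ 10 * (8 * N)) := by
            rw [Finset.sum_const, nsmul_eq_mul]
        _ ≤ _ := by
            apply mul_le_mul_of_nonneg_right _ (by positivity)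
            exact_mod_cast farey_card Q
    refine le_trans h1 ?_
    have hα2 : 1 / (Q : ℝ) ≤ α := by
      refine le_trans ?_ hαL
      refine le_trans ?_ (exp_quarter L)
      rw [one_div_pow]
      apply one_div_le_one_div_of_le (by positivity)
      have : (4 : ℝ) ^ L ≤ 2 ^ (8 * L) := by
        rw [show (4 : ℝ) = 2 ^ 2 by norm_num, ← pow_mul]
        exact pow_le_pow_right₀ (by norm_num) (by omega)
      refine le_trans this ?_
      exact_mod_cast hQ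
    have h3 : (Q : ℝ) ^ 2 * (1 / (Q : ℝ) ^ 10 * (8 * N)) =
        (1 / (Q : ℝ)) ^ 2 * N * (8 / (Q : ℝ) ^ 6) := by
      field_simp
    rw [h3]
    have h4 : (1 / (Q : ℝ)) ^ 2 ≤ α ^ 2 := pow_le_pow_left₀ (by positivity) hα2 2
    have h5 : 8 / (Q : ℝ) ^ 6 ≤ 1 / 1000 := by
      rw [div_le_div_iff₀ (by positivity) (by norm_num)]
      have h6 : (Q : ℝ) ≤ (Q : ℝ) ^ 6 := by
        calc (Q : ℝ) = (Q : ℝ) ^ 1 := by ring
          _ ≤ (Q : ℝ) ^ 6 := pow_le_pow_right₀ (by linarith) (by norm_num)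
      linarith
    apply mul_le_mul _ h5 (by positivity) (by positivity)
    exact mul_le_mul_of_nonneg_right h4 hNR.le
  have hsplit : ∑ θ ∈ farey Q, (gq k C G θ.den + 1 / (Q : ℝ) ^ 10) * E θ =
      ∑ θ ∈ farey Q, gq k C G θ.den * E θ + ∑ θ ∈ farey Q, 1 / (Q : ℝ) ^ 10 * E θ := by
    rw [← Finset.sum_add_distrib]
    apply Finset.sum_congr rfl
    intro θ _
    ring
  have hE' : 3 / 16 * α ^ 2 * N ≤ ∑ θ ∈ farey Q, (gq k C G θ.den + 1 / (Q : ℝ) ^ 10) * E θ := hE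
  rw [hsplit] at hE'
  have : 0 < α ^ 2 * (N : ℝ) := by positivity
  nlinarith

/-- a set that avoids `H(n)` and is dense on no short progression does not exist -/
theorem step_contra2 (k C : ℕ) (hk : 1 ≤ k) (hC : 8 ≤ C) (hW : WeylC k C) : ∃ C' : ℕ,
    1 ≤ C' ∧ ∀ G : ℕ, 1 ≤ G → ∃ L₀ : ℕ, 1 ≤ L₀ ∧ ∀ L : ℕ, L₀ ≤ L →
    ∀ (c : ℕ → ℤ) (_ : 0 < c k)
    (_ : ∀ B : ℕ, (∀ j, 1 ≤ j → j ≤ k → (B : ℤ) ∣ c j) → B ≤ G)
    (N Y n₀ : ℕ) (A : Finset ℤ) (α : ℝ) (_ : ∀ x ∈ A, 0 ≤ x ∧ x < N)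
    (_ : (A.card : ℝ) = α * N) (_ : Real.exp (-(L : ℝ)) ≤ α) (_ : Avoid k c n₀ A)
    (_ : n₀ ≤ Y) (_ : ∀ j ≤ k, (c j) ^ 2 ≤ (Y : ℤ)) (_ : 16 * k ^ 2 ≤ Y)
    (_ : c k * 2 ^ (k + 4) * (Y : ℤ) ^ k ≤ N) (_ : PB C' C G L ≤ Y)
    (_ : NIp (PM C' C G L) (Hi C k c Y (2 * L + 4)) ((1 + 1 / 1000) * α) A), False := by
  obtain ⟨C', hC', hR⟩ := random_modulus k C hk (by omega)
  refine ⟨C', hC', ?_⟩
  intro G hG
  obtain ⟨L₁, hL₁⟩ := hR G hG
  refine ⟨max L₁ (3 * k + 10), by omega, ?_⟩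
  intro L hL c hck hcont N Y n₀ A α hA hα hαL hav hn₀ hYc hYk hYN hbig hNI
  have hLk : 3 * k + 10 ≤ L := le_trans (le_max_right _ _) hL
  have hL1 : 1 ≤ L := by omega
  obtain ⟨κ, hκ, md, P, hmd, hP, hP1, hg⟩ := hL₁ L (le_trans (le_max_left _ _) hL)
  have hα0 : 0 < α := lt_of_lt_of_le (Real.exp_pos _) hαL
  have hQ := Qi_big C G L hC hG hL1
  have h2Q : 2 ^ (C * (2 * L + 4 + 1)) ≤ Qi C G (2 * L + 4) := two_pow_le_Qi C G _ hG
  have hHl := Hi_lower2 C' C G L k hC hG hL1 hk c hck Y hbig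
  have hHu := Hi_upper C k c hck Y (2 * L + 4)
  have hceil : 1 ≤ ⌈Real.exp ((C' : ℝ) * L)⌉₊ := Nat.one_le_ceil_iff.mpr (Real.exp_pos _)
  have hPM1 : 1 ≤ PM C' C G L := by
    unfold PM
    exact Nat.mul_pos hceil (by omega)
  have hH1 : 1 ≤ Hi C k c Y (2 * L + 4) := by
    refine le_trans ?_ hHl
    exact Nat.mul_pos hPM1 (by positivity)
  have hY1 : 1 ≤ Y := by
    refine le_trans ?_ hbig
    unfold PB
    exact Nat.mul_pos hPM1 (by positivity)
  have hYR : (0 : ℝ) < Y := by exact_mod_cast hY1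
  have hckR : (0 : ℝ) < c k := by exact_mod_cast hck
  have hYN' : (c k : ℝ) * 2 ^ (k + 4) * (Y : ℝ) ^ k ≤ N := by
    have e3 : ((c k * 2 ^ (k + 4) * (Y : ℤ) ^ k : ℤ) : ℝ) ≤ N := by exact_mod_cast hYN
    push_cast at e3
    exact e3
  have hN1 : 1 ≤ N := by
    have : (0 : ℝ) < N := lt_of_lt_of_le (by positivity) hYN'
    exact_mod_cast this
  have hNR : (0 : ℝ) < N := by exact_mod_cast hN1
  -- `α ≤ 1`
  have hα1 : α ≤ 1 := by
    have h1 : A ⊆ Finset.Ico 0 (N : ℤ) := fun x hx => by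
      rw [Finset.mem_Ico]; exact hA x hx
    have h2 := Finset.card_le_card h1
    rw [Int.card_Ico] at h2
    have h3 : (A.card : ℝ) ≤ N := by
      have : A.card ≤ N := by omega
      exact_mod_cast this
    rw [hα] at h3
    by_contra hcon
    push Not at hcon
    nlinarith
  -- window size against `N`
  have hHN : 65536 * Hi C k c Y (2 * L + 4) ≤ N := by
    have e1 : (8 * 2 ^ 8 : ℝ) ≤ 8 * 2 ^ (C * (2 * L + 4 + 1)) := by
      have : (2 : ℝ) ^ 8 ≤ 2 ^ (C * (2 * L + 4 + 1)) :=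
        pow_le_pow_right₀ (by norm_num) (by nlinarith)
      linarith
    have e2 : (2 : ℝ) ^ 5 ≤ 2 ^ (k + 4) := pow_le_pow_right₀ (by norm_num) (by omega)
    have e4 : (0 : ℝ) ≤ (c k : ℝ) * (Y : ℝ) ^ k := by positivity
    have hHR : (0 : ℝ) ≤ (Hi C k c Y (2 * L + 4) : ℝ) := Nat.cast_nonneg _
    have : (65536 : ℝ) * (Hi C k c Y (2 * L + 4) : ℝ) ≤ N := by
      calc (65536 : ℝ) * (Hi C k c Y (2 * L + 4) : ℝ) =
          2 ^ 5 * (8 * 2 ^ 8 * (Hi C k c Y (2 * L + 4) : ℝ)) := by ring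
        _ ≤ 2 ^ 5 * (8 * 2 ^ (C * (2 * L + 4 + 1)) * (Hi C k c Y (2 * L + 4) : ℝ)) := by
            apply mul_le_mul_of_nonneg_left _ (by positivity)
            exact mul_le_mul_of_nonneg_right e1 hHR
        _ ≤ 2 ^ 5 * ((c k : ℝ) * (Y : ℝ) ^ k) := mul_le_mul_of_nonneg_left hHu (by positivity)
        _ ≤ 2 ^ (k + 4) * ((c k : ℝ) * (Y : ℝ) ^ k) := mul_le_mul_of_nonneg_right e2 e4
        _ = (c k : ℝ) * 2 ^ (k + 4) * (Y : ℝ) ^ k := by ring
        _ ≤ N := hYN'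
    exact_mod_cast this
  -- facts on `T`
  have hT : (Ioc Y (2 * Y)).Nonempty := ⟨2 * Y, by rw [Finset.mem_Ioc]; omega⟩
  have hpv : ∀ n ∈ Ioc Y (2 * Y), (0 : ℝ) < (pv k c n : ℝ) ∧ 4 * (pv k c n : ℝ) ≤ N ∧
      3 / 4 * ((c k : ℝ) * (Y : ℝ) ^ k) ≤ (pv k c n : ℝ) := by
    intro n hn
    rw [Finset.mem_Ioc] at hn
    obtain ⟨h1, h2⟩ := pv_bounds k hk c hck Y hY1 hYc hYk n hn.1
    have hnY : (Y : ℝ) ≤ n := by exact_mod_cast hn.1.le
    have hn2 : (n : ℝ) ≤ 2 * Y := by exact_mod_cast hn.2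
    have e1 : (Y : ℝ) ^ k ≤ (n : ℝ) ^ k := pow_le_pow_left₀ hYR.le hnY k
    have e2 : (n : ℝ) ^ k ≤ 2 ^ k * (Y : ℝ) ^ k := by
      rw [← mul_pow]
      exact pow_le_pow_left₀ (by linarith) hn2 k
    have e3 : (0 : ℝ) < (Y : ℝ) ^ k := by positivity
    have e4 : (c k : ℝ) * (Y : ℝ) ^ k ≤ (c k : ℝ) * (n : ℝ) ^ k :=
      mul_le_mul_of_nonneg_left e1 hckR.le
    have e5 : (c k : ℝ) * (n : ℝ) ^ k ≤ (c k : ℝ) * (2 ^ k * (Y : ℝ) ^ k) :=
      mul_le_mul_of_nonneg_left e2 hckR.le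
    have e6 : 0 < (c k : ℝ) * (Y : ℝ) ^ k := by positivity
    refine ⟨by linarith, ?_, by linarith⟩
    have e7 : (c k : ℝ) * 2 ^ (k + 4) * (Y : ℝ) ^ k = 16 * ((c k : ℝ) * (2 ^ k * (Y : ℝ) ^ k)) := by
      ring
    have e8 : 0 ≤ (c k : ℝ) * (2 ^ k * (Y : ℝ) ^ k) := by positivity
    linarith
  -- edges
  have hedge : ∀ n ∈ Ioc Y (2 * Y), ∀ u : ℤ,
      ((A.filter (fun x => u ≤ x ∧ x < u + (pv k c n).toNat)).card : ℝ) ≤ 2 * α * pv k c n := by
    intro n hn u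
    obtain ⟨h1, h2, h3⟩ := hpv n hn
    have hnn : 0 ≤ pv k c n := by
      have : (0 : ℝ) ≤ (pv k c n : ℝ) := h1.le
      exact_mod_cast this
    have h4 := interval_of_window _ hH1 ((1 + 1 / 1000) * α) (by positivity) A
      (fun u => nip_window _ _ hPM1 _ A hNI u) u (pv k c n).toNat
    have h5 : (((pv k c n).toNat : ℕ) : ℝ) = (pv k c n : ℝ) := by
      have := Int.toNat_of_nonneg hnn
      exact_mod_cast congrArg (Int.cast (R := ℝ)) this
    rw [h5] at h4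
    have h6 : 2048 * (Hi C k c Y (2 * L + 4) : ℝ) ≤ (c k : ℝ) * (Y : ℝ) ^ k := by
      refine le_trans ?_ hHu
      apply mul_le_mul_of_nonneg_right _ (Nat.cast_nonneg _)
      have : (2 : ℝ) ^ 8 ≤ 2 ^ (C * (2 * L + 4 + 1)) :=
        pow_le_pow_right₀ (by norm_num) (by nlinarith)
      linarith
    refine le_trans h4 ?_
    have h7 : (pv k c n : ℝ) + (Hi C k c Y (2 * L + 4) : ℝ) ≤ (1 + 1 / 1000) * pv k c n := by
      linarith
    calc (1 + 1 / 1000) * α * ((pv k c n : ℝ) + (Hi C k c Y (2 * L + 4) : ℝ)) ≤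
        (1 + 1 / 1000) * α * ((1 + 1 / 1000) * pv k c n) :=
          mul_le_mul_of_nonneg_left h7 (by positivity)
      _ ≤ 2 * α * pv k c n := by
          have : 0 ≤ α * (pv k c n : ℝ) := by positivity
          nlinarith
  have henergy := circle_energy2 A N α hN1 hA hα hα0 (Ioc Y (2 * Y)) (fun n => pv k c n) hT
    (by
      intro n hn
      obtain ⟨h1, h2, h3⟩ := hpv n hn
      constructor
      · exact_mod_cast h1
      · exact_mod_cast h2)
    (by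
      intro n hn x hx
      obtain ⟨h1, h2, h3⟩ := hpv n hn
      rw [Finset.mem_Ioc] at hn
      exact hav x hx n (by omega) (by exact_mod_cast h1))
    (by
      intro n hn
      obtain ⟨h1, h2, h3⟩ := hpv n hn
      have h4 : 0 < pv k c n := by exact_mod_cast h1
      refine le_trans ?_ (hedge n hn 0)
      have : A.filter (fun x => x < pv k c n) ⊆
          A.filter (fun x => 0 ≤ x ∧ x < 0 + ((pv k c n).toNat : ℤ)) := by
        intro x hx
        rw [Finset.mem_filter] at hx ⊢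
        refine ⟨hx.1, (hA x hx.1).1, ?_⟩
        have := Int.toNat_of_nonneg h4.le
        have := hx.2
        omega
      exact_mod_cast Finset.card_le_card this)
    (by
      intro n hn
      obtain ⟨h1, h2, h3⟩ := hpv n hn
      have h4 : 0 < pv k c n := by exact_mod_cast h1
      refine le_trans ?_ (hedge n hn ((N : ℤ) - pv k c n))
      have : A.filter (fun x => (N : ℤ) - pv k c n ≤ x) ⊆
          A.filter (fun x => (N : ℤ) - pv k c n ≤ x ∧
            x < (N : ℤ) - pv k c n + ((pv k c n).toNat : ℤ)) := by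
        intro x hx
        rw [Finset.mem_filter] at hx ⊢
        refine ⟨hx.1, hx.2, ?_⟩
        have := Int.toNat_of_nonneg h4.le
        have := (hA x hx.1).2
        omega
      exact_mod_cast Finset.card_le_card this)
    (Qi C G (2 * L + 4)) (Hi C k c Y (2 * L + 4)) hH1 (by omega)
    (fun θ => gq k C G θ.den + 1 / (Qi C G (2 * L + 4) : ℝ) ^ 10)
    (by
      intro θ _
      have : 0 ≤ gq k C G θ.den := Finset.prod_nonneg fun p _ => gp_nonneg k C G p _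
      positivity)
    (by
      intro θ hsum
      exact cov_step2 k C G hk hC hG hW C' L hLk c hck hcont Y hYc hbig θ α
        (delta_small L α hαL) hsum)
  have h8L : 2 ^ (8 * L) ≤ Qi C G (2 * L + 4) := by
    refine le_trans ?_ h2Q
    apply Nat.pow_le_pow_right (by norm_num)
    nlinarith
  refine energy_sum C L (Qi C G (2 * L + 4)) (Hi C k c Y (2 * L + 4)) N G k (by omega) hL1
    h8L hQ le_rfl A α hA hN1 hα hα1 hαL (⌈Real.exp ((C' : ℝ) * L)⌉₊ : ℝ) ?_ hHN hH1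
    (PM C' C G L) ?_ hNI κ md P ?_ hP hP1 hg henergy
  · have e1 : ⌈Real.exp ((C' : ℝ) * L)⌉₊ * (2 * Qi C G (2 * L + 4)) ^ (8 * L + 18) ≤
        Hi C k c Y (2 * L + 4) := by
      refine le_trans ?_ hHl
      apply Nat.mul_le_mul_right
      unfold PM
      exact Nat.le_mul_of_pos_right _ (by omega)
    exact_mod_cast e1
  · unfold PM
    push_cast
    exact le_rfl
  · intro x
    exact ⟨(hmd x).1, le_trans (hmd x).2 (Nat.le_ceil _)⟩

end Vale.Agent.P042.GS
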