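import Vale.Agent.P042.FS.WinMinor
import Vale.Agent.P042.GS.Freq2
import Vale.Agent.P042.GS.Level2

namespace Vale.Agent.P042.GS

open Finset Vale.Agent.P042.FS

/-- density on progressions for the shifted indicator -/
theorem w2_dens (M Q H : ℕ) (hM : 1 ≤ M) (hH : 0 < H) (a : ℝ) (_ha : 0 ≤ a) (A : Finset ℤ)
    (hNI : NIp (M * Q) H a A) (r y : ℤ) (M' : ℕ) (hM' : 1 ≤ M') (hM'Q : M' ≤ Q) (z : ℤ) :
    (((1 : ℕ) : ℝ) * (M' : ℝ)) / ((H : ℝ) / M) *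
        ∑ n ∈ (Ico (wu M r y) (wu M r (y + H))).filter (fun n => n ≡ z [ZMOD M']),
          wphi A M r y H n ≤ a := by
  classical
  have hMz : (0 : ℤ) < M := by exact_mod_cast hM
  have hM0 : (0 : ℝ) < M := by exact_mod_cast hM
  have hM'0 : (0 : ℝ) < M' := by exact_mod_cast hM'
  have hH0 : (0 : ℝ) < H := by exact_mod_cast hH
  set F := (Ico (wu M r y) (wu M r (y + H))).filter (fun n => n ≡ z [ZMOD M']) with hF
  set Z := F.filter (fun n => r + M * n ∈ A) with hZ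
  have hsum : ∑ n ∈ F, wphi A M r y H n = (Z.card : ℝ) := by
    rw [hZ, card_filter]
    push_cast
    apply sum_congr rfl
    intro n hn
    rw [hF, mem_filter, wu_mem M hM] at hn
    unfold wphi
    by_cases h : r + M * n ∈ A
    · rw [if_pos h, if_pos ⟨h, hn.1⟩]
    · rw [if_neg h, if_neg (fun h' => h h'.1)]
  rw [hsum]
  have hcard : Z.card ≤ (A.filter (fun x => y ≤ x ∧ x < y + H ∧
      x ≡ r + M * z [ZMOD ((M * M' : ℕ) : ℤ)])).card := by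
    apply card_le_card_of_injOn (fun n => r + M * n)
    · intro n hn
      rw [mem_coe, hZ, mem_filter, hF, mem_filter, wu_mem M hM] at hn
      simp only [coe_filter, Set.mem_ofPred_eq]
      refine ⟨hn.2, hn.1.1.1, hn.1.1.2, ?_⟩
      have h1 : (M' : ℤ) ∣ z - n := (Int.modEq_iff_dvd).1 hn.1.2
      rw [Int.modEq_iff_dvd]
      have h2 : r + M * z - (r + M * n) = M * (z - n) := by ring
      rw [h2]
      push_cast
      exact mul_dvd_mul_left _ h1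
    · intro n _ n' _ h
      have h' : r + (M : ℤ) * n = r + M * n' := h
      have : (M : ℤ) * n = M * n' := by linarith
      exact mul_left_cancel₀ hMz.ne' this
  have h3 := hNI (M * M') (Nat.mul_pos hM hM') (Nat.mul_le_mul_left _ hM'Q) y (r + M * z)
  have h4 : (Z.card : ℝ) ≤ a * H / ((M * M' : ℕ) : ℝ) := by
    refine le_trans ?_ h3
    exact_mod_cast hcard
  push_cast at h4
  calc (((1 : ℕ) : ℝ) * (M' : ℝ)) / ((H : ℝ) / M) * (Z.card : ℝ)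
      ≤ (((1 : ℕ) : ℝ) * (M' : ℝ)) / ((H : ℝ) / M) * (a * H / (M * M')) := by
        apply mul_le_mul_of_nonneg_left h4
        positivity
    _ = a := by
        push_cast
        field_simp

/-- the factors of the weights are at most one -/
theorem w2_vq_le_one (κ₀ : ℝ) (h0 : 0 ≤ κ₀) (h1 : κ₀ ≤ 1) (lam : ℕ → ℝ) (l₀ : ℝ) (hl₁ : l₀ < 1)
    (hlam : ∀ p, 0 ≤ lam p ∧ lam p ≤ l₀) (M q : ℕ) :
    0 ≤ vq κ₀ lam M q ∧ vq κ₀ lam M q ≤ 1 := by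
  have hf : ∀ p ∈ q.primeFactors.filter (fun p => M.factorization p < q.factorization p),
      0 ≤ κ₀ * lam p ^ (q.factorization p - M.factorization p - 1) :=
    fun p _ => mul_nonneg h0 (pow_nonneg (hlam p).1 _)
  have hg : ∀ p ∈ q.primeFactors.filter (fun p => M.factorization p < q.factorization p),
      κ₀ * lam p ^ (q.factorization p - M.factorization p - 1) ≤ 1 := by
    intro p _
    have h2 : lam p ≤ 1 := (hlam p).2.trans hl₁.le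
    exact mul_le_one₀ h1 (pow_nonneg (hlam p).1 _) (pow_le_one₀ (hlam p).1 h2)
  exact ⟨prod_nonneg hf, prod_le_one hf hg⟩

/-- the frequency of `M θ` -/
theorem w2_freq (Q M : ℕ) (hM : 1 ≤ M) (lam : ℕ → ℝ) (hlam : ∀ p, 0 ≤ lam p) (ρ Kinv : ℝ)
    (hρ : 0 ≤ ρ) (hK0 : 0 ≤ Kinv) (hK1 : Kinv ≤ 1) (θ : ℚ) (hθ : θ.den ≤ Q)
    (hne : ¬ ∃ b : ℤ, (M : ℚ) * θ = b) :
    ∃ ξ : ∀ p : PI Q, ZMod (pN Q p),
      (∀ n : ℤ, ee ((M : ℝ) * (θ : ℝ) * n) = chi ξ (toX (pN Q) n)) ∧ dn ξ ≤ Q ∧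
      vq (Kinv * ρ) lam M θ.den ≤
        Kinv * wt (fun p : PI Q => (p : ℕ)) (fun p : PI Q => lam p) ρ ξ := by
  have hden : ((M : ℚ) * θ).den ∣ θ.den := by
    have h := Rat.mul_den_dvd (M : ℚ) θ
    simpa using h
  have hdle : ((M : ℚ) * θ).den ≤ Q := (Nat.le_of_dvd θ.den_pos hden).trans hθ
  obtain ⟨ξ, h1, h2, h3, h4⟩ := freq2 Q ((M : ℚ) * θ) hdle
  refine ⟨ξ, ?_, ?_, ?_⟩
  · intro n
    have := h1 n
    push_cast at this
    exact this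
  · rw [h3]; exact hdle
  · have hbij : ∏ p ∈ θ.den.primeFactors.filter (fun p => M.factorization p < θ.den.factorization p),
        (Kinv * ρ * lam p ^ (θ.den.factorization p - M.factorization p - 1)) =
        ∏ i ∈ spt ξ, (Kinv * ρ * lam i ^ ((addOrderOf (ξ i)).factorization (i : ℕ) - 1)) := by
      symm
      apply prod_bij (fun (i : PI Q) _ => (i : ℕ))
      · intro i hi
        have hp : Nat.Prime (i : ℕ) := fq_prime i
        rw [h4, mem_filter] at hi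
        have h5 : 0 < ((M : ℚ) * θ).den.factorization (i : ℕ) :=
          hp.factorization_pos_of_dvd (Rat.den_ne_zero _) hi.2
        rw [den_mul M hM θ _ hp] at h5
        rw [mem_filter, Nat.mem_primeFactors]
        refine ⟨⟨hp, hi.2.trans hden, Rat.den_ne_zero _⟩, ?_⟩
        omega
      · intro i _ j _ hij
        exact Subtype.ext hij
      · intro p hp
        rw [mem_filter, Nat.mem_primeFactors] at hp
        obtain ⟨⟨hp1, hp2, _⟩, hp3⟩ := hp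
        have hpQ : p ≤ Q := (Nat.le_of_dvd θ.den_pos hp2).trans hθ
        refine ⟨⟨p, mem_filter.2 ⟨mem_range.2 (by omega), hp1⟩⟩, ?_, rfl⟩
        rw [h4, mem_filter]
        refine ⟨mem_univ _, ?_⟩
        have h5 : 0 < ((M : ℚ) * θ).den.factorization p := by
          rw [den_mul M hM θ _ hp1]
          omega
        exact Nat.dvd_of_factorization_pos h5.ne'
      · intro i _
        have hp : Nat.Prime (i : ℕ) := fq_prime i
        rw [h2 i, hp.factorization_pow, Finsupp.single_eq_same, den_mul M hM θ _ hp]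
    have hcard : 1 ≤ (spt ξ).card := by
      have h5 : ((M : ℚ) * θ).den ≠ 1 := by
        intro h
        exact hne ⟨((M : ℚ) * θ).num, (Rat.den_eq_one_iff _).1 h |>.symm⟩
      have h6 := Nat.minFac_prime h5
      have h7 := Nat.minFac_dvd ((M : ℚ) * θ).den
      have h8 : ((M : ℚ) * θ).den.minFac ≤ Q := (Nat.le_of_dvd (Rat.den_pos _) h7).trans hdle
      rw [Nat.one_le_iff_ne_zero, Ne, card_eq_zero]
      intro h9
      have h10 : (⟨((M : ℚ) * θ).den.minFac, mem_filter.2 ⟨mem_range.2 (by omega), h6⟩⟩ : PI Q)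
          ∈ spt ξ := by
        rw [h4, mem_filter]
        exact ⟨mem_univ _, h7⟩
      rw [h9] at h10
      exact absurd h10 (notMem_empty _)
    unfold vq
    rw [hbij]
    unfold wt
    have h11 : ∏ i ∈ spt ξ, (Kinv * ρ * lam i ^ ((addOrderOf (ξ i)).factorization (i : ℕ) - 1)) =
        Kinv ^ (spt ξ).card *
          ∏ i ∈ spt ξ, (ρ * lam i ^ ((addOrderOf (ξ i)).factorization (i : ℕ) - 1)) := by
      rw [← prod_const, ← prod_mul_distrib]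
      apply prod_congr rfl
      intro i _
      ring
    rw [h11]
    apply mul_le_mul_of_nonneg_right
    · calc Kinv ^ (spt ξ).card ≤ Kinv ^ 1 := pow_le_pow_of_le_one hK0 hK1 hcard
        _ = Kinv := pow_one _
    · exact prod_nonneg fun i _ => mul_nonneg hρ (pow_nonneg (hlam _) _)

open Classical in
/-- the energy of `A` in one window -/
theorem w2_energy (Q M m H : ℕ) (hQ : 2 ≤ Q) (hm : 1 ≤ m) (hM : 1 ≤ M) (lam : ℕ → ℝ)
    (l₀ : ℝ) (hl₀ : 0 ≤ l₀) (hl₁ : l₀ < 1) (hlam : ∀ p, 0 ≤ lam p ∧ lam p ≤ l₀) (Kinv : ℝ)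
    (hK0 : 0 ≤ Kinv) (hK1 : Kinv ≤ 1) (A : Finset ℤ) (a : ℝ)
    (ha : Real.exp (-(2 * m : ℝ)) ≤ a) (hH : (M : ℝ) * (2 * Q) ^ (8 * m) ≤ H)
    (hNI : NIp (M * Q) H a A) (y : ℤ) :
    ∑ θ ∈ (farey Q).filter (fun θ => ¬ ∃ b : ℤ, (M : ℚ) * θ = b),
      vq (Kinv * ((1 - l₀) / (48 * m))) lam M θ.den *
        ‖∑ x ∈ Ico y (y + H), (if x ∈ A then (1 : ℂ) else 0) * ee (-(x * (θ : ℝ)))‖ ^ 2 ≤
      25 * Kinv * a ^ 2 * (H : ℝ) ^ 2 := by
  have hMz : (0 : ℤ) < M := by exact_mod_cast hM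
  have hM0 : (0 : ℝ) < M := by exact_mod_cast hM
  have ha0 : 0 < a := lt_of_lt_of_le (Real.exp_pos _) ha
  have hQ0 : (0 : ℝ) < Q := by exact_mod_cast (by omega : 0 < Q)
  have hH0 : (0 : ℝ) < H := lt_of_lt_of_le (by positivity) hH
  have hHn : 0 < H := by exact_mod_cast hH0
  have hm0 : (1 : ℝ) ≤ m := by exact_mod_cast hm
  set ρ : ℝ := (1 - l₀) / (48 * m) with hρdef
  have hρ0 : 0 ≤ ρ := div_nonneg (by linarith) (by positivity)
  set F := (farey Q).filter (fun θ => ¬ ∃ b : ℤ, (M : ℚ) * θ = b) with hF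
  have hdenQ : ∀ θ ∈ farey Q, θ.den ≤ Q := by
    intro θ hθ
    obtain ⟨q, b, hq1, hqQ, _, hθe⟩ := wn_mem_farey hθ
    have h1 : θ.den ∣ q := by
      have h2 : θ = (b : ℤ) / (q : ℤ) := by rw [hθe]; push_cast; rfl
      have h3 := Rat.den_dvd (b : ℤ) (q : ℤ)
      rw [← Rat.divInt_eq_div] at h2
      rw [h2]
      exact_mod_cast h3
    exact (Nat.le_of_dvd (by omega) h1).trans hqQ
  -- the frequencies
  have hfreq : ∀ θ : ℚ, ∃ ξ : ∀ p, ZMod (pN Q p), θ ∈ F →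
      (∀ n : ℤ, ee ((M : ℝ) * (θ : ℝ) * n) = chi ξ (toX (pN Q) n)) ∧ dn ξ ≤ Q ∧
      vq (Kinv * ρ) lam M θ.den ≤
        Kinv * wt (fun p : PI Q => (p : ℕ)) (fun p : PI Q => lam p) ρ ξ := by
    intro θ
    by_cases hθ : θ ∈ F
    · have hθ' := hθ
      rw [hF, mem_filter] at hθ'
      obtain ⟨ξ, hξ⟩ := w2_freq Q M hM lam (fun p => (hlam p).1) ρ Kinv hρ0 hK0 hK1 θ
        (hdenQ θ hθ'.1) hθ'.2
      exact ⟨ξ, fun _ => hξ⟩
    · exact ⟨fun _ => 0, fun h => absurd h hθ⟩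
  choose Ξ hΞ using hfreq
  set ν : ℝ := (H : ℝ) / M with hν
  have hν0 : 0 < ν := by positivity
  set W : (∀ p : PI Q, ZMod (pN Q p)) → ℝ :=
    fun ξ => wt (fun p : PI Q => (p : ℕ)) (fun p : PI Q => lam p) ρ ξ with hW
  have hW0 : ∀ ξ, 0 ≤ W ξ := by
    intro ξ
    rw [hW]
    exact prod_nonneg fun i _ => mul_nonneg hρ0 (pow_nonneg (hlam _).1 _)
  have hlev : ∀ r : ℕ, ∑ ξ ∈ F.image Ξ,
      W ξ * ‖fco 1 ν (wu M r y) (wu M r (y + H)) (wphi A M r y H) ξ‖ ^ 2 ≤ 25 * a ^ 2 := by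
    intro r
    have h := level_ineq (ι := PI Q) (N := pN Q) (fun p : PI Q => (p : ℕ))
      (fun p => Nat.log (p : ℕ) Q) (fun p => fq_prime p) (fun p p' h => Subtype.ext h)
      (fun p => rfl) (fun p : PI Q => lam p) l₀ hl₀ hl₁ (fun p => hlam p) m hm Q (by omega) univ 1
      le_rfl (fun i _ => Nat.coprime_one_left _) 0 (wu M r y) (wu M r (y + H)) ν a
      (wu_len M hM r y H)
      (by
        rw [hν, le_div_iff₀ hM0]
        push_cast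
        linarith [hH])
      (wphi A M r y H) (wphi_nonneg A M r y H) (wphi_le A M r y H)
      (fun n hn => by
        obtain ⟨h1, h2⟩ := wphi_supp A M hM r y H n hn
        exact ⟨h1, h2, by rw [Nat.cast_one]; exact Int.modEq_one⟩)
      ha
      (fun M' h1 h2 _ z => w2_dens M Q H hM hHn a ha0.le A hNI r y M' h1 h2 z)
    refine le_trans ?_ h
    apply sum_le_sum_of_subset_of_nonneg
    · intro ξ hξ
      rw [mem_image] at hξ
      obtain ⟨θ, hθ, rfl⟩ := hξ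
      obtain ⟨_, h2, _⟩ := hΞ θ hθ
      rw [mem_filter]
      exact ⟨mem_univ _, subset_univ _, h2⟩
    · intro ξ _ _
      exact mul_nonneg (hW0 ξ) (by positivity)
  -- one fibre
  have hfib : ∀ ξ ∈ F.image Ξ, ∑ θ ∈ F.filter (fun θ => Ξ θ = ξ),
      ‖∑ x ∈ Ico y (y + H), (if x ∈ A then (1 : ℂ) else 0) * ee (-(x * (θ : ℝ)))‖ ^ 2 ≤
      M * ∑ r ∈ range M, ν ^ 2 *
        ‖fco 1 ν (wu M r y) (wu M r (y + H)) (wphi A M r y H) ξ‖ ^ 2 := by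
    intro ξ hξ
    rw [mem_image] at hξ
    obtain ⟨θ₀, hθ₀, hξe⟩ := hξ
    obtain ⟨hc0, _, _⟩ := hΞ θ₀ hθ₀
    have hT : ∀ θ ∈ F.filter (fun θ => Ξ θ = ξ), 0 ≤ θ ∧ θ < 1 ∧
        ∃ j : ℤ, (M : ℚ) * (θ - θ₀) = j := by
      intro θ hθ
      rw [mem_filter] at hθ
      have hθF := hθ.1
      rw [hF, mem_filter] at hθF
      obtain ⟨h0, h1⟩ := wn_farey_Ico hθF.1
      refine ⟨h0, h1, ?_⟩
      obtain ⟨hc, _, _⟩ := hΞ θ hθ.1
      have h2 : ee ((M : ℝ) * (θ : ℝ) * ((1 : ℤ) : ℝ)) = ee ((M : ℝ) * (θ₀ : ℝ) * ((1 : ℤ) : ℝ)) := by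
        rw [hc 1, hc0 1, hθ.2, hξe]
      have h3 : ee ((M : ℝ) * ((θ : ℝ) - θ₀)) = 1 := by
        have h4 : (M : ℝ) * (θ : ℝ) * ((1 : ℤ) : ℝ) =
            (M : ℝ) * ((θ : ℝ) - θ₀) + (M : ℝ) * (θ₀ : ℝ) * ((1 : ℤ) : ℝ) := by
          push_cast; ring
        rw [h4, fq_ee_add] at h2
        have h5 : ee ((M : ℝ) * (θ₀ : ℝ) * ((1 : ℤ) : ℝ)) ≠ 0 := by
          rw [← norm_ne_zero_iff, wm_norm_ee]
          exact one_ne_zero
        exact mul_eq_right₀ h5 |>.1 h2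
      obtain ⟨j, hj⟩ := wn_ee_one h3
      exact ⟨j, by exact_mod_cast hj⟩
    refine (wn_fiber M hM (Ico y (y + H)) (fun x => if x ∈ A then (1 : ℂ) else 0) θ₀ _ hT).trans ?_
    apply mul_le_mul_of_nonneg_left _ hM0.le
    apply sum_le_sum
    intro r _
    rw [wn_class A M hM r y H (fun x => ee (-(x * (θ₀ : ℝ))))]
    have h6 : ∑ n ∈ Ico (wu M r y) (wu M r (y + H)), (wphi A M r y H n : ℂ) *
        ee (-(((r : ℤ) + M * n : ℤ) * (θ₀ : ℝ))) = ee (-(r * (θ₀ : ℝ))) * (ν *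
          fco 1 ν (wu M r y) (wu M r (y + H)) (wphi A M r y H) ξ) := by
      unfold fco
      have h7 : ((ν : ℝ) : ℂ) * ((((1 : ℕ) : ℝ) / ν : ℝ) : ℂ) = 1 := by
        push_cast
        have : (ν : ℂ) ≠ 0 := by exact_mod_cast hν0.ne'
        field_simp
      rw [← mul_assoc (ν : ℂ), h7, one_mul, mul_sum]
      apply sum_congr rfl
      intro n _
      rw [← hξe, ← hc0 n, wm_conj_ee]
      have h8 : -((((r : ℤ) + M * n : ℤ) : ℝ) * (θ₀ : ℝ)) =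
          -(r * (θ₀ : ℝ)) + -((M : ℝ) * (θ₀ : ℝ) * n) := by
        push_cast; ring
      rw [h8, fq_ee_add]
      ring
    have h9 : ∑ n ∈ Ico (wu M r y) (wu M r (y + H)), (wphi A M r y H n : ℂ) *
        (fun x : ℤ => ee (-(x * (θ₀ : ℝ)))) ((r : ℤ) + M * n) = ee (-(r * (θ₀ : ℝ))) * (ν *
          fco 1 ν (wu M r y) (wu M r (y + H)) (wphi A M r y H) ξ) := h6
    rw [h9, norm_mul, wm_norm_ee, one_mul, norm_mul, Complex.norm_real, Real.norm_eq_abs,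
      abs_of_pos hν0, mul_pow]
  -- the weighted sum over one fibre
  have hfib2 : ∀ ξ ∈ F.image Ξ, ∑ θ ∈ F.filter (fun θ => Ξ θ = ξ),
      vq (Kinv * ρ) lam M θ.den *
      ‖∑ x ∈ Ico y (y + H), (if x ∈ A then (1 : ℂ) else 0) * ee (-(x * (θ : ℝ)))‖ ^ 2 ≤
      (Kinv * W ξ) * (M * ∑ r ∈ range M, ν ^ 2 *
        ‖fco 1 ν (wu M r y) (wu M r (y + H)) (wphi A M r y H) ξ‖ ^ 2) := by
    intro ξ hξ
    calc ∑ θ ∈ F.filter (fun θ => Ξ θ = ξ), vq (Kinv * ρ) lam M θ.den *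
        ‖∑ x ∈ Ico y (y + H), (if x ∈ A then (1 : ℂ) else 0) * ee (-(x * (θ : ℝ)))‖ ^ 2
        ≤ ∑ θ ∈ F.filter (fun θ => Ξ θ = ξ), (Kinv * W ξ) *
        ‖∑ x ∈ Ico y (y + H), (if x ∈ A then (1 : ℂ) else 0) * ee (-(x * (θ : ℝ)))‖ ^ 2 := by
          apply sum_le_sum
          intro θ hθ
          rw [mem_filter] at hθ
          apply mul_le_mul_of_nonneg_right _ (by positivity)
          have := (hΞ θ hθ.1).2.2
          rw [hθ.2] at this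
          exact this
      _ = (Kinv * W ξ) * ∑ θ ∈ F.filter (fun θ => Ξ θ = ξ),
        ‖∑ x ∈ Ico y (y + H), (if x ∈ A then (1 : ℂ) else 0) * ee (-(x * (θ : ℝ)))‖ ^ 2 := by
          rw [mul_sum]
      _ ≤ _ := mul_le_mul_of_nonneg_left (hfib ξ hξ) (mul_nonneg hK0 (hW0 ξ))
  -- summation
  calc ∑ θ ∈ F, vq (Kinv * ρ) lam M θ.den *
      ‖∑ x ∈ Ico y (y + H), (if x ∈ A then (1 : ℂ) else 0) * ee (-(x * (θ : ℝ)))‖ ^ 2
      = ∑ ξ ∈ F.image Ξ, ∑ θ ∈ F.filter (fun θ => Ξ θ = ξ), vq (Kinv * ρ) lam M θ.den *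
        ‖∑ x ∈ Ico y (y + H), (if x ∈ A then (1 : ℂ) else 0) * ee (-(x * (θ : ℝ)))‖ ^ 2 :=
        (sum_fiberwise_of_maps_to (fun θ hθ => mem_image_of_mem Ξ hθ) _).symm
    _ ≤ ∑ ξ ∈ F.image Ξ, (Kinv * W ξ) * (M * ∑ r ∈ range M, ν ^ 2 *
        ‖fco 1 ν (wu M r y) (wu M r (y + H)) (wphi A M r y H) ξ‖ ^ 2) := sum_le_sum hfib2
    _ = Kinv * M * ν ^ 2 * ∑ r ∈ range M, ∑ ξ ∈ F.image Ξ,
        W ξ * ‖fco 1 ν (wu M r y) (wu M r (y + H)) (wphi A M r y H) ξ‖ ^ 2 := by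
        rw [sum_comm, mul_sum]
        apply sum_congr rfl
        intro ξ _
        rw [mul_sum, mul_sum, mul_sum]
        apply sum_congr rfl
        intro r _
        ring
    _ ≤ Kinv * M * ν ^ 2 * ∑ r ∈ range M, (25 * a ^ 2) := by
        apply mul_le_mul_of_nonneg_left _ (by positivity)
        exact sum_le_sum fun r _ => hlev r
    _ = 25 * Kinv * a ^ 2 * (H : ℝ) ^ 2 := by
        rw [sum_const, card_range, nsmul_eq_mul, hν]
        field_simp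

open Classical in
/-- window energy outside the multiples of `1/M`, with weights -/
theorem window_minor2 (Q M m H : ℕ) (hQ : 2 ≤ Q) (hm : 1 ≤ m) (hM : 1 ≤ M) (lam : ℕ → ℝ)
    (l₀ : ℝ) (hl₀ : 0 ≤ l₀) (hl₁ : l₀ < 1) (hlam : ∀ p, 0 ≤ lam p ∧ lam p ≤ l₀) (Kinv : ℝ)
    (hK0 : 0 ≤ Kinv) (hK1 : Kinv ≤ 1) (A : Finset ℤ) (N : ℕ) (α a : ℝ)
    (ha : Real.exp (-(2 * m : ℝ)) ≤ a) (hH : (M : ℝ) * (2 * Q) ^ (8 * m) ≤ H)
    (hNI : NIp (M * Q) H a A) (y : ℤ) :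
    ∑ θ ∈ (farey Q).filter (fun θ => ¬ ∃ b : ℤ, (M : ℚ) * θ = b),
      vq (Kinv * ((1 - l₀) / (48 * m))) lam M θ.den *
        ‖∑ x ∈ Ico y (y + H), (balf A α N x : ℂ) * ee (-(x * (θ : ℝ)))‖ ^ 2 ≤
      50 * Kinv * a ^ 2 * (H : ℝ) ^ 2 + 2 * α ^ 2 * (Q : ℝ) ^ 4 := by
  have hm0 : (1 : ℝ) ≤ m := by exact_mod_cast hm
  set κ₀ : ℝ := Kinv * ((1 - l₀) / (48 * m)) with hκ
  have hρ0 : 0 ≤ (1 - l₀) / (48 * (m : ℝ)) := div_nonneg (by linarith) (by positivity)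
  have hρ1 : (1 - l₀) / (48 * (m : ℝ)) ≤ 1 := by
    rw [div_le_one (by positivity)]
    linarith
  have hκ0 : 0 ≤ κ₀ := mul_nonneg hK0 hρ0
  have hκ1 : κ₀ ≤ 1 := mul_le_one₀ hK1 hρ0 hρ1
  have hv : ∀ q : ℕ, 0 ≤ vq κ₀ lam M q ∧ vq κ₀ lam M q ≤ 1 := fun q =>
    w2_vq_le_one κ₀ hκ0 hκ1 lam l₀ hl₁ hlam M q
  have h1 : ∀ θ ∈ (farey Q).filter (fun θ => ¬ ∃ b : ℤ, (M : ℚ) * θ = b),
      vq κ₀ lam M θ.den * ‖∑ x ∈ Ico y (y + H), (balf A α N x : ℂ) * ee (-(x * (θ : ℝ)))‖ ^ 2 ≤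
      2 * (vq κ₀ lam M θ.den *
        ‖∑ x ∈ Ico y (y + H), (if x ∈ A then (1 : ℂ) else 0) * ee (-(x * (θ : ℝ)))‖ ^ 2) +
        2 * α ^ 2 * (Q : ℝ) ^ 2 := by
    intro θ hθ
    rw [mem_filter] at hθ
    obtain ⟨q, b, hq1, hqQ, _, hθe⟩ := wn_mem_farey hθ.1
    have hθr : (θ : ℝ) = ((b : ℤ) : ℝ) / q := by
      rw [hθe]; push_cast; rfl
    have hne : ∀ n : ℤ, ((b : ℤ) : ℝ) / q ≠ n := by
      intro n hn
      apply hθ.2
      refine ⟨M * n, ?_⟩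
      rw [← hθr] at hn
      have h2 : θ = n := by exact_mod_cast hn
      rw [h2]
      push_cast
      ring
    have h3 := wn_balf A N H α q b hq1 hne y
    rw [← hθr] at h3
    have h4 : (q : ℝ) ^ 2 ≤ (Q : ℝ) ^ 2 := by
      have : (q : ℝ) ≤ Q := by exact_mod_cast hqQ
      exact pow_le_pow_left₀ (by positivity) this 2
    have h5 : 2 * α ^ 2 * (q : ℝ) ^ 2 ≤ 2 * α ^ 2 * (Q : ℝ) ^ 2 :=
      mul_le_mul_of_nonneg_left h4 (by positivity)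
    obtain ⟨hv0, hv1⟩ := hv θ.den
    calc vq κ₀ lam M θ.den *
        ‖∑ x ∈ Ico y (y + H), (balf A α N x : ℂ) * ee (-(x * (θ : ℝ)))‖ ^ 2
        ≤ vq κ₀ lam M θ.den *
          (2 * ‖∑ x ∈ Ico y (y + H), (if x ∈ A then (1 : ℂ) else 0) * ee (-(x * (θ : ℝ)))‖ ^ 2 +
          2 * α ^ 2 * (q : ℝ) ^ 2) := mul_le_mul_of_nonneg_left h3 hv0
      _ = 2 * (vq κ₀ lam M θ.den *
        ‖∑ x ∈ Ico y (y + H), (if x ∈ A then (1 : ℂ) else 0) * ee (-(x * (θ : ℝ)))‖ ^ 2) +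
          vq κ₀ lam M θ.den * (2 * α ^ 2 * (q : ℝ) ^ 2) := by ring
      _ ≤ _ := by
          have h6 : vq κ₀ lam M θ.den * (2 * α ^ 2 * (q : ℝ) ^ 2) ≤ 1 * (2 * α ^ 2 * (q : ℝ) ^ 2) :=
            mul_le_mul_of_nonneg_right hv1 (by positivity)
          linarith
  refine (sum_le_sum h1).trans ?_
  rw [sum_add_distrib, ← mul_sum, sum_const, nsmul_eq_mul]
  have h2 := w2_energy Q M m H hQ hm hM lam l₀ hl₀ hl₁ hlam Kinv hK0 hK1 A a ha hH hNI y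
  have h3 : ((((farey Q).filter (fun θ => ¬ ∃ b : ℤ, (M : ℚ) * θ = b)).card : ℕ) : ℝ)
      ≤ (Q : ℝ) ^ 2 := by
    exact_mod_cast (card_filter_le _ _).trans (wn_card_farey Q)
  have h4 : ((((farey Q).filter (fun θ => ¬ ∃ b : ℤ, (M : ℚ) * θ = b)).card : ℕ) : ℝ) *
      (2 * α ^ 2 * (Q : ℝ) ^ 2) ≤ (Q : ℝ) ^ 2 * (2 * α ^ 2 * (Q : ℝ) ^ 2) :=
    mul_le_mul_of_nonneg_right h3 (by positivity)
  calc _ ≤ 2 * (25 * Kinv * a ^ 2 * (H : ℝ) ^ 2) + (Q : ℝ) ^ 2 * (2 * α ^ 2 * (Q : ℝ) ^ 2) := by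
        linarith
    _ = _ := by ring

end Vale.Agent.P042.GS
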