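import Vale.Agent.P042.FS.Step
import Vale.Agent.P042.GS.CsBound
import Vale.Agent.P042.GS.WinMinor2

namespace Vale.Agent.P042.GS

open Finset Vale.Agent.P042.FS

/-- from windows to intervals -/
theorem interval_of_window (H : ℕ) (hH : 1 ≤ H) (a : ℝ) (ha : 0 ≤ a) (A : Finset ℤ)
    (hw : ∀ u : ℤ, ((A.filter (fun x => u ≤ x ∧ x < u + H)).card : ℝ) ≤ a * H) (u : ℤ) (W : ℕ) :
    ((A.filter (fun x => u ≤ x ∧ x < u + W)).card : ℝ) ≤ a * (W + H) := by
  set J := W / H + 1 with hJ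
  have h2 : A.filter (fun x => u ≤ x ∧ x < u + W) ⊆ (range J).biUnion (fun j =>
      A.filter (fun x => u + j * H ≤ x ∧ x < u + j * H + H)) := by
    intro x hx
    rw [Finset.mem_filter] at hx
    obtain ⟨hxA, hx1, hx2⟩ := hx
    rw [Finset.mem_biUnion]
    obtain ⟨n, hn⟩ : ∃ n : ℕ, x = u + n := ⟨(x - u).toNat, by omega⟩
    have hnW : n < W := by omega
    refine ⟨n / H, ?_, ?_⟩
    · rw [Finset.mem_range, hJ]
      exact Nat.lt_succ_of_le (Nat.div_le_div_right hnW.le)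
    · rw [Finset.mem_filter]
      refine ⟨hxA, ?_, ?_⟩
      · have := Nat.div_mul_le_self n H
        have : ((n / H : ℕ) : ℤ) * H ≤ n := by exact_mod_cast this
        omega
      · have := Nat.lt_div_mul_add (a := n) hH
        have : (n : ℤ) < ((n / H : ℕ) : ℤ) * H + H := by exact_mod_cast this
        omega
  have h3 : ((A.filter (fun x => u ≤ x ∧ x < u + W)).card : ℝ) ≤ J * (a * H) := by
    calc ((A.filter (fun x => u ≤ x ∧ x < u + W)).card : ℝ) ≤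
        (((range J).biUnion (fun j : ℕ =>
        A.filter (fun x => u + j * H ≤ x ∧ x < u + j * H + H))).card : ℝ) := by
          exact_mod_cast Finset.card_le_card h2
      _ ≤ ((∑ j ∈ range J, (A.filter (fun x => u + (j : ℤ) * H ≤ x ∧
            x < u + (j : ℤ) * H + H)).card : ℕ) : ℝ) := by
          exact_mod_cast Finset.card_biUnion_le
      _ ≤ ∑ j ∈ range J, a * H := by
          push_cast
          exact Finset.sum_le_sum fun j _ => hw _
      _ = J * (a * H) := by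
          rw [Finset.sum_const, Finset.card_range, nsmul_eq_mul]
  refine le_trans h3 ?_
  have h4 : (J : ℝ) * H ≤ W + H := by
    rw [hJ]
    have := Nat.div_mul_le_self W H
    have h5 : ((W / H : ℕ) : ℝ) * H ≤ W := by exact_mod_cast this
    push_cast
    linarith
  calc (J : ℝ) * (a * H) = a * (J * H) := by ring
    _ ≤ a * (W + H) := mul_le_mul_of_nonneg_left h4 ha

theorem nip_window (P H : ℕ) (hP : 1 ≤ P) (a : ℝ) (A : Finset ℤ) (h : NIp P H a A) (u : ℤ) :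
    ((A.filter (fun x => u ≤ x ∧ x < u + H)).card : ℝ) ≤ a * H := by
  have := h 1 le_rfl hP u 0
  have h2 : A.filter (fun x => u ≤ x ∧ x < u + H ∧ x ≡ 0 [ZMOD ((1 : ℕ) : ℤ)]) =
      A.filter (fun x => u ≤ x ∧ x < u + H) := by
    apply Finset.filter_congr
    intro x _
    constructor
    · rintro ⟨h1, h2, _⟩
      exact ⟨h1, h2⟩
    · rintro ⟨h1, h2⟩
      exact ⟨h1, h2, by rw [Nat.cast_one]; exact Int.modEq_one⟩
  rw [h2] at this
  simpa using this

theorem nip_mono (P P' H : ℕ) (a : ℝ) (A : Finset ℤ) (hPP : P' ≤ P) (h : NIp P H a A) :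
    NIp P' H a A := fun M h1 h2 u z => h M h1 (le_trans h2 hPP) u z

theorem l0_lt_one (C : ℕ) (hC : 1 ≤ C) : l0 C < 1 := by
  unfold l0
  apply Real.rpow_lt_one_of_one_lt_of_neg (by norm_num)
  rw [neg_lt_zero]
  have : (0 : ℝ) < C := by exact_mod_cast hC
  positivity

theorem l0_nonneg (C : ℕ) : 0 ≤ l0 C := by
  unfold l0; positivity

theorem lamC_bounds (C : ℕ) (hC : 1 ≤ C) (p : ℕ) : 0 ≤ lamC C p ∧ lamC C p ≤ l0 C := by
  unfold lamC l0
  split_ifs with h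
  · refine ⟨by positivity, ?_⟩
    rw [Real.rpow_neg (by positivity), Real.rpow_neg (by positivity)]
    apply inv_anti₀ (by positivity)
    apply Real.rpow_le_rpow (by norm_num) (by exact_mod_cast h)
    positivity
  · exact ⟨le_rfl, by positivity⟩

theorem kap_nonneg (C L : ℕ) (hC : 1 ≤ C) : 0 ≤ kap C L := by
  unfold kap
  have := l0_lt_one C hC
  have : 0 ≤ 1 - l0 C := by linarith
  positivity

theorem vq_nonneg (κ₀ : ℝ) (hκ : 0 ≤ κ₀) (lam : ℕ → ℝ) (hlam : ∀ p, 0 ≤ lam p) (M q : ℕ) :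
    0 ≤ vq κ₀ lam M q := by
  unfold vq
  exact Finset.prod_nonneg fun p _ => mul_nonneg hκ (pow_nonneg (hlam p) _)

/-- if `Mθ` is an integer the weight is one -/
theorem vq_eq_one (κ₀ : ℝ) (lam : ℕ → ℝ) (M : ℕ) (hM : 1 ≤ M) (θ : ℚ)
    (h : ∃ b : ℤ, (M : ℚ) * θ = b) : vq κ₀ lam M θ.den = 1 := by
  unfold vq
  apply Finset.prod_eq_one
  intro p hp
  exfalso
  rw [Finset.mem_filter] at hp
  obtain ⟨b, hb⟩ := h
  have hden : θ.den ∣ M := by
    have h1 : (θ.den : ℤ) ∣ M := by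
      have h2 : (M : ℚ) * θ.num = b * θ.den := by
        rw [← hb, mul_assoc, Rat.mul_den_eq_num]
      have h3 : (M : ℤ) * θ.num = b * θ.den := by exact_mod_cast h2
      have h4 : (θ.den : ℤ) ∣ (M : ℤ) * θ.num := ⟨b, by rw [h3]; ring⟩
      have h5 : IsCoprime (θ.den : ℤ) θ.num := by
        rw [Int.isCoprime_iff_gcd_eq_one]
        have := θ.reduced
        rw [Nat.Coprime] at this
        rw [Int.gcd_comm]
        simpa [Int.gcd] using this
      exact h5.dvd_of_dvd_mul_right h4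
    exact_mod_cast h1
  have := (Nat.factorization_le_iff_dvd θ.den_ne_zero (by omega)).mpr hden p
  omega

/-- numerical part -/
theorem level_num2 (α N H q S1 S2 : ℝ) (hN : 0 ≤ N) (hH : 0 < H)
    (h1 : S1 ≤ α ^ 2 * N * H ^ 2 * (12 / 10000))
    (h2 : S2 ≤ (2 * N) * (50 * (1 / 10 ^ 5) * ((1 + 1 / 1000) * α) ^ 2 * H ^ 2 +
        2 * α ^ 2 * q ^ 4)) (hq : q ^ 4 ≤ 1 / 10000 * H ^ 2) :
    4 / H ^ 2 * (S1 + S2) ≤ α ^ 2 * N * (11 / 1000) := by
  have hα2 : 0 ≤ α ^ 2 := sq_nonneg α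
  have e2 : 2 * α ^ 2 * q ^ 4 ≤ α ^ 2 * H ^ 2 * (2 / 10000) := by
    calc 2 * α ^ 2 * q ^ 4 ≤ 2 * α ^ 2 * (1 / 10000 * H ^ 2) :=
          mul_le_mul_of_nonneg_left hq (by positivity)
      _ = _ := by ring
  have e3 : (2 * N) * (50 * (1 / 10 ^ 5) * ((1 + 1 / 1000) * α) ^ 2 * H ^ 2 +
        2 * α ^ 2 * q ^ 4) ≤ α ^ 2 * N * H ^ 2 * (15 / 10000) := by
    calc _ ≤ (2 * N) * (50 * (1 / 10 ^ 5) * ((1 + 1 / 1000) * α) ^ 2 * H ^ 2 +
          α ^ 2 * H ^ 2 * (2 / 10000)) := by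
          apply mul_le_mul_of_nonneg_left _ (by positivity)
          linarith
      _ ≤ _ := by
          have : (0 : ℝ) ≤ α ^ 2 * N * H ^ 2 := by positivity
          nlinarith
  calc 4 / H ^ 2 * (S1 + S2) ≤ 4 / H ^ 2 * (α ^ 2 * N * H ^ 2 * (12 / 10000) +
        α ^ 2 * N * H ^ 2 * (15 / 10000)) := by
        apply mul_le_mul_of_nonneg_left _ (by positivity)
        linarith
    _ = α ^ 2 * N * (108 / 10000) := by
        field_simp
        ring
    _ ≤ _ := by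
        apply mul_le_mul_of_nonneg_left _ (by positivity)
        norm_num

open Classical in
/-- weighted energy for one modulus -/
theorem modulus_bound (C L Q M H N : ℕ) (hC : 1 ≤ C) (hL : 1 ≤ L) (hQ : 2 ≤ Q) (hM : 1 ≤ M)
    (A : Finset ℤ) (α : ℝ) (hA : ∀ x ∈ A, 0 ≤ x ∧ x < N)
    (hα : (A.card : ℝ) = α * N) (hαL : Real.exp (-(L : ℝ)) ≤ α)
    (hHM : (M : ℝ) * (2 * Q) ^ (8 * L + 18) ≤ H) (hHN : 65536 * H ≤ N)
    (hNI : NIp (M * Q) H ((1 + 1 / 1000) * α) A) :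
    ∑ θ ∈ farey Q, vq (kap C L) (lamC C) M θ.den * (4 / (H : ℝ) ^ 2 *
      ∑ y ∈ Ico (-(H : ℤ)) N,
        ‖∑ x ∈ Ico y (y + H), (balf A α N x : ℂ) * ee (-(x * (θ : ℝ)))‖ ^ 2) ≤
      α ^ 2 * N * (11 / 1000) := by
  have hα0 : 0 < α := lt_of_lt_of_le (Real.exp_pos _) hαL
  have hMR : (1 : ℝ) ≤ M := by exact_mod_cast hM
  have hQR : (2 : ℝ) ≤ Q := by exact_mod_cast hQ
  have h2Q : (4 : ℝ) ≤ 2 * Q := by linarith
  have hpw : ∀ e : ℕ, e ≤ 8 * L + 18 → (2 * (Q : ℝ)) ^ e ≤ (2 * Q) ^ (8 * L + 18) := fun e he =>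
    pow_le_pow_right₀ (by linarith) he
  have hHM18 : (M : ℝ) * (2 * Q) ^ 18 ≤ H := by
    refine le_trans ?_ hHM
    exact mul_le_mul_of_nonneg_left (hpw 18 (by omega)) (by linarith)
  have h418 : (4 : ℝ) ^ 18 ≤ (2 * Q) ^ 18 := pow_le_pow_left₀ (by norm_num) h2Q 18
  have hHR : (0 : ℝ) < H := by
    refine lt_of_lt_of_le ?_ hHM18
    positivity
  have hNR : (0 : ℝ) < N := by
    have : (65536 : ℝ) * H ≤ N := by exact_mod_cast hHN
    linarith
  have hMH : M ≤ H := by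
    have : (M : ℝ) ≤ H := by
      refine le_trans ?_ hHM18
      have : (1 : ℝ) ≤ (2 * Q) ^ 18 := one_le_pow₀ (by linarith)
      nlinarith
    exact_mod_cast this
  have hHN' : H ≤ N := by omega
  have hmaj := window_major A N M H α (1 / 1000) hM hMH hHN' hA hα hα0 (by norm_num)
    (by norm_num)
    (by
      intro u z
      have := hNI M hM (Nat.le_mul_of_pos_right _ (by omega)) u z
      exact this)
    ((farey Q).filter (fun θ => ∃ b : ℤ, (M : ℚ) * θ = b))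
    (by
      intro θ hθ
      rw [Finset.mem_filter] at hθ
      exact ⟨(farey_mem _ θ hθ.1).1, (farey_mem _ θ hθ.1).2, hθ.2⟩)
  have hmin := window_minor2 Q M L H hQ hL hM (lamC C) (l0 C) (l0_nonneg C) (l0_lt_one C hC)
    (lamC_bounds C hC) (1 / 10 ^ 5) (by norm_num) (by norm_num) A N α ((1 + 1 / 1000) * α)
    (by
      have e1 : Real.exp (-(2 * L : ℝ)) ≤ Real.exp (-(L : ℝ)) := by
        apply Real.exp_le_exp.mpr
        have : (0 : ℝ) ≤ L := Nat.cast_nonneg _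
        linarith
      have e2 : α ≤ (1 + 1 / 1000) * α := by linarith
      linarith)
    (by
      refine le_trans ?_ hHM
      exact mul_le_mul_of_nonneg_left (hpw (8 * L) (by omega)) (by linarith))
    hNI
  have hkap : 1 / 10 ^ 5 * ((1 - l0 C) / (48 * (L : ℝ))) = kap C L := rfl
  rw [hkap] at hmin
  -- exchange sums
  have hex : ∑ θ ∈ farey Q, vq (kap C L) (lamC C) M θ.den * (4 / (H : ℝ) ^ 2 *
      ∑ y ∈ Ico (-(H : ℤ)) N,
        ‖∑ x ∈ Ico y (y + H), (balf A α N x : ℂ) * ee (-(x * (θ : ℝ)))‖ ^ 2) =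
      4 / (H : ℝ) ^ 2 * (∑ y ∈ Ico (-(H : ℤ)) N,
        ∑ θ ∈ (farey Q).filter (fun θ => ∃ b : ℤ, (M : ℚ) * θ = b),
        ‖∑ x ∈ Ico y (y + H), (balf A α N x : ℂ) * ee (-(x * (θ : ℝ)))‖ ^ 2 +
        ∑ y ∈ Ico (-(H : ℤ)) N,
        ∑ θ ∈ (farey Q).filter (fun θ => ¬ ∃ b : ℤ, (M : ℚ) * θ = b),
        vq (kap C L) (lamC C) M θ.den *
        ‖∑ x ∈ Ico y (y + H), (balf A α N x : ℂ) * ee (-(x * (θ : ℝ)))‖ ^ 2) := by
    rw [← Finset.sum_add_distrib, Finset.mul_sum]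
    have e1 : ∀ θ ∈ farey Q, vq (kap C L) (lamC C) M θ.den * (4 / (H : ℝ) ^ 2 *
      ∑ y ∈ Ico (-(H : ℤ)) N,
        ‖∑ x ∈ Ico y (y + H), (balf A α N x : ℂ) * ee (-(x * (θ : ℝ)))‖ ^ 2) =
      ∑ y ∈ Ico (-(H : ℤ)) N, 4 / (H : ℝ) ^ 2 * (vq (kap C L) (lamC C) M θ.den *
        ‖∑ x ∈ Ico y (y + H), (balf A α N x : ℂ) * ee (-(x * (θ : ℝ)))‖ ^ 2) := by
      intro θ _
      rw [Finset.mul_sum, Finset.mul_sum]
      apply Finset.sum_congr rfl
      intro y _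
      ring
    rw [Finset.sum_congr rfl e1, Finset.sum_comm]
    apply Finset.sum_congr rfl
    intro y _
    rw [← Finset.mul_sum]
    congr 1
    rw [← Finset.sum_filter_add_sum_filter_not (farey Q) (fun θ => ∃ b : ℤ, (M : ℚ) * θ = b)]
    congr 1
    apply Finset.sum_congr rfl
    intro θ hθ
    rw [Finset.mem_filter] at hθ
    rw [vq_eq_one _ _ _ hM θ hθ.2, one_mul]
  rw [hex]
  refine level_num2 α N H Q _ _ hNR.le hHR (le_trans hmaj ?_) ?_ ?_
  · apply mul_le_mul_of_nonneg_left _ (by positivity)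
    have hb1 : 3 * (M : ℝ) / H ≤ 1 / 10000 := by
      rw [div_le_div_iff₀ hHR (by norm_num)]
      have : (M : ℝ) * 4 ^ 18 ≤ H := by
        refine le_trans ?_ hHM18
        exact mul_le_mul_of_nonneg_left h418 (by linarith)
      linarith
    have hb2 : 5 * (H : ℝ) / N ≤ 1 / 10000 := by
      rw [div_le_div_iff₀ hNR (by norm_num)]
      have h2 : 65536 * (H : ℝ) ≤ N := by exact_mod_cast hHN
      linarith
    linarith
  · calc _ ≤ ∑ y ∈ Ico (-(H : ℤ)) N,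
          (50 * (1 / 10 ^ 5) * ((1 + 1 / 1000) * α) ^ 2 * (H : ℝ) ^ 2 +
          2 * α ^ 2 * (Q : ℝ) ^ 4) := Finset.sum_le_sum fun y _ => hmin y
      _ = (((N : ℤ) - (-(H : ℤ))).toNat : ℝ) *
          (50 * (1 / 10 ^ 5) * ((1 + 1 / 1000) * α) ^ 2 * (H : ℝ) ^ 2 +
          2 * α ^ 2 * (Q : ℝ) ^ 4) := by
          rw [Finset.sum_const, Int.card_Ico, nsmul_eq_mul]
      _ ≤ _ := by
          apply mul_le_mul_of_nonneg_right _ (by positivity)
          have : ((N : ℤ) - (-(H : ℤ))).toNat ≤ 2 * N := by omega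
          exact_mod_cast this
  · have e1 : (2 * (Q : ℝ)) ^ 18 ≤ H := by
      refine le_trans ?_ hHM18
      have : (0 : ℝ) ≤ (2 * Q) ^ 18 := by positivity
      nlinarith
    have e2 : (4 : ℝ) ^ 14 * (Q : ℝ) ^ 4 ≤ (2 * (Q : ℝ)) ^ 18 := by
      calc (4 : ℝ) ^ 14 * (Q : ℝ) ^ 4 ≤ (2 * (Q : ℝ)) ^ 14 * (2 * (Q : ℝ)) ^ 4 := by
            apply mul_le_mul (pow_le_pow_left₀ (by norm_num) h2Q 14) _ (by positivity)
              (by positivity)
            exact pow_le_pow_left₀ (by linarith) (by linarith) 4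
        _ = (2 * (Q : ℝ)) ^ 18 := by ring
    have e3 : (1 : ℝ) ≤ H := by
      have : (1 : ℝ) ≤ (2 * (Q : ℝ)) ^ 18 := one_le_pow₀ (by linarith)
      linarith
    nlinarith

end Vale.Agent.P042.GS
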