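import Mathlib

namespace Vale.Agent.P042.GS

open Finset Polynomial

section Step

variable {F : Type*} [Field F]

/-- multiplication by `y` modulo `y ^ p = y + f` -/
noncomputable def mulY (p : ℕ) (f : F[X]) (a : ℕ → F[X]) : ℕ → F[X] := fun j =>
  if j = 0 then a (p - 1) * f else if j = 1 then a 0 + a (p - 1) else a (j - 1)

noncomputable def e0 : ℕ → F[X] := fun j => if j = 0 then 1 else 0

/-- the monomial `x ^ i * y ^ n` -/
noncomputable def EE (p : ℕ) (f : F[X]) (i n : ℕ) : ℕ → F[X] :=
  fun j => X ^ i * ((mulY p f)^[n] e0) j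

/-- weight at most `m` -/
def WW (p k : ℕ) (m : ℤ) (a : ℕ → F[X]) : Prop :=
  ∀ j < p, ∀ i : ℕ, (a j).coeff i ≠ 0 → ((p : ℤ) * i + j * k) ≤ m

lemma mulY_WW {p k : ℕ} (hp : 2 ≤ p) {f : F[X]} (hf : f.natDegree = k) (hk : 1 ≤ k) (m : ℤ)
    (a : ℕ → F[X]) : WW p k m (mulY p f a) ↔ WW p k (m - k) a := by
  have hf0 : f ≠ 0 := by
    rintro rfl
    simp at hf
    omega
  have hp1 : ((p - 1 : ℕ) : ℤ) = p - 1 := by
    rw [Nat.cast_sub (by omega)]; simp
  have hk0 : (0 : ℤ) ≤ k := by positivity
  have hp0 : (2 : ℤ) ≤ p := by exact_mod_cast hp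
  constructor
  · intro h
    have H : ∀ i : ℕ, (a (p - 1)).coeff i ≠ 0 → (p : ℤ) * i + (p - 1) * k ≤ m - k := by
      intro i hi
      have hne : a (p - 1) ≠ 0 := by
        intro h0
        rw [h0] at hi
        simp at hi
      have h1 := h 0 (by omega) ((a (p - 1)).natDegree + f.natDegree) (by
        have : mulY p f a 0 = a (p - 1) * f := by simp [mulY]
        rw [this, coeff_mul_degree_add_degree]
        exact mul_ne_zero (leadingCoeff_ne_zero.mpr hne) (leadingCoeff_ne_zero.mpr hf0))
      have h2 : i ≤ (a (p - 1)).natDegree := le_natDegree_of_ne_zero hi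
      have h3 : (p : ℤ) * i ≤ p * (a (p - 1)).natDegree :=
        mul_le_mul_of_nonneg_left (by exact_mod_cast h2) (by positivity)
      rw [hf] at h1
      push_cast at h1
      nlinarith
    intro j hj i hi
    by_cases hjp : j = p - 1
    · rw [hjp, hp1]
      exact H i (by rw [hjp] at hi; exact hi)
    by_cases hj0 : j = 0
    · subst hj0
      by_cases hi2 : (a (p - 1)).coeff i ≠ 0
      · have := H i hi2
        push_cast
        nlinarith
      · push Not at hi2
        have h1 := h 1 (by omega) i (by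
          have : mulY p f a 1 = a 0 + a (p - 1) := by simp [mulY]
          rw [this, coeff_add, hi2, add_zero]
          exact hi)
        push_cast at h1 ⊢
        linarith
    · have h1 := h (j + 1) (by omega) i (by
        have : mulY p f a (j + 1) = a j := by
          simp only [mulY]
          rw [if_neg (by omega), if_neg (by omega)]
          congr 1
        rw [this]
        exact hi)
      push_cast at h1 ⊢
      linarith
  · intro h j hj i hi
    by_cases hj0 : j = 0
    · subst hj0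
      have e : mulY p f a 0 = a (p - 1) * f := by simp [mulY]
      rw [e, coeff_mul] at hi
      obtain ⟨⟨i1, i2⟩, hmem, hne⟩ := Finset.exists_ne_zero_of_sum_ne_zero hi
      rw [HasAntidiagonal.mem_antidiagonal] at hmem
      simp only at hmem hne
      have h1 := h (p - 1) (by omega) i1 (left_ne_zero_of_mul hne)
      have h2 : i2 ≤ k := by rw [← hf]; exact le_natDegree_of_ne_zero (right_ne_zero_of_mul hne)
      rw [hp1] at h1
      have h3 : (i : ℤ) = i1 + i2 := by exact_mod_cast hmem.symm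
      have h4 : (p : ℤ) * i2 ≤ p * k := mul_le_mul_of_nonneg_left (by exact_mod_cast h2) (by positivity)
      rw [h3]
      push_cast
      nlinarith
    by_cases hj1 : j = 1
    · subst hj1
      have e : mulY p f a 1 = a 0 + a (p - 1) := by simp [mulY]
      rw [e, coeff_add] at hi
      by_cases h0 : (a 0).coeff i ≠ 0
      · have h1 := h 0 (by omega) i h0
        push_cast at h1 ⊢
        linarith
      · push Not at h0
        rw [h0, zero_add] at hi
        have h1 := h (p - 1) (by omega) i hi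
        rw [hp1] at h1
        push_cast
        nlinarith
    · have e : mulY p f a j = a (j - 1) := by
        simp only [mulY]
        rw [if_neg hj0, if_neg hj1]
      rw [e] at hi
      have h1 := h (j - 1) (by omega) i hi
      rw [Nat.cast_sub (by omega)] at h1
      push_cast at h1
      linarith

lemma e0_WW {p k : ℕ} (hp : 2 ≤ p) (m : ℤ) : WW p k m (e0 : ℕ → F[X]) ↔ 0 ≤ m := by
  constructor
  · intro h
    have := h 0 (by omega) 0 (by simp [e0])
    simpa using this
  · intro h j hj i hi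
    by_cases hj0 : j = 0
    · subst hj0
      simp only [e0, if_true, coeff_one] at hi
      have : i = 0 := by
        by_contra h0
        rw [if_neg h0] at hi
        exact hi rfl
      subst this
      simpa using h
    · simp [e0, hj0] at hi

lemma Xpow_WW {p k : ℕ} (m : ℤ) (i : ℕ) (a : ℕ → F[X]) :
    WW p k m (fun j => X ^ i * a j) ↔ WW p k (m - p * i) a := by
  constructor
  · intro h j hj n hn
    have := h j hj (n + i) (by rw [coeff_X_pow_mul]; exact hn)
    push_cast at this
    linarith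
  · intro h j hj n hn
    rw [coeff_X_pow_mul'] at hn
    by_cases hin : i ≤ n
    · rw [if_pos hin] at hn
      have := h j hj (n - i) hn
      rw [Nat.cast_sub hin] at this
      linarith
    · rw [if_neg hin] at hn
      exact absurd rfl hn

lemma EE_WW {p k : ℕ} (hp : 2 ≤ p) {f : F[X]} (hf : f.natDegree = k) (hk : 1 ≤ k) (m : ℤ)
    (i n : ℕ) : WW p k m (EE p f i n) ↔ ((p : ℤ) * i + n * k) ≤ m := by
  have h1 : ∀ (n : ℕ) (m : ℤ), WW p k m ((mulY p f)^[n] e0) ↔ ((n : ℤ) * k) ≤ m := by
    intro n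
    induction n with
    | zero => intro m; simpa using e0_WW (F := F) hp m
    | succ n ih =>
      intro m
      rw [Function.iterate_succ_apply', mulY_WW hp hf hk, ih]
      push_cast
      constructor <;> intro h <;> linarith
  unfold EE
  rw [Xpow_WW, h1]
  constructor <;> intro h <;> linarith

lemma WW_sum {p k : ℕ} {m : ℤ} {ι : Type*} (s : Finset ι) (c : ι → F) (a : ι → ℕ → F[X])
    (h : ∀ i ∈ s, c i ≠ 0 → WW p k m (a i)) :
    WW p k m (fun j => ∑ i ∈ s, C (c i) * a i j) := by
  intro j hj n hn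
  simp only [finsetSum_coeff, coeff_C_mul] at hn
  obtain ⟨i, hi, hne⟩ := Finset.exists_ne_zero_of_sum_ne_zero hn
  exact h i hi (left_ne_zero_of_mul hne) j hj n (right_ne_zero_of_mul hne)

/-- evaluation -/
noncomputable def evv (p : ℕ) (x y : F) (a : ℕ → F[X]) : F := ∑ j ∈ range p, (a j).eval x * y ^ j

lemma evv_mulY {p : ℕ} (hp : 2 ≤ p) {f : F[X]} {x y : F} (h : y ^ p - y = f.eval x)
    (a : ℕ → F[X]) : evv p x y (mulY p f a) = y * evv p x y a := by
  obtain ⟨r, rfl⟩ : ∃ r, p = r + 2 := ⟨p - 2, by omega⟩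
  have e0' : mulY (r + 2) f a 0 = a (r + 1) * f := by simp [mulY]
  have e1 : mulY (r + 2) f a 1 = a 0 + a (r + 1) := by simp [mulY]
  have e2 : ∀ j, mulY (r + 2) f a (j + 2) = a (j + 1) := by
    intro j
    simp [mulY]
  unfold evv
  rw [Finset.sum_range_succ', Finset.sum_range_succ']
  rw [Finset.sum_range_succ (fun j => (a j).eval x * y ^ j) (r + 1),
    Finset.sum_range_succ' (fun j => (a j).eval x * y ^ j) r]
  simp only [e0', zero_add, e1, e2, eval_mul, eval_add, add_assoc, one_add_one_eq_two]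
  rw [← h, mul_add, mul_sum]
  have : ∑ k ∈ range r, eval x (a (k + 1)) * y ^ (k + 2) =
      ∑ i ∈ range r, y * (eval x (a (i + 1)) * y ^ (i + 1)) :=
    Finset.sum_congr rfl fun j _ => by ring
  rw [this]
  ring

lemma evv_EE {p : ℕ} (hp : 2 ≤ p) {f : F[X]} {x y : F} (h : y ^ p - y = f.eval x) (i n : ℕ) :
    evv p x y (EE p f i n) = x ^ i * y ^ n := by
  have h1 : ∀ n, evv p x y ((mulY p f)^[n] e0) = y ^ n := by
    intro n
    induction n with
    | zero =>
      simp only [Function.iterate_zero, id, pow_zero, evv, e0]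
      rw [Finset.sum_eq_single 0]
      · simp
      · intro j _ hj
        simp [hj]
      · intro h
        exact absurd (mem_range.mpr (by omega)) h
    | succ n ih =>
      rw [Function.iterate_succ_apply', evv_mulY hp h, ih]
      ring
  rw [← h1 n]
  unfold EE evv
  rw [mul_sum]
  refine Finset.sum_congr rfl fun j _ => ?_
  rw [eval_mul, eval_pow, eval_X]
  ring

lemma evv_sum {p : ℕ} {x y : F} {ι : Type*} (s : Finset ι) (c : ι → F) (a : ι → ℕ → F[X]) :
    evv p x y (fun j => ∑ i ∈ s, C (c i) * a i j) = ∑ i ∈ s, c i * evv p x y (a i) := by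
  unfold evv
  simp only [eval_finsetSum, eval_mul, eval_C, sum_mul, mul_sum]
  rw [Finset.sum_comm]
  refine Finset.sum_congr rfl fun i _ => Finset.sum_congr rfl fun j _ => by ring

end Step

lemma exists_ij (p : ℕ) [hp : Fact p.Prime] (k : ℕ) (hpk : ¬ p ∣ k) :
    ∃ ii jj : ℕ → ℕ, (∀ i j, j < p → ii (p * i + j * k) = i ∧ jj (p * i + j * k) = j) ∧
      (∀ n, k * p ≤ n → p * ii n + jj n * k = n) ∧ (∀ n, jj n < p) := by
  have hp0 : 0 < p := hp.out.pos
  obtain ⟨v, hv⟩ : ∃ v, (k * v) ≡ 1 [MOD p] := by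
    have hc : Nat.Coprime k p := ((Nat.Prime.coprime_iff_not_dvd hp.out).mpr hpk).symm
    obtain ⟨v, -, hv⟩ := Nat.exists_mul_mod_eq_one_of_coprime hc hp.out.one_lt
    exact ⟨v, by rw [Nat.ModEq, hv, Nat.mod_eq_of_lt hp.out.one_lt]⟩
  have hmod : ∀ n, ((n * v) % p) * k ≡ n [MOD p] := by
    intro n
    calc ((n * v) % p) * k ≡ (n * v) * k [MOD p] := (Nat.mod_modEq _ _).mul_right k
      _ = n * (k * v) := by ring
      _ ≡ n * 1 [MOD p] := hv.mul_left n
      _ = n := mul_one n
  refine ⟨fun n => (n - ((n * v) % p) * k) / p, fun n => (n * v) % p, ?_, ?_, ?_⟩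
  · intro i j hj
    have h1 : ((p * i + j * k) * v) % p = j := by
      have : (p * i + j * k) * v ≡ j [MOD p] := by
        calc (p * i + j * k) * v = p * (i * v) + j * (k * v) := by ring
          _ ≡ 0 + j * 1 [MOD p] :=
            Nat.ModEq.add ((Nat.modEq_zero_iff_dvd).mpr (dvd_mul_right _ _)) (hv.mul_left j)
          _ = j := by ring
      rw [Nat.ModEq, Nat.mod_eq_of_lt hj] at this
      exact this
    refine ⟨?_, h1⟩
    simp only [h1, Nat.add_sub_cancel]
    exact Nat.mul_div_cancel_left i hp0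
  · intro n hn
    simp only
    have h1 : ((n * v) % p) * k ≤ n := by
      refine le_trans ?_ hn
      rw [mul_comm k p]
      exact Nat.mul_le_mul_right k (Nat.mod_lt _ hp0).le
    have h2 : p ∣ n - ((n * v) % p) * k := (Nat.modEq_iff_dvd' h1).mp (hmod n)
    rw [Nat.mul_div_cancel' h2]
    omega
  · intro n
    exact Nat.mod_lt _ hp0

open Classical in
theorem stepanov_main (p : ℕ) [hpp : Fact p.Prime] (k : ℕ) (hk : 1 ≤ k) (hpk : ¬ p ∣ k)
    (F : Type) [Field F] [Fintype F] [CharP F p] (a : ℕ) (_ha : 1 ≤ a)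
    (hF : Fintype.card F = p ^ (2 * a)) (f : F[X]) (hf : f.natDegree = k)
    (hbig : (k * p) ^ 2 + 3 * (k * p) + 1 < p ^ a) :
    p * (univ.filter (fun x : F => ∃ y : F, y ^ p - y = f.eval x)).card ≤
      p ^ (2 * a) + (2 * (k * p) + 1) * p ^ a := by
  have hp2 : 2 ≤ p := hpp.out.two_le
  obtain ⟨ii, jj, hij, hn, hjj⟩ := exists_ij p k hpk
  set q0 := p ^ a with hq0
  set g := k * p with hg
  have hqq : p ^ (2 * a) = q0 * q0 := by rw [hq0, two_mul, pow_add]
  have hgq : g < q0 := by nlinarith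
  set N := q0 * q0 + 2 * g with hN
  -- index types
  let T := Fin (q0 - g)
  let S := Fin (q0 + g + 1)
  let τ : T × S → ℕ := fun x => g + x.1
  let σ : T × S → ℕ := fun x => g + x.2
  have hτ : ∀ x, τ x < q0 := by
    intro x
    have := x.1.2
    show g + (x.1 : ℕ) < q0
    omega
  have hσ : ∀ x, σ x ≤ q0 + 2 * g := by
    intro x
    have := x.2.2
    show g + (x.2 : ℕ) ≤ q0 + 2 * g
    omega
  have hτr : ∀ x, p * ii (τ x) + jj (τ x) * k = τ x := fun x => hn _ (Nat.le_add_right _ _)
  have hσr : ∀ x, p * ii (σ x) + jj (σ x) * k = σ x := fun x => hn _ (Nat.le_add_right _ _)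
  let B : T × S → ℕ → F[X] := fun x =>
    EE p f (q0 * ii (τ x) + ii (σ x)) (q0 * jj (τ x) + jj (σ x))
  let D : T × S → ℕ → F[X] := fun x =>
    EE p f (ii (τ x) + q0 * ii (σ x)) (jj (τ x) + q0 * jj (σ x))
  have hB : ∀ x, WW p k (N : ℤ) (B x) := by
    intro x
    rw [EE_WW hp2 hf hk]
    have h1 : p * (q0 * ii (τ x) + ii (σ x)) + (q0 * jj (τ x) + jj (σ x)) * k =
        q0 * τ x + σ x := by
      nth_rewrite 3 [← hτr x]
      nth_rewrite 3 [← hσr x]
      ring
    have h2 : q0 * τ x + σ x ≤ N := by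
      have h3 := hτ x
      have h4 := hσ x
      have h5 : q0 * (τ x + 1) ≤ q0 * q0 := Nat.mul_le_mul_left q0 h3
      rw [hN]
      nlinarith
    have h3 := h1.le.trans h2
    exact_mod_cast h3
  have hD : ∀ x (m : ℤ), WW p k m (D x) ↔ ((τ x + q0 * σ x : ℕ) : ℤ) ≤ m := by
    intro x m
    have h1 : p * (ii (τ x) + q0 * ii (σ x)) + (jj (τ x) + q0 * jj (σ x)) * k =
        τ x + q0 * σ x := by
      nth_rewrite 3 [← hτr x]
      nth_rewrite 3 [← hσr x]
      ring
    show WW p k m (EE p f _ _) ↔ _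
    rw [EE_WW hp2 hf hk, ← h1]
    push_cast
    rfl
  -- linear algebra
  obtain ⟨d, hd0, hd⟩ : ∃ d : T × S → F, d ≠ 0 ∧ ∀ n : Fin (N + 1),
      ∑ x, d x * (B x (jj n)).coeff (ii n) = 0 := by
    let M : Matrix (Fin (N + 1)) (T × S) F := fun n x => (B x (jj n)).coeff (ii n)
    have hker : LinearMap.ker M.mulVecLin ≠ ⊥ := by
      apply LinearMap.ker_ne_bot_of_finrank_lt
      rw [Module.finrank_fintype_fun_eq_card, Module.finrank_fintype_fun_eq_card, Fintype.card_fin,
        Fintype.card_prod]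
      show _ < Fintype.card (Fin _) * Fintype.card (Fin _)
      rw [Fintype.card_fin, Fintype.card_fin]
      obtain ⟨r, hr⟩ : ∃ r, q0 = g + r := ⟨q0 - g, by omega⟩
      rw [hN, hr, Nat.add_sub_cancel_left]
      rw [hr] at hbig
      nlinarith
    obtain ⟨d, hd, hd0⟩ := (Submodule.ne_bot_iff _).mp hker
    refine ⟨d, hd0, fun n => ?_⟩
    have h1 := congrFun (LinearMap.mem_ker.mp hd) n
    simp only [Matrix.mulVecLin_apply, Matrix.mulVec, dotProduct, Pi.zero_apply] at h1
    rw [← h1]
    exact Finset.sum_congr rfl fun x _ => mul_comm _ _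
  have hd1 : ∀ j < p, ∑ x, C (d x) * B x j = 0 := by
    intro j hj
    ext i
    simp only [finsetSum_coeff, coeff_C_mul, coeff_zero]
    by_cases h : p * i + j * k ≤ N
    · have h1 := hd ⟨p * i + j * k, by omega⟩
      simp only [(hij i j hj).1, (hij i j hj).2] at h1
      exact h1
    · refine Finset.sum_eq_zero fun x _ => ?_
      have h2 : (B x j).coeff i = 0 := by
        by_contra hne
        have := hB x j hj i hne
        exact h (by exact_mod_cast this)
      rw [h2, mul_zero]
  -- Frobenius roots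
  have hfrob : Function.Surjective (iterateFrobenius F p a) :=
    Finite.surjective_of_injective (iterateFrobenius F p a).injective
  choose φ hφ using hfrob
  have hφ' : ∀ y : F, φ y ^ q0 = y := by
    intro y
    have := hφ y
    rwa [iterateFrobenius_def] at this
  let c : T × S → F := fun x => φ (d x)
  have hc : ∀ x, c x ^ q0 = d x := fun x => hφ' (d x)
  let w : ℕ → F[X] := fun j => ∑ x, C (c x) * D x j
  have hwW : WW p k ((q0 * q0 + (2 * g + 1) * q0 : ℕ) : ℤ) w := by
    refine WW_sum univ c D fun x _ _ => ?_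
    rw [hD]
    have h1 := hτ x
    have h2 := hσ x
    have h3 : q0 * σ x ≤ q0 * (q0 + 2 * g) := Nat.mul_le_mul_left q0 h2
    have h4 : τ x + q0 * σ x ≤ q0 * q0 + (2 * g + 1) * q0 := by nlinarith
    exact_mod_cast h4
  have hinj : ∀ x y, τ x + q0 * σ x = τ y + q0 * σ y → x = y := by
    intro x y hxy
    have h1 : τ x = τ y := by
      have h2 := congrArg (· % q0) hxy
      simp only [Nat.add_mul_mod_self_left] at h2
      rwa [Nat.mod_eq_of_lt (hτ x), Nat.mod_eq_of_lt (hτ y)] at h2
    have h2 : σ x = σ y := by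
      rw [h1] at hxy
      have h3 := Nat.add_left_cancel hxy
      exact Nat.eq_of_mul_eq_mul_left (by omega) h3
    have h1' : g + (x.1 : ℕ) = g + (y.1 : ℕ) := h1
    have h2' : g + (x.2 : ℕ) = g + (y.2 : ℕ) := h2
    exact Prod.ext (Fin.ext (by omega)) (Fin.ext (by omega))
  obtain ⟨j0, hj0, hwj⟩ : ∃ j < p, w j ≠ 0 := by
    by_contra hcon
    push Not at hcon
    obtain ⟨x1, hx1⟩ := Function.ne_iff.mp hd0
    have hc1 : c x1 ≠ 0 := by
      intro h0
      apply hx1
      rw [← hc x1, h0, zero_pow (by omega)]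
      rfl
    obtain ⟨x0, hx0, hmax⟩ := Finset.exists_max_image (univ.filter fun x => c x ≠ 0)
      (fun x => τ x + q0 * σ x) ⟨x1, by simp [hc1]⟩
    have hc0 : c x0 ≠ 0 := (mem_filter.mp hx0).2
    have h1 : WW p k (((τ x0 + q0 * σ x0 : ℕ) : ℤ) - 1)
        (fun j => ∑ x ∈ univ.erase x0, C (c x) * D x j) := by
      refine WW_sum _ c D fun x hx hcx => ?_
      rw [hD]
      have h2 := hmax x (by simp [hcx])
      have h3 : τ x + q0 * σ x ≠ τ x0 + q0 * σ x0 := fun h => (ne_of_mem_erase hx) (hinj _ _ h)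
      omega
    have h2 : WW p k (((τ x0 + q0 * σ x0 : ℕ) : ℤ) - 1) (D x0) := by
      intro j hj i hi
      refine h1 j hj i ?_
      have h3 := hcon j hj
      have h4 : C (c x0) * D x0 j + ∑ x ∈ univ.erase x0, C (c x) * D x j = 0 := by
        rw [Finset.add_sum_erase univ (fun x => C (c x) * D x j) (mem_univ x0)]
        exact h3
      have h5 := congrArg (fun P => P.coeff i) h4
      simp only [coeff_add, coeff_C_mul, coeff_zero] at h5
      intro h6
      simp only at h6
      rw [h6, add_zero] at h5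
      exact (mul_ne_zero hc0 hi) h5
    rw [hD] at h2
    omega
  -- vanishing
  have hvan : ∀ x y : F, y ^ p - y = f.eval x → evv p x y w = 0 := by
    intro x y hxy
    have h1 : evv p x y w = ∑ z, c z * (x ^ (ii (τ z) + q0 * ii (σ z)) *
        y ^ (jj (τ z) + q0 * jj (σ z))) := by
      have := evv_sum (p := p) (x := x) (y := y) univ c D
      rw [show evv p x y w = _ from this]
      exact Finset.sum_congr rfl fun z _ => by rw [show evv p x y (D z) = _ from evv_EE hp2 hxy _ _]
    have h2 : evv p x y (fun j => ∑ z, C (d z) * B z j) = ∑ z, d z *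
        (x ^ (q0 * ii (τ z) + ii (σ z)) * y ^ (q0 * jj (τ z) + jj (σ z))) := by
      rw [evv_sum (p := p) (x := x) (y := y) univ d B]
      exact Finset.sum_congr rfl fun z _ => by rw [show evv p x y (B z) = _ from evv_EE hp2 hxy _ _]
    have h3 : evv p x y (fun j => ∑ z, C (d z) * B z j) = 0 := by
      unfold evv
      refine Finset.sum_eq_zero fun j hj => ?_
      show eval x (∑ z, C (d z) * B z j) * y ^ j = 0
      rw [hd1 j (mem_range.mp hj)]
      simp
    have hfix : ∀ y : F, y ^ (q0 * q0) = y := by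
      intro y
      rw [← hqq, ← hF]
      exact FiniteField.pow_card y
    have h4 : (evv p x y w) ^ q0 = 0 := by
      rw [← h3, h2, h1]
      have h5 := map_sum (iterateFrobenius F p a) (fun z : T × S => c z *
        (x ^ (ii (τ z) + q0 * ii (σ z)) * y ^ (jj (τ z) + q0 * jj (σ z)))) univ
      simp only [iterateFrobenius_def] at h5
      rw [hq0] at *
      rw [h5]
      refine Finset.sum_congr rfl fun z _ => ?_
      rw [mul_pow, mul_pow, hc z]
      congr 2
      · rw [← pow_mul, add_mul, pow_add, pow_add]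
        have e : q0 * ii (σ z) * q0 = (q0 * q0) * ii (σ z) := by ring
        rw [← hq0, e, pow_mul x (q0 * q0), hfix x, mul_comm (ii (τ z)) q0]
      · rw [← pow_mul, add_mul, pow_add, pow_add]
        have e : q0 * jj (σ z) * q0 = (q0 * q0) * jj (σ z) := by ring
        rw [← hq0, e, pow_mul y (q0 * q0), hfix y, mul_comm (jj (τ z)) q0]
    exact pow_eq_zero_iff (by omega) |>.mp h4
  -- all coefficients vanish
  have hroots : ∀ x : F, (∃ y : F, y ^ p - y = f.eval x) → (w j0).eval x = 0 := by
    rintro x ⟨y, hy⟩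
    let P : F[X] := ∑ j ∈ range p, C ((w j).eval x) * X ^ j
    have hPdeg : P.degree < p := by
      refine (degree_sum_le _ _).trans_lt ?_
      rw [Finset.sup_lt_iff (by exact WithBot.bot_lt_coe p)]
      intro j hj
      exact (degree_C_mul_X_pow_le _ _).trans_lt (by exact_mod_cast mem_range.mp hj)
    have hinjc : Set.InjOn (fun s : ℕ => y + (s : F)) (range p : Set ℕ) := by
      intro s hs s' hs' h
      have h1 : (s : F) = (s' : F) := add_left_cancel h
      exact CharP.natCast_injOn_Iio F p (by simpa using hs) (by simpa using hs') h1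
    have hP0 : P = 0 := by
      refine eq_zero_of_degree_lt_of_eval_finset_eq_zero ((range p).image fun s : ℕ => y + (s : F))
        ?_ ?_
      · rw [Finset.card_image_of_injOn hinjc, card_range]
        exact hPdeg
      · intro z hz
        obtain ⟨s, hs, rfl⟩ := mem_image.mp hz
        have h1 : (y + (s : F)) ^ p - (y + s) = f.eval x := by
          rw [add_pow_char, ← hy]
          have : (s : F) ^ p = s := by
            have := map_natCast (frobenius F p) s
            rwa [frobenius_def] at this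
          rw [this]
          ring
        have h2 := hvan x _ h1
        simp only [P, eval_finsetSum, eval_mul, eval_C, eval_pow, eval_X]
        exact h2
    have h3 : P.coeff j0 = (w j0).eval x := by
      simp only [P, finsetSum_coeff, coeff_C_mul, coeff_X_pow]
      rw [Finset.sum_eq_single j0]
      · simp
      · intro b _ hb
        simp [hb.symm]
      · intro h
        exact absurd (mem_range.mpr hj0) h
    rw [← h3, hP0, coeff_zero]
  have hcard : (univ.filter (fun x : F => ∃ y : F, y ^ p - y = f.eval x)).card ≤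
      (w j0).natDegree := by
    refine card_le_degree_of_subset_roots ?_
    intro x hx
    rw [mem_roots hwj]
    exact hroots x (by simpa using hx)
  have hdeg := hwW j0 hj0 (w j0).natDegree (by
    rw [coeff_natDegree]
    exact leadingCoeff_ne_zero.mpr hwj)
  have hdeg' : p * (w j0).natDegree + j0 * k ≤ q0 * q0 + (2 * g + 1) * q0 := by
    exact_mod_cast hdeg
  rw [hqq]
  calc p * (univ.filter (fun x : F => ∃ y : F, y ^ p - y = f.eval x)).card
      ≤ p * (w j0).natDegree := Nat.mul_le_mul_left p hcard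
    _ ≤ q0 * q0 + (2 * g + 1) * q0 := by omega

open Classical in
/-- Stepanov's method for `y^p - y = f(x)` -/
theorem stepanov_count (p : ℕ) [Fact p.Prime] (k : ℕ) (hk : 1 ≤ k) (hpk : ¬ p ∣ k) :
    ∃ C : ℝ, 0 < C ∧ ∀ (F : Type) [Field F] [Fintype F] [CharP F p] (a : ℕ), 1 ≤ a →
      Fintype.card F = p ^ (2 * a) → ∀ f : F[X], f.natDegree = k →
      ((univ.filter (fun x : F => ∃ y : F, y ^ p - y = f.eval x)).card : ℝ) ≤
        (p : ℝ) ^ (2 * a - 1) + C * (p : ℝ) ^ a := by
  refine ⟨((k * p : ℕ) : ℝ) ^ 2 + 5 * ((k * p : ℕ) : ℝ) + 2, by positivity, ?_⟩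
  intro F _ _ _ a ha hF f hf
  have hp2 : 2 ≤ p := (Fact.out : p.Prime).two_le
  have hpR : (2 : ℝ) ≤ p := by exact_mod_cast hp2
  have hpa : (0 : ℝ) < (p : ℝ) ^ a := by positivity
  have hpb : (0 : ℝ) < (p : ℝ) ^ (2 * a - 1) := by positivity
  by_cases hbig : (k * p) ^ 2 + 3 * (k * p) + 1 < p ^ a
  · have h := stepanov_main p k hk hpk F a ha hF f hf hbig
    have h1 : (p : ℝ) * ((univ.filter (fun x : F => ∃ y : F, y ^ p - y = f.eval x)).card : ℝ) ≤
        (p : ℝ) ^ (2 * a) + (2 * ((k * p : ℕ) : ℝ) + 1) * (p : ℝ) ^ a := by exact_mod_cast h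
    have h2 : (p : ℝ) ^ (2 * a) = p * (p : ℝ) ^ (2 * a - 1) := by
      rw [← pow_succ']
      congr 1
      omega
    rw [h2] at h1
    have h3 : (2 * ((k * p : ℕ) : ℝ) + 1) * (p : ℝ) ^ a ≤
        p * ((((k * p : ℕ) : ℝ) ^ 2 + 5 * ((k * p : ℕ) : ℝ) + 2) * (p : ℝ) ^ a) := by
      rw [← mul_assoc]
      refine mul_le_mul_of_nonneg_right ?_ hpa.le
      have h4 : (0 : ℝ) ≤ ((k * p : ℕ) : ℝ) := by positivity
      nlinarith [mul_nonneg h4 h4, mul_nonneg (mul_nonneg h4 h4) (by linarith : (0:ℝ) ≤ p),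
        mul_nonneg h4 (by linarith : (0:ℝ) ≤ p)]
    have h5 : (p : ℝ) * ((univ.filter (fun x : F => ∃ y : F, y ^ p - y = f.eval x)).card : ℝ) ≤
        p * ((p : ℝ) ^ (2 * a - 1) +
          (((k * p : ℕ) : ℝ) ^ 2 + 5 * ((k * p : ℕ) : ℝ) + 2) * (p : ℝ) ^ a) := by
      rw [mul_add]
      linarith
    exact le_of_mul_le_mul_left h5 (by linarith)
  · push Not at hbig
    have h1 : (univ.filter (fun x : F => ∃ y : F, y ^ p - y = f.eval x)).card ≤ p ^ a * p ^ a := by
      calc _ ≤ Fintype.card F := card_le_univ _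
        _ = p ^ a * p ^ a := by rw [hF, two_mul, pow_add]
    have h2 : ((univ.filter (fun x : F => ∃ y : F, y ^ p - y = f.eval x)).card : ℝ) ≤
        (p : ℝ) ^ a * (p : ℝ) ^ a := by exact_mod_cast h1
    have h3 : (p : ℝ) ^ a ≤ ((k * p : ℕ) : ℝ) ^ 2 + 3 * ((k * p : ℕ) : ℝ) + 1 := by
      exact_mod_cast hbig
    have h4 : (0 : ℝ) ≤ ((k * p : ℕ) : ℝ) := by positivity
    calc _ ≤ (p : ℝ) ^ a * (p : ℝ) ^ a := h2
      _ ≤ (((k * p : ℕ) : ℝ) ^ 2 + 5 * ((k * p : ℕ) : ℝ) + 2) * (p : ℝ) ^ a :=
        mul_le_mul_of_nonneg_right (by linarith) hpa.le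
      _ ≤ _ := by linarith

end Vale.Agent.P042.GS
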