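import Vale.Agent.P042.GS.Stepanov

namespace Vale.Agent.P042.GS

open Finset Polynomial

/-- additive Hilbert 90 over a prime field, by counting dimensions -/
theorem as_solvable (p : ℕ) [Fact p.Prime] (F : Type) [Field F] [Fintype F]
    [Algebra (ZMod p) F] (z : F) (hz : Algebra.trace (ZMod p) F z = 0) :
    ∃ y : F, y ^ p - y = z := by
  classical
  let φ : F →ₗ[ZMod p] F := (FiniteField.frobeniusAlgHom (ZMod p) F).toLinearMap - LinearMap.id
  have hφ : ∀ y, φ y = y ^ p - y := by
    intro y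
    simp [φ, ZMod.card]
  have hle : LinearMap.range φ ≤ LinearMap.ker (Algebra.trace (ZMod p) F) := by
    rintro _ ⟨y, rfl⟩
    rw [LinearMap.mem_ker, hφ, map_sub]
    have h1 : Algebra.trace (ZMod p) F (y ^ p) = Algebra.trace (ZMod p) F y := by
      have h2 := Algebra.trace_eq_of_algEquiv
        (FiniteField.frobeniusAlgEquivOfAlgebraic (ZMod p) F) y
      rw [FiniteField.coe_frobeniusAlgEquivOfAlgebraic] at h2
      simpa [ZMod.card] using h2
    rw [h1, sub_self]
  have hker : Module.finrank (ZMod p) (LinearMap.ker φ) ≤ 1 := by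
    have hp1 : 1 < p := (Fact.out : p.Prime).one_lt
    have hcard : Nat.card (LinearMap.ker φ) ≤ p := by
      have hsub : ((LinearMap.ker φ : Submodule (ZMod p) F) : Set F) ⊆
          ((X ^ p - X : F[X]).roots.toFinset : Set F) := by
        intro y hy
        rw [SetLike.mem_coe, LinearMap.mem_ker, hφ] at hy
        rw [Finset.mem_coe, Multiset.mem_toFinset,
          Polynomial.mem_roots (FiniteField.X_pow_card_sub_X_ne_zero F hp1)]
        simp [hy]
      calc Nat.card (LinearMap.ker φ) = ((LinearMap.ker φ : Submodule (ZMod p) F) : Set F).ncard :=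
            rfl
        _ ≤ ((X ^ p - X : F[X]).roots.toFinset : Set F).ncard :=
            Set.ncard_le_ncard hsub (Finset.finite_toSet _)
        _ = (X ^ p - X : F[X]).roots.toFinset.card := Set.ncard_coe_finset _
        _ ≤ Multiset.card (X ^ p - X : F[X]).roots := Multiset.toFinset_card_le _
        _ ≤ (X ^ p - X : F[X]).natDegree := Polynomial.card_roots' _
        _ = p := FiniteField.X_pow_card_sub_X_natDegree_eq F hp1
    have h2 := Module.natCard_eq_pow_finrank (K := ZMod p) (V := LinearMap.ker φ)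
    rw [Nat.card_zmod] at h2
    rw [h2] at hcard
    by_contra hcon
    push Not at hcon
    have h3 : p ^ 2 ≤ p ^ Module.finrank (ZMod p) (LinearMap.ker φ) :=
      Nat.pow_le_pow_right (by omega) hcon
    nlinarith
  have hrank := φ.finrank_range_add_finrank_ker
  have hrank2 := (Algebra.trace (ZMod p) F).finrank_range_add_finrank_ker
  have hsurj : LinearMap.range (Algebra.trace (ZMod p) F) = ⊤ :=
    LinearMap.range_eq_top.mpr (Algebra.trace_surjective (ZMod p) F)
  rw [hsurj, finrank_top, Module.finrank_self] at hrank2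
  have heq := Submodule.eq_of_le_of_finrank_le hle (by omega)
  have hz' : z ∈ LinearMap.ker (Algebra.trace (ZMod p) F) := hz
  rw [← heq] at hz'
  obtain ⟨y, hy⟩ := hz'
  exact ⟨y, by rw [← hφ, hy]⟩

open Classical in
theorem fiber_bound (p : ℕ) [Fact p.Prime] (f : (ZMod p)[X]) (k : ℕ) (hk : 1 ≤ k)
    (hf : f.natDegree = k) (F : Type) [Field F] [Fintype F] [Algebra (ZMod p) F] (B : ℝ)
    (hB : ∀ g : F[X], g.natDegree = k →
      ((univ.filter (fun x : F => ∃ y : F, y ^ p - y = g.eval x)).card : ℝ) ≤ B) (s : ZMod p) :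
    ((univ.filter (fun x : F => Algebra.trace (ZMod p) F (aeval x f) = s)).card : ℝ) ≤ B := by
  obtain ⟨c, hc⟩ := Algebra.trace_surjective (ZMod p) F s
  have hdeg : (f.map (algebraMap (ZMod p) F) - C c).natDegree = k := by
    rw [natDegree_sub_C, natDegree_map, hf]
  refine le_trans ?_ (hB _ hdeg)
  rw [Nat.cast_le]
  apply Finset.card_le_card
  intro x hx
  rw [Finset.mem_filter] at hx ⊢
  refine ⟨Finset.mem_univ _, ?_⟩
  apply as_solvable
  rw [eval_sub, eval_C, eval_map, ← aeval_def, map_sub, hx.2, hc, sub_self]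

/-- exponential sums over large fields -/
theorem trace_sum_bound (p : ℕ) [Fact p.Prime] (f : (ZMod p)[X]) (k : ℕ) (hk : 1 ≤ k)
    (hf : f.natDegree = k) (hpk : ¬ p ∣ k) :
    ∃ C : ℝ, 0 < C ∧ ∀ (F : Type) [Field F] [Fintype F] [Algebra (ZMod p) F] (a : ℕ), 1 ≤ a →
      Fintype.card F = p ^ (2 * a) →
      ‖∑ x : F, (ZMod.stdAddChar (Algebra.trace (ZMod p) F (aeval x f)) : ℂ)‖ ≤
        C * (p : ℝ) ^ a := by
  classical
  obtain ⟨C, hC, hst⟩ := stepanov_count p k hk hpk
  have hp1 : 1 < p := (Fact.out : p.Prime).one_lt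
  have hp0 : (0 : ℝ) < p := by exact_mod_cast (by omega : 0 < p)
  refine ⟨2 * p * C, by positivity, ?_⟩
  intro F _ _ _ a ha hcard
  have : CharP F p := charP_of_injective_algebraMap (algebraMap (ZMod p) F).injective p
  set N : ZMod p → ℝ := fun s =>
    ((univ.filter (fun x : F => Algebra.trace (ZMod p) F (aeval x f) = s)).card : ℝ) with hN
  set M : ℝ := (p : ℝ) ^ (2 * a - 1) with hM
  set B : ℝ := C * (p : ℝ) ^ a with hB
  have hNs : ∀ s, N s ≤ M + B := fun s =>
    fiber_bound p f k hk hf F (M + B) (fun g hg => hst F a ha hcard g hg) s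
  have hsum : ∑ s, N s = p * M := by
    have h1 : ∑ s : ZMod p, (univ.filter (fun x : F => Algebra.trace (ZMod p) F (aeval x f) = s)).card
        = Fintype.card F := by
      rw [← Finset.card_univ]
      exact (Finset.card_eq_sum_card_fiberwise (fun x _ => Finset.mem_univ _)).symm
    have h2 : ∑ s, N s = (Fintype.card F : ℝ) := by
      rw [← h1]; push_cast; rfl
    rw [h2, hcard, hM]
    push_cast
    rw [← pow_succ']
    congr 1
    omega
  have hψ : ∑ s : ZMod p, (ZMod.stdAddChar s : ℂ) = 0 := by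
    apply AddChar.sum_eq_zero_of_ne_one
    intro h
    have h1 : (ZMod.stdAddChar (1 : ZMod p) : ℂ) = ZMod.stdAddChar (0 : ZMod p) := by
      rw [h]; simp
    exact one_ne_zero (ZMod.injective_stdAddChar h1)
  have hmain : ∑ x : F, (ZMod.stdAddChar (Algebra.trace (ZMod p) F (aeval x f)) : ℂ) =
      ∑ s : ZMod p, ((N s - M : ℝ) : ℂ) * (ZMod.stdAddChar s : ℂ) := by
    have h1 : ∑ x : F, (ZMod.stdAddChar (Algebra.trace (ZMod p) F (aeval x f)) : ℂ) =
        ∑ s : ZMod p, (N s : ℂ) * (ZMod.stdAddChar s : ℂ) := by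
      rw [← Finset.sum_fiberwise (s := univ)
        (g := fun x : F => Algebra.trace (ZMod p) F (aeval x f))]
      apply Finset.sum_congr rfl
      intro s _
      rw [Finset.sum_congr rfl (g := fun _ => (ZMod.stdAddChar s : ℂ))
        (fun x hx => by rw [(Finset.mem_filter.mp hx).2]), Finset.sum_const, nsmul_eq_mul]
      simp [hN]
    rw [h1]
    have h2 : ∑ s : ZMod p, ((N s - M : ℝ) : ℂ) * (ZMod.stdAddChar s : ℂ) =
        ∑ s : ZMod p, (N s : ℂ) * (ZMod.stdAddChar s : ℂ) -
          (M : ℂ) * ∑ s : ZMod p, (ZMod.stdAddChar s : ℂ) := by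
      rw [Finset.mul_sum, ← Finset.sum_sub_distrib]
      apply Finset.sum_congr rfl
      intro s _
      push_cast
      ring
    rw [h2, hψ, mul_zero, sub_zero]
  rw [hmain]
  have hB0 : 0 ≤ B := by rw [hB]; positivity
  calc ‖∑ s : ZMod p, ((N s - M : ℝ) : ℂ) * (ZMod.stdAddChar s : ℂ)‖
      ≤ ∑ s : ZMod p, ‖((N s - M : ℝ) : ℂ) * (ZMod.stdAddChar s : ℂ)‖ := norm_sum_le _ _
    _ ≤ ∑ s : ZMod p, (2 * B - (N s - M)) := by
        apply Finset.sum_le_sum
        intro s _
        rw [norm_mul, AddChar.norm_apply, mul_one, Complex.norm_real, Real.norm_eq_abs]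
        have := hNs s
        rw [abs_le]
        constructor <;> linarith
    _ = p * (2 * B) - (∑ s : ZMod p, N s - p * M) := by
        rw [Finset.sum_sub_distrib, Finset.sum_sub_distrib]
        simp [ZMod.card]
    _ = 2 * p * C * (p : ℝ) ^ a := by
        rw [hsum, hB]; ring

end Vale.Agent.P042.GS
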