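import Mathlib

namespace Vale.Agent.P042.GS

open Finset Polynomial

variable {p : ℕ} [Fact p.Prime]

/-- monic polynomial with given lower coefficients -/
noncomputable def mkM (r : ℕ) (c : Fin r → ZMod p) : (ZMod p)[X] := X ^ r + ∑ i, C (c i) * X ^ (i : ℕ)

open Classical in
/-- monic polynomials of degree `r` -/
noncomputable def Mset (p : ℕ) [Fact p.Prime] (r : ℕ) : Finset (ZMod p)[X] :=
  univ.image (mkM (p := p) r)

/-- sum of `f` over the roots of `g` -/
noncomputable def rootSum (f g : (ZMod p)[X]) : AlgebraicClosure (ZMod p) :=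
  ((g.map (algebraMap (ZMod p) (AlgebraicClosure (ZMod p)))).roots.map (fun x => aeval x f)).sum

open Classical in
/-- additive character of the root sum -/
noncomputable def lamf (f g : (ZMod p)[X]) : ℂ :=
  if h : ∃ t : ZMod p, algebraMap (ZMod p) (AlgebraicClosure (ZMod p)) t = rootSum f g then
    (ZMod.stdAddChar h.choose : ℂ) else 0

open Classical in
/-- von Mangoldt type sums of a function on polynomials -/
noncomputable def sMang (lam : (ZMod p)[X] → ℂ) (n : ℕ) : ℂ :=
  ∑ d ∈ n.divisors, ∑ P ∈ (Mset p d).filter (fun P => Irreducible P), (d : ℂ) * lam P ^ (n / d)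

end Vale.Agent.P042.GS
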